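import Vale.Agent.P062.Checker

namespace Vale.Agent.P062.PosA.D0

open Vale.Agent.P062

noncomputable def t0 : T := .cons 253 (.cons 254 (.leaf 274 2002 (.cons 278 (.leaf 277 2000 (.leaf 279 2008 .nil)) .nil)) (.cons 229 (.leaf 230 1809 (.cons 228 (.leaf 249 1801 (.cons 204 (.leaf 180 1438 (.cons 277 (.leaf 278 2000 (.leaf 301 1639 .nil)) .nil)) .nil)) .nil)) (.cons 254 (.leaf 274 2002 (.cons 230 (.leaf 229 1809 (.leaf 231 1817 .nil)) .nil)) .nil))) (.cons 225 (.leaf 253 1803 (.cons 224 (.leaf 223 1784 (.leaf 249 1795 .nil)) .nil)) (.cons 253 (.leaf 225 1803 (.cons 230 (.leaf 229 1809 (.cons 254 (.leaf 231 1817 (.cons 278 (.leaf 277 2000 (.leaf 279 2008 .nil)) .nil)) .nil)) .nil)) (.cons 204 (.cons 205 (.leaf 225 1610 (.cons 182 (.leaf 181 1425 (.cons 206 (.leaf 183 1433 (.cons 230 (.leaf 229 1616 (.leaf 231 1624 .nil)) .nil)) .nil)) .nil)) (.cons 228 (.leaf 180 1438 (.cons 229 (.leaf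 249 1801 (.cons 230 (.leaf 205 1616 (.leaf 231 1818 .nil)) .nil)) .nil)) (.cons 228 (.leaf 180 1438 (.cons 249 (.leaf 229 1801 (.cons 224 (.leaf 225 1795 (.cons 248 (.leaf 223 1787 (.cons 274 (.leaf 247 1976 (.leaf 179 1429 .nil)) .nil)) .nil)) .nil)) .nil)) (.cons 225 (.leaf 205 1610 (.cons 224 (.leaf 223 1784 (.leaf 249 1795 .nil)) .nil)) .nil)))) .nil)))
noncomputable def t1 : T := .cons 225 (.leaf 253 1803 (.cons 224 (.leaf 223 1784 (.leaf 249 1795 .nil)) .nil)) (.cons 253 (.leaf 225 1803 (.cons 254 (.leaf 227 1811 (.cons 278 (.leaf 277 2000 (.leaf 279 2008 .nil)) .nil)) .nil)) (.cons 253 (.cons 230 (.leaf 229 1809 (.cons 254 (.leaf 231 1817 (.cons 278 (.leaf 277 2000 (.leaf 279 2008 .nil)) .nil)) .nil)) (.cons 229 (.leaf 230 1809 (.cons 249 (.leaf 228 1801 (.cons 272 (.leaf 273 1986 (.cons 248 (.leaf 271 1978 (.cons 223 (.leaf 224 1787 (.cons 247 (.leaf 227 1785 (.leaf 222 1779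 .nil)) .nil)) .nil)) .nil)) .nil)) .nil)) (.cons 254 (.leaf 227 1811 (.cons 278 (.leaf 277 2000 (.leaf 279 2008 .nil)) .nil)) .nil))) (.cons 249 (.cons 272 (.leaf 273 1986 (.cons 248 (.leaf 271 1978 (.cons 228 (.leaf 227 1793 (.leaf 229 1801 .nil)) .nil)) .nil)) (.cons 224 (.leaf 225 1795 (.cons 248 (.leaf 223 1787 (.cons 228 (.leaf 227 1793 (.leaf 229 1801 .nil)) .nil)) .nil)) (.cons 202 (.leaf 178 1428 (.cons 225 (.leaf 224 1795 (.cons 273 (.leaf 272 1986 (.leaf 297 1613 .nil)) .nil)) .nil)) .nil))) .nil)))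
noncomputable def t2 : T := .cons 202 (.leaf 178 1428 (.cons 274 (.cons 201 (.leaf 177 1423 (.cons 225 (.leaf 298 1615 (.cons 224 (.leaf 223 1784 (.cons 203 (.leaf 204 1602 (.leaf 179 1429 .nil)) .nil)) .nil)) .nil)) (.cons 273 (.leaf 297 1614 (.cons 272 (.leaf 271 1977 (.leaf 252 1985 .nil)) .nil)) .nil)) .nil)) (.cons 202 (.leaf 178 1428 (.cons 274 (.cons 201 (.leaf 177 1423 (.cons 298 (.leaf 225 1615 (.cons 322 (.leaf 227 1813 (.leaf 346 2005 .nil)) .nil)) .nil)) (.cons 297 (.leaf 273 1614 (.cons 298 (.leaf 321 1806 (.cons 322 (.leaf 227 1813 (.leaf 346 2005 .nil)) .nil)) .nil)) (.cons 201 (.leaf 177 1423 (.cons 273 (.leaf 297 1614 (.cons 272 (.leaf 271 1977 (.cons 248 (.leaf 247 1979 (.cons 296 (.leaf 295 2170 (.cons 225 (.leaf 224 1605 (.leaf 249 1606 .nil)) .nil)) .nil)) .nil)) .nil)) .nil)) .nil))) .nil)) (.cons 202 (.leaf 178 1428 (.cons 274 (.cons 273 (.leaf 297 1614 (.cons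 252 (.leaf 272 1985 (.leaf 253 1994 .nil)) .nil)) (.cons 203 (.leaf 179 1429 (.cons 227 (.leaf 298 1621 (.cons 204 (.leaf 180 1437 (.cons 205 (.leaf 206 1618 (.cons 229 (.leaf 230 1616 (.cons 228 (.leaf 201 1608 (.leaf 249 1802 .nil)) .nil)) .nil)) .nil)) .nil)) .nil)) .nil)) .nil)) (.cons 252 t1 (.cons 252 (.cons 253 (.cons 273 (.leaf 274 1994 (.cons 249 (.leaf 272 1986 (.cons 229 (.leaf 228 1801 (.leaf 230 1809 .nil)) .nil)) .nil)) (.cons 230 (.leaf 229 1809 (.cons 254 (.leaf 231 1817 (.cons 278 (.leaf 277 2000 (.leaf 279 2008 .nil)) .nil)) .nil)) (.cons 274 (.leaf 273 1994 (.leaf 254 2002 .nil)) .nil))) (.cons 225 (.leaf 253 1803 (.cons 224 (.leaf 223 1784 (.leaf 227 1792 .nil)) .nil)) (.cons 249 (.cons 272 (.leaf 273 1986 (.cons 248 (.leaf 271 1978 (.cons 228 (.leaf 227 1793 (.leaf 229 1801 .nil)) .nil)) .nil)) (.cons 224 (.leaf 225 1795 (.cons 248 (.leaf 223 1787 (.cons 228 (.leaf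 227 1793 (.leaf 229 1801 .nil)) .nil)) .nil)) (.cons 225 (.leaf 224 1795 (.cons 273 (.leaf 272 1986 (.cons 297 (.leaf 321 1805 (.cons 296 (.leaf 320 1798 (.cons 298 (.leaf 322 1804 (.cons 274 (.leaf 295 2169 (.leaf 201 1612 .nil)) .nil)) .nil)) .nil)) .nil)) .nil)) .nil))) .nil))) (.cons 202 (.leaf 178 1428 (.cons 203 (.cons 179 (.leaf 274 1429 (.cons 155 (.leaf 131 1046 (.leaf 227 1238 .nil)) .nil)) (.cons 225 (.cons 204 (.leaf 205 1610 (.cons 180 (.leaf 227 1437 (.cons 252 (.leaf 253 1803 (.leaf 228 1438 .nil)) .nil)) .nil)) (.cons 204 (.leaf 205 1610 (.cons 227 (.leaf 224 1601 (.leaf 180 1437 .nil)) .nil)) (.cons 252 (.leaf 253 1803 (.cons 224 (.leaf 223 1784 (.leaf 249 1795 .nil)) .nil)) .nil))) (.cons 252 t0 .nil))) .nil)) .nil)))))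
noncomputable def t3 : T := .cons 253 (.leaf 254 2002 (.cons 277 (.leaf 278 2000 (.cons 229 (.leaf 230 1809 (.cons 301 (.cons 324 (.leaf 300 1830 (.cons 325 (.leaf 348 2022 (.cons 326 (.leaf 302 1836 (.leaf 350 2028 .nil)) .nil)) .nil)) (.cons 205 (.cons 180 (.leaf 204 1447 (.cons 181 (.leaf 156 1255 (.cons 182 (.leaf 158 1261 (.leaf 206 1453 .nil)) .nil)) .nil)) (.cons 182 (.leaf 206 1453 (.cons 181 (.leaf 158 1261 (.cons 156 (.leaf 180 1255 (.cons 157 (.leaf 228 1254 (.leaf 132 1063 .nil)) .nil)) .nil)) .nil)) (.cons 182 (.leaf 206 1453 (.cons 181 (.leaf 158 1261 (.cons 228 (.leaf 157 1254 (.leaf 204 1425 .nil)) .nil)) .nil)) (.cons 204 (.leaf 180 1447 (.leaf 228 1639 .nil)) .nil)))) .nil)) .nil)) .nil)) .nil)) (.cons 225 (.leaf 253 1803 (.cons 224 (.leaf 223 1784 (.leaf 249 1795 .nil)) .nil)) (.cons 204 (.cons 228 (.leaf 180 1438 (.cons 249 (.leaf 229 1801 (.cons 224 (.leaf 225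 1795 (.cons 248 (.leaf 247 1976 (.leaf 223 1787 .nil)) .nil)) .nil)) .nil)) (.cons 205 (.leaf 225 1610 (.cons 182 (.leaf 181 1425 (.cons 206 (.leaf 183 1433 (.cons 230 (.leaf 229 1616 (.leaf 231 1624 .nil)) .nil)) .nil)) .nil)) (.cons 225 (.leaf 205 1610 (.cons 224 (.leaf 223 1784 (.leaf 249 1795 .nil)) .nil)) (.cons 228 (.leaf 180 1438 (.cons 229 (.leaf 249 1801 (.cons 230 (.leaf 205 1616 (.leaf 231 1818 .nil)) .nil)) .nil)) .nil)))) .nil))
noncomputable def t4 : T := .cons 224 (.leaf 319 1789 (.cons 200 (.leaf 223 1597 (.leaf 176 1406 .nil)) .nil)) (.cons 319 (.leaf 224 1789 (.cons 246 (.leaf 222 1783 (.cons 343 (.leaf 270 1975 (.cons 342 (.leaf 318 1974 (.leaf 366 2166 .nil)) .nil)) .nil)) .nil)) (.cons 223 (.cons 198 (.leaf 222 1591 (.cons 199 (.leaf 174 1399 (.cons 294 (.leaf 270 1590 (.leaf 318 1782 .nil)) .nil)) .nil)) (.cons 294 (.leaf 318 1782 (.cons 199 (.leaf 270 1590 (.cons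 200 (.leaf 176 1405 (.leaf 224 1597 .nil)) .nil)) .nil)) (.cons 198 (.leaf 222 1591 (.cons 199 (.leaf 174 1399 (.cons 200 (.leaf 176 1405 (.leaf 224 1597 .nil)) .nil)) .nil)) (.cons 222 (.leaf 198 1591 (.cons 221 (.leaf 220 1760 (.cons 294 (.leaf 318 1782 (.cons 224 (.leaf 200 1597 (.cons 197 (.leaf 196 1571 (.cons 270 (.leaf 246 1583 (.cons 245 (.leaf 244 1762 (.leaf 269 1580 .nil)) .nil)) .nil)) .nil)) .nil)) .nil)) .nil)) .nil)))) (.cons 319 (.cons 342 (.leaf 318 1974 (.cons 343 (.leaf 366 2166 (.cons 344 (.leaf 320 1980 (.leaf 368 2172 .nil)) .nil)) .nil)) (.cons 246 (.leaf 222 1783 (.cons 343 (.leaf 270 1975 (.cons 344 (.leaf 320 1980 (.leaf 368 2172 .nil)) .nil)) .nil)) (.cons 222 (.leaf 246 1783 (.cons 223 (.leaf 198 1591 (.cons 318 (.leaf 294 1782 (.leaf 342 1974 .nil)) .nil)) .nil)) .nil))) .nil)))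
noncomputable def t5 : T := .cons 298 (.cons 321 (.leaf 297 1806 (.cons 322 (.leaf 346 2005 (.leaf 345 1998 .nil)) .nil)) (.cons 295 (.cons 297 (.leaf 296 2169 (.leaf 321 1806 .nil)) (.cons 247 (.leaf 249 1976 (.cons 271 t4 .nil)) .nil)) (.cons 249 (.leaf 247 1976 (.cons 322 (.leaf 346 2005 (.leaf 225 1807 .nil)) .nil)) .nil))) (.cons 247 (.leaf 249 1976 (.cons 273 (.leaf 272 1979 (.leaf 297 1614 .nil)) .nil)) (.cons 273 (.leaf 297 1614 (.cons 272 (.leaf 271 1977 (.leaf 247 1979 .nil)) .nil)) (.cons 272 (.cons 271 (.leaf 273 1977 (.leaf 249 1978 .nil)) (.cons 273 (.leaf 271 1977 (.leaf 247 1979 .nil)) (.cons 249 (.leaf 247 1976 (.leaf 271 1978 .nil)) (.cons 247 (.leaf 249 1976 (.leaf 273 1979 .nil)) .nil)))) (.cons 272 (.cons 273 (.leaf 271 1977 (.leaf 297 1614 .nil)) (.cons 224 (.cons 223 (.leaf 225 1784 (.leaf 249 1787 .nil)) (.cons 271 (.leaf 249 1978 (.cons 295 (.leaf 200 1598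 (.cons 319 (.leaf 343 1981 (.leaf 296 1790 .nil)) .nil)) .nil)) (.cons 223 (.leaf 225 1784 (.cons 199 (.leaf 296 1599 (.cons 175 (.leaf 151 1212 (.leaf 200 1407 .nil)) .nil)) .nil)) .nil))) (.cons 297 (.leaf 273 1614 (.cons 321 (.leaf 298 1806 (.cons 224 (.leaf 296 1796 (.cons 223 (.leaf 225 1784 (.leaf 249 1787 .nil)) .nil)) .nil)) .nil)) .nil))) .nil))))
noncomputable def t6 : T := .cons 202 (.leaf 178 1428 (.cons 274 (.cons 273 (.leaf 297 1614 (.cons 272 (.leaf 271 1977 (.leaf 252 1985 .nil)) .nil)) (.cons 203 (.leaf 179 1429 (.cons 227 (.leaf 298 1621 (.cons 204 (.leaf 180 1437 (.cons 205 (.leaf 225 1610 (.leaf 206 1618 .nil)) .nil)) .nil)) .nil)) .nil)) .nil)) (.cons 252 t1 (.cons 202 (.leaf 178 1428 (.cons 203 (.cons 179 (.leaf 274 1429 (.cons 155 (.leaf 131 1046 (.leaf 227 1238 .nil)) .nil)) (.cons 225 (.cons 204 (.leaf 205 1610 (.cons 180 (.leaf 227 1437 (.cons 252 (.leaf 253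 1803 (.leaf 228 1438 .nil)) .nil)) .nil)) (.cons 204 (.leaf 205 1610 (.cons 227 (.leaf 224 1601 (.leaf 180 1437 .nil)) .nil)) (.cons 252 (.leaf 253 1803 (.cons 224 (.leaf 223 1784 (.leaf 249 1795 .nil)) .nil)) .nil))) (.cons 252 t0 .nil))) .nil)) (.cons 252 (.cons 253 (.cons 273 (.leaf 274 1994 (.cons 249 (.leaf 272 1986 (.cons 229 (.leaf 228 1801 (.leaf 230 1809 .nil)) .nil)) .nil)) (.cons 230 (.leaf 229 1809 (.cons 254 (.leaf 231 1817 (.cons 278 (.leaf 277 2000 (.leaf 279 2008 .nil)) .nil)) .nil)) (.cons 274 (.leaf 273 1994 (.leaf 254 2002 .nil)) .nil))) (.cons 225 (.leaf 253 1803 (.cons 224 (.leaf 223 1784 (.leaf 227 1792 .nil)) .nil)) (.cons 249 (.cons 272 (.leaf 273 1986 (.cons 248 (.leaf 271 1978 (.cons 228 (.leaf 227 1793 (.leaf 229 1801 .nil)) .nil)) .nil)) (.cons 224 (.leaf 225 1795 (.cons 248 (.leaf 223 1787 (.cons 228 (.leaf 227 1793 (.leaf 229 1801 .nil)) .nil)) .nil))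 (.cons 225 (.leaf 224 1795 (.cons 273 (.leaf 272 1986 (.cons 297 (.leaf 321 1805 (.cons 296 (.leaf 320 1798 (.cons 298 (.leaf 322 1804 (.cons 295 (.leaf 274 2169 (.cons 270 (.leaf 271 2163 (.cons 294 (.leaf 269 2155 (.cons 318 (.leaf 317 2346 (.leaf 319 2354 .nil)) .nil)) .nil)) .nil)) .nil)) .nil)) .nil)) .nil)) .nil)) .nil))) .nil))) (.cons 202 (.leaf 178 1428 (.cons 274 (.cons 297 (.leaf 273 1614 (.cons 298 (.leaf 321 1806 (.cons 322 (.leaf 227 1813 (.leaf 346 2005 .nil)) .nil)) .nil)) (.cons 203 (.leaf 179 1429 (.cons 227 (.leaf 298 1621 (.cons 204 (.leaf 180 1437 (.cons 205 (.leaf 225 1610 (.leaf 206 1618 .nil)) .nil)) .nil)) .nil)) (.cons 225 (.cons 224 (.leaf 223 1784 (.cons 203 (.leaf 179 1429 (.cons 204 (.leaf 227 1601 (.leaf 205 1610 .nil)) .nil)) .nil)) (.cons 273 (.leaf 297 1614 (.cons 272 (.leaf 271 1977 (.cons 248 (.leaf 247 1979 (.cons 296 (.leaf 295 2170 (.cons 320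 (.leaf 249 1797 (.cons 343 (.leaf 319 1982 (.cons 344 (.leaf 367 2174 (.cons 345 (.leaf 321 1988 (.leaf 369 2180 .nil)) .nil)) .nil)) .nil)) .nil)) .nil)) .nil)) .nil)) .nil)) (.cons 248 t5 .nil)))) .nil)) (.cons 202 (.leaf 178 1428 (.cons 274 (.cons 273 (.leaf 297 1614 (.cons 252 (.leaf 272 1985 (.leaf 253 1994 .nil)) .nil)) (.cons 248 t5 (.cons 203 (.leaf 179 1429 (.cons 252 t3 .nil)) .nil))) .nil)) (.cons 202 (.leaf 178 1428 (.cons 274 (.cons 273 (.leaf 297 1614 (.cons 252 (.leaf 272 1985 (.leaf 253 1994 .nil)) .nil)) (.cons 297 (.leaf 273 1614 (.cons 298 (.leaf 321 1806 (.cons 322 (.leaf 227 1813 (.leaf 346 2005 .nil)) .nil)) .nil)) (.cons 203 (.leaf 179 1429 (.cons 227 (.leaf 298 1621 (.cons 204 (.leaf 180 1437 (.cons 205 (.leaf 206 1618 (.cons 181 (.leaf 182 1425 (.cons 229 (.leaf 230 1616 (.cons 228 (.leaf 249 1802 (.cons 157 (.leaf 133 1062 (.leaf 252 1254 .nil)) .nil)) .nil))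 .nil)) .nil)) .nil)) .nil)) .nil)) .nil))) .nil)) .nil))))))
noncomputable def t7 : T := .cons 273 (.leaf 271 1977 (.leaf 252 1985 .nil)) (.cons 248 (.cons 249 (.leaf 247 1976 (.leaf 271 1978 .nil)) (.cons 201 (.leaf 177 1423 (.cons 203 (.leaf 179 1429 (.cons 227 (.leaf 298 1621 (.cons 200 (.leaf 199 1592 (.cons 176 (.leaf 175 1403 (.cons 224 (.leaf 223 1594 (.cons 271 (.leaf 247 1406 (.leaf 295 1598 .nil)) .nil)) .nil)) .nil)) .nil)) .nil)) .nil)) (.cons 271 (.leaf 249 1978 (.cons 201 (.leaf 177 1423 (.cons 203 (.leaf 179 1429 (.cons 227 (.leaf 298 1621 (.cons 200 (.leaf 199 1592 (.cons 224 (.leaf 223 1594 (.leaf 295 1598 .nil)) .nil)) .nil)) .nil)) .nil)) .nil)) (.cons 247 (.leaf 249 1976 (.cons 201 (.leaf 177 1423 (.cons 203 (.leaf 179 1429 (.cons 227 (.leaf 298 1621 (.cons 199 (.leaf 200 1592 (.cons 223 (.leaf 175 1404 (.cons 296 (.leaf 224 1599 (.leaf 320 1791 .nil)) .nil)) .nil))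 .nil)) .nil)) .nil)) .nil)) .nil)))) (.cons 273 (.leaf 252 1985 (.cons 248 (.leaf 247 1979 (.cons 201 (.leaf 177 1423 (.cons 203 (.leaf 179 1429 (.cons 227 (.leaf 298 1621 (.cons 200 (.leaf 199 1592 (.cons 176 (.leaf 175 1403 (.cons 224 (.leaf 223 1594 (.leaf 249 1412 .nil)) .nil)) .nil)) .nil)) .nil)) .nil)) .nil)) .nil)) .nil))
noncomputable def t8 : T := .cons 201 (.leaf 177 1423 (.cons 225 (.leaf 298 1615 (.cons 252 (.leaf 253 1803 (.cons 224 (.leaf 223 1784 (.leaf 249 1795 .nil)) .nil)) .nil)) .nil)) (.cons 201 (.leaf 177 1423 (.cons 298 (.leaf 225 1615 (.cons 322 (.leaf 227 1813 (.leaf 346 2005 .nil)) .nil)) .nil)) (.cons 252 (.cons 253 (.leaf 254 2002 (.cons 229 (.leaf 230 1809 (.cons 249 (.leaf 228 1801 (.cons 224 (.leaf 225 1795 (.cons 248 (.leaf 247 1976 (.leaf 223 1787 .nil)) .nil)) .nil)) .nil)) .nil)) (.cons 225 (.leaf 253 1803 (.cons 224 (.leaf 223 1784 (.leaf 227 1792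 .nil)) .nil)) (.cons 249 (.cons 228 (.leaf 229 1801 (.cons 248 (.leaf 247 1976 (.leaf 227 1793 .nil)) .nil)) (.cons 224 (.leaf 225 1795 (.cons 248 (.leaf 247 1976 (.leaf 223 1787 .nil)) .nil)) (.cons 201 (.leaf 177 1423 (.cons 224 (.leaf 225 1795 (.cons 228 (.leaf 229 1801 (.cons 203 (.leaf 179 1429 (.cons 200 (.leaf 227 1600 (.leaf 223 1594 .nil)) .nil)) .nil)) .nil)) .nil)) .nil))) (.cons 253 (.leaf 254 2002 (.cons 229 (.leaf 230 1809 (.cons 228 (.leaf 249 1801 (.cons 201 (.leaf 227 1611 (.leaf 177 1423 .nil)) .nil)) .nil)) .nil)) .nil)))) (.cons 272 t7 (.cons 203 (.leaf 179 1429 (.cons 298 (.leaf 227 1621 (.cons 322 (.leaf 346 2005 (.cons 249 (.leaf 225 1807 (.cons 248 (.leaf 247 1976 (.cons 272 (.leaf 271 1978 (.cons 252 (.leaf 273 1985 (.cons 253 (.leaf 254 2002 (.cons 229 (.leaf 228 1801 (.leaf 230 1809 .nil)) .nil)) .nil)) .nil)) .nil)) .nil)) .nil)) .nil)) .nil)) .nil))))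
noncomputable def t9 : T := .cons 201 (.cons 274 (.leaf 177 1423 (.leaf 298 1615 .nil)) (.cons 274 (.leaf 298 1615 (.cons 203 (.leaf 179 1429 (.cons 204 (.leaf 224 1602 (.leaf 205 1610 .nil)) .nil)) .nil)) (.cons 200 (.cons 199 (.leaf 198 1584 (.cons 175 (.leaf 174 1395 (.cons 203 (.leaf 176 1403 (.cons 204 (.leaf 205 1610 (.cons 180 (.leaf 179 1409 (.leaf 181 1417 .nil)) .nil)) .nil)) .nil)) .nil)) (.cons 199 (.leaf 198 1584 (.cons 223 (.leaf 224 1784 (.leaf 222 1586 .nil)) .nil)) (.cons 224 (.leaf 223 1784 (.cons 203 (.leaf 204 1602 (.cons 176 (.leaf 175 1403 (.cons 152 (.leaf 128 1028 (.cons 153 (.leaf 177 1228 (.leaf 129 1029 .nil)) .nil)) .nil)) .nil)) .nil)) .nil))) .nil))) (.cons 252 (.leaf 253 1803 (.cons 224 (.leaf 223 1784 (.leaf 249 1795 .nil)) .nil)) (.cons 252 (.leaf 253 1803 (.cons 274 (.cons 201 (.leaf 177 1423 (.leaf 298 1615 .nil)) (.cons 203 (.leaf 179 1429 (.cons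 204 (.leaf 205 1610 (.cons 228 (.leaf 180 1438 (.cons 249 (.leaf 229 1801 (.cons 272 (.leaf 273 1985 (.cons 248 (.leaf 247 1976 (.leaf 271 1978 .nil)) .nil)) .nil)) .nil)) .nil)) .nil)) .nil)) .nil)) .nil))
noncomputable def t10 : T := .cons 201 (.cons 180 (.leaf 181 1417 (.cons 228 (.leaf 229 1608 (.leaf 252 1438 .nil)) .nil)) (.cons 176 (.leaf 177 1411 (.cons 200 (.leaf 175 1403 (.cons 224 (.leaf 223 1594 (.leaf 225 1602 .nil)) .nil)) .nil)) .nil)) (.cons 228 (.cons 229 (.leaf 201 1608 (.cons 230 (.leaf 205 1616 (.leaf 231 1627 .nil)) .nil)) (.cons 180 (.leaf 252 1438 (.cons 181 (.leaf 201 1417 (.cons 182 (.leaf 205 1425 (.leaf 179 1426 .nil)) .nil)) .nil)) (.cons 205 (.cons 182 (.leaf 181 1425 (.cons 206 (.leaf 183 1433 (.cons 230 (.leaf 229 1616 (.leaf 231 1624 .nil)) .nil)) .nil)) (.cons 180 (.leaf 252 1438 (.cons 229 (.leaf 230 1616 (.cons 253 (.leaf 156 1252 (.leaf 277 1447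 .nil)) .nil)) .nil)) (.cons 182 (.leaf 181 1425 (.cons 206 (.leaf 183 1433 (.cons 231 (.leaf 230 1624 (.cons 207 (.leaf 232 1632 (.cons 180 (.leaf 179 1435 (.leaf 252 1438 .nil)) .nil)) .nil)) .nil)) .nil)) (.cons 181 (.leaf 182 1425 (.cons 157 (.leaf 133 1062 (.cons 252 (.leaf 180 1253 (.leaf 229 1254 .nil)) .nil)) .nil)) .nil)))) (.cons 180 (.leaf 252 1438 (.cons 201 (.leaf 229 1608 (.leaf 181 1417 .nil)) .nil)) .nil)))) (.cons 225 (.leaf 205 1610 (.cons 224 (.leaf 223 1784 (.leaf 201 1602 .nil)) .nil)) (.cons 205 (.leaf 225 1610 (.cons 182 (.leaf 181 1425 (.cons 206 (.leaf 183 1433 (.cons 230 (.leaf 229 1616 (.leaf 231 1624 .nil)) .nil)) .nil)) .nil)) .nil)))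
noncomputable def t11 : T := .cons 180 (.leaf 252 1438 (.cons 156 (.leaf 227 1246 (.cons 131 (.leaf 155 1055 (.cons 132 (.leaf 107 863 (.cons 133 (.leaf 109 869 (.leaf 157 1061 .nil)) .nil)) .nil)) .nil)) .nil)) (.cons 227 (.cons 205 (.leaf 225 1609 (.cons 206 (.leaf 229 1617 (.leaf 207 1626 .nil)) .nil)) (.cons 225 (.leaf 205 1609 (.cons 252 (.leaf 224 1792 (.leaf 253 1800 .nil)) .nil)) (.cons 229 (.leaf 230 1810 (.cons 205 (.leaf 206 1617 (.cons 253 (.leaf 254 1808 (.cons 277 (.leaf 301 1639 (.cons 278 (.leaf 252 2000 (.leaf 302 1644 .nil)) .nil)) .nil)) .nil)) .nil)) (.cons 229 (.leaf 230 1810 (.cons 253 (.leaf 254 1808 (.cons 225 (.leaf 252 1800 (.cons 200 (.leaf 201 1603 (.cons 224 (.leaf 223 1784 (.leaf 199 1595 .nil)) .nil)) .nil)) .nil)) .nil)) .nil)))) (.cons 252 (.leaf 180 1438 (.cons 253 (.leaf 225 1803 (.cons 229 (.leaf 230 1809 (.cons 277 (.leaf 278 2000 (.leaf 301 1639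 .nil)) .nil)) .nil)) .nil)) (.cons 227 (.cons 225 (.leaf 205 1609 (.cons 200 (.leaf 201 1603 (.cons 224 (.leaf 223 1784 (.leaf 199 1595 .nil)) .nil)) .nil)) (.cons 229 (.leaf 230 1810 (.cons 205 (.leaf 206 1617 (.cons 253 (.leaf 254 1808 (.cons 277 (.leaf 180 1447 (.leaf 301 1639 .nil)) .nil)) .nil)) .nil)) (.cons 201 (.leaf 229 1611 (.cons 200 (.leaf 199 1592 (.leaf 225 1603 .nil)) .nil)) .nil))) .nil)))
noncomputable def t12 : T := .cons 203 (.cons 180 (.leaf 227 1437 (.cons 181 (.leaf 201 1417 (.cons 182 (.leaf 179 1426 (.leaf 183 1434 .nil)) .nil)) .nil)) (.cons 225 (.leaf 205 1610 (.cons 224 (.leaf 223 1784 (.leaf 201 1602 .nil)) .nil)) (.cons 205 (.leaf 225 1610 (.cons 182 (.leaf 181 1425 (.cons 206 (.leaf 183 1433 (.cons 230 (.leaf 229 1616 (.leaf 231 1624 .nil)) .nil)) .nil)) .nil)) .nil))) (.cons 180 (.cons 228 (.leaf 252 1438 (.cons 156 (.leaf 227 1246 (.cons 131 (.leaf 155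 1055 (.cons 132 (.leaf 107 863 (.cons 133 (.leaf 109 869 (.leaf 157 1061 .nil)) .nil)) .nil)) .nil)) .nil)) (.cons 203 (.leaf 227 1437 (.cons 181 (.leaf 201 1417 (.cons 182 (.leaf 205 1425 (.leaf 179 1426 .nil)) .nil)) .nil)) (.cons 228 (.leaf 252 1438 (.cons 156 (.cons 131 (.leaf 155 1055 (.cons 132 (.leaf 107 863 (.cons 133 (.leaf 109 869 (.leaf 157 1061 .nil)) .nil)) .nil)) (.cons 229 (.leaf 253 1252 (.cons 203 (.leaf 201 1608 (.cons 230 (.leaf 205 1616 (.leaf 231 1627 .nil)) .nil)) .nil)) .nil)) .nil)) .nil))) (.cons 228 t11 (.cons 203 t10 (.cons 203 (.cons 225 (.leaf 205 1610 (.cons 224 (.leaf 223 1784 (.leaf 201 1602 .nil)) .nil)) (.cons 205 (.leaf 225 1610 (.cons 182 (.leaf 181 1425 (.cons 206 (.leaf 183 1433 (.cons 230 (.leaf 229 1616 (.leaf 231 1624 .nil)) .nil)) .nil)) .nil)) (.cons 205 (.cons 181 (.leaf 182 1425 (.cons 229 (.leaf 230 1616 (.cons 228 (.leaf 201 1608 (.cons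 157 (.leaf 133 1062 (.leaf 252 1254 .nil)) .nil)) .nil)) .nil)) (.cons 206 (.leaf 227 1618 (.cons 182 (.leaf 181 1425 (.leaf 183 1433 .nil)) .nil)) (.cons 206 (.leaf 227 1618 (.cons 230 (.leaf 229 1616 (.leaf 231 1624 .nil)) .nil)) .nil))) (.cons 201 (.cons 176 (.leaf 177 1411 (.cons 200 (.leaf 175 1403 (.cons 228 (.leaf 227 1600 (.leaf 229 1608 .nil)) .nil)) .nil)) (.cons 224 (.leaf 225 1602 (.cons 200 (.leaf 223 1594 (.cons 228 (.leaf 227 1600 (.leaf 229 1608 .nil)) .nil)) .nil)) (.cons 177 (.leaf 176 1411 (.cons 153 (.leaf 129 1036 (.leaf 225 1228 .nil)) .nil)) .nil))) .nil)))) (.cons 252 (.cons 253 (.leaf 225 1803 (.cons 230 (.leaf 229 1809 (.cons 254 (.leaf 231 1817 (.cons 278 (.leaf 277 2000 (.leaf 279 2008 .nil)) .nil)) .nil)) .nil)) (.cons 180 (.leaf 228 1438 (.cons 203 (.leaf 227 1437 (.cons 181 (.leaf 201 1417 (.cons 182 (.leaf 179 1426 (.leaf 183 1434 .nil)) .nil)) .nil))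 .nil)) .nil)) (.cons 203 (.cons 227 (.leaf 180 1437 (.cons 205 (.leaf 206 1618 (.cons 225 (.leaf 224 1601 (.leaf 228 1609 .nil)) .nil)) .nil)) (.cons 205 (.leaf 225 1610 (.cons 182 (.leaf 181 1425 (.cons 206 (.leaf 183 1433 (.cons 230 (.leaf 229 1616 (.leaf 231 1624 .nil)) .nil)) .nil)) .nil)) (.cons 205 (.cons 182 (.leaf 181 1425 (.cons 206 (.leaf 183 1433 (.cons 230 (.leaf 229 1616 (.leaf 231 1624 .nil)) .nil)) .nil)) (.cons 181 (.leaf 182 1425 (.cons 229 (.leaf 230 1616 (.cons 180 (.leaf 227 1437 (.cons 253 (.leaf 156 1255 (.leaf 277 1447 .nil)) .nil)) .nil)) .nil)) (.cons 206 (.leaf 227 1618 (.cons 182 (.leaf 181 1425 (.leaf 183 1433 .nil)) .nil)) (.cons 206 (.leaf 227 1618 (.cons 230 (.leaf 229 1616 (.leaf 231 1624 .nil)) .nil)) .nil)))) (.cons 180 (.leaf 227 1437 (.cons 252 (.leaf 228 1438 (.cons 253 (.leaf 225 1803 (.cons 230 (.leaf 229 1809 (.cons 254 (.leaf 231 1817 (.cons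 278 (.leaf 277 2000 (.leaf 279 2008 .nil)) .nil)) .nil)) .nil)) .nil)) .nil)) .nil)))) (.cons 225 (.cons 203 (.leaf 205 1610 (.cons 224 (.leaf 223 1784 (.leaf 201 1602 .nil)) .nil)) (.cons 205 (.leaf 203 1610 (.cons 228 (.leaf 227 1609 (.cons 252 (.leaf 253 1803 (.leaf 180 1438 .nil)) .nil)) .nil)) (.cons 252 (.leaf 253 1803 (.cons 224 (.leaf 223 1784 (.leaf 227 1792 .nil)) .nil)) .nil))) .nil)))))))
noncomputable def t13 : T := .cons 180 (.leaf 227 1437 (.cons 181 (.leaf 201 1417 (.cons 182 (.leaf 179 1426 (.leaf 183 1434 .nil)) .nil)) .nil)) (.cons 180 (.leaf 227 1437 (.cons 228 (.leaf 252 1438 (.cons 229 (.leaf 201 1608 (.cons 230 (.leaf 205 1616 (.leaf 231 1627 .nil)) .nil)) .nil)) .nil)) (.cons 228 (.cons 229 (.leaf 201 1608 (.cons 230 (.leaf 205 1616 (.leaf 231 1627 .nil)) .nil)) (.cons 180 (.leaf 252 1438 (.cons 181 (.leaf 201 1417 (.cons 182 (.leaf 205 1425 (.leaf 179 1426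 .nil)) .nil)) .nil)) (.cons 205 (.cons 182 (.leaf 181 1425 (.cons 206 (.leaf 183 1433 (.cons 230 (.leaf 229 1616 (.leaf 231 1624 .nil)) .nil)) .nil)) (.cons 180 (.leaf 252 1438 (.cons 229 (.leaf 230 1616 (.cons 253 (.leaf 156 1252 (.leaf 277 1447 .nil)) .nil)) .nil)) (.cons 182 (.leaf 181 1425 (.cons 206 (.leaf 183 1433 (.cons 231 (.leaf 230 1624 (.cons 207 (.leaf 232 1632 (.cons 180 (.leaf 179 1435 (.leaf 252 1438 .nil)) .nil)) .nil)) .nil)) .nil)) (.cons 181 (.leaf 182 1425 (.cons 157 (.leaf 133 1062 (.cons 252 (.leaf 180 1253 (.leaf 229 1254 .nil)) .nil)) .nil)) .nil)))) (.cons 180 (.leaf 252 1438 (.cons 201 (.leaf 229 1608 (.leaf 181 1417 .nil)) .nil)) .nil)))) (.cons 205 (.cons 181 (.leaf 182 1425 (.cons 229 (.leaf 230 1616 (.cons 228 (.leaf 201 1608 (.cons 157 (.leaf 133 1062 (.leaf 252 1254 .nil)) .nil)) .nil)) .nil)) (.cons 206 (.leaf 227 1618 (.cons 182 (.leaf 181 1425 (.leaf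 183 1433 .nil)) .nil)) (.cons 206 (.leaf 227 1618 (.cons 230 (.leaf 229 1616 (.leaf 231 1624 .nil)) .nil)) .nil))) (.cons 205 (.cons 182 (.leaf 181 1425 (.cons 206 (.leaf 183 1433 (.cons 230 (.leaf 229 1616 (.leaf 231 1624 .nil)) .nil)) .nil)) (.cons 181 (.leaf 182 1425 (.cons 229 (.leaf 230 1616 (.cons 180 (.leaf 227 1437 (.cons 253 (.leaf 156 1255 (.leaf 277 1447 .nil)) .nil)) .nil)) .nil)) (.cons 206 (.leaf 227 1618 (.cons 182 (.leaf 181 1425 (.leaf 183 1433 .nil)) .nil)) (.cons 206 (.leaf 227 1618 (.cons 230 (.leaf 229 1616 (.leaf 231 1624 .nil)) .nil)) .nil)))) .nil))))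
noncomputable def t14 : T := .cons 204 t13 (.cons 179 (.leaf 274 1429 (.cons 155 (.leaf 131 1046 (.leaf 227 1238 .nil)) .nil)) (.cons 201 (.cons 274 (.leaf 177 1423 (.cons 227 (.leaf 298 1621 (.cons 228 (.leaf 200 1600 (.leaf 229 1611 .nil)) .nil)) .nil)) (.cons 177 (.leaf 274 1423 (.cons 176 (.leaf 204 1411 (.cons 175 (.leaf 174 1392 (.leaf 200 1403 .nil)) .nil)) .nil)) (.cons 200 (.cons 175 (.leaf 176 1403 (.cons 199 (.leaf 174 1395 (.cons 223 (.leaf 222 1586 (.leaf 224 1594 .nil)) .nil)) .nil)) (.cons 228 (.leaf 227 1600 (.cons 204 (.leaf 229 1608 (.cons 180 (.leaf 181 1417 (.leaf 252 1438 .nil)) .nil)) .nil)) .nil)) (.cons 177 (.leaf 274 1423 (.cons 204 (.leaf 176 1411 (.cons 180 (.leaf 181 1417 (.leaf 227 1437 .nil)) .nil)) .nil)) .nil)))) (.cons 201 (.cons 200 (.cons 175 (.leaf 176 1403 (.cons 199 (.leaf 174 1395 (.cons 223 (.leaf 222 1586 (.leaf 224 1594 .nil)) .nil)) .nil))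 (.cons 180 (.leaf 179 1409 (.cons 204 (.leaf 181 1417 (.cons 228 (.leaf 229 1608 (.leaf 252 1438 .nil)) .nil)) .nil)) .nil)) (.cons 274 (.leaf 179 1429 (.leaf 177 1423 .nil)) (.cons 177 (.leaf 274 1423 (.cons 176 (.leaf 204 1411 (.cons 175 (.leaf 174 1392 (.leaf 200 1403 .nil)) .nil)) .nil)) .nil))) .nil)))
noncomputable def t15 : T := .leaf 178 1428 (.cons 274 (.cons 201 (.leaf 177 1423 (.cons 298 (.leaf 225 1615 (.cons 322 (.leaf 227 1813 (.leaf 346 2005 .nil)) .nil)) .nil)) (.cons 203 (.leaf 179 1429 (.cons 227 (.leaf 298 1621 (.cons 204 (.leaf 180 1437 (.cons 205 (.leaf 225 1610 (.leaf 206 1618 .nil)) .nil)) .nil)) .nil)) (.cons 203 (.cons 204 (.cons 205 (.leaf 225 1610 (.cons 182 (.leaf 181 1425 (.cons 206 (.leaf 183 1433 (.cons 230 (.leaf 229 1616 (.leaf 231 1624 .nil)) .nil)) .nil)) .nil)) (.cons 201 (.leaf 177 1423 (.cons 180 (.leaf 181 1417 (.cons 228 (.leaf 229 1608 (.leaf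 252 1438 .nil)) .nil)) .nil)) (.cons 205 (.leaf 225 1610 (.cons 181 (.leaf 182 1425 (.cons 201 (.leaf 180 1417 (.leaf 177 1423 .nil)) .nil)) .nil)) (.cons 205 (.leaf 225 1610 (.cons 229 (.leaf 230 1616 (.cons 201 (.leaf 228 1608 (.leaf 177 1423 .nil)) .nil)) .nil)) .nil)))) (.leaf 179 1429 .nil)) (.cons 201 (.leaf 177 1423 (.cons 203 (.leaf 179 1429 (.cons 227 (.leaf 298 1621 (.cons 228 (.leaf 200 1600 (.leaf 229 1611 .nil)) .nil)) .nil)) .nil)) .nil)))) .nil)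
noncomputable def t16 : T := .cons 202 (.leaf 178 1428 (.cons 274 (.cons 201 (.leaf 177 1423 (.cons 225 (.leaf 298 1615 (.cons 224 (.leaf 223 1784 (.cons 203 (.leaf 204 1602 (.leaf 179 1429 .nil)) .nil)) .nil)) .nil)) (.cons 201 (.leaf 177 1423 (.cons 298 (.leaf 225 1615 (.cons 322 (.leaf 227 1813 (.leaf 346 2005 .nil)) .nil)) .nil)) (.cons 203 (.leaf 179 1429 (.cons 227 (.leaf 298 1621 (.cons 204 (.leaf 180 1437 (.cons 205 (.leaf 225 1610 (.leaf 206 1618 .nil)) .nil)) .nil)) .nil)) (.cons 227 (.cons 201 (.leaf 177 1423 (.cons 228 (.leaf 229 1611 (.cons 200 (.leaf 199 1592 (.leaf 225 1603 .nil)) .nil)) .nil)) (.cons 203 (.leaf 179 1429 (.cons 204 (.leaf 180 1437 (.cons 205 (.leaf 225 1610 (.leaf 206 1618 .nil)) .nil)) .nil)) (.cons 203 (.leaf 179 1429 (.cons 201 (.leaf 177 1423 (.cons 228 (.leaf 200 1600 (.leaf 229 1611 .nil)) .nil)) .nil)) .nil))) (.cons 201 (.leaf 177 1423 (.cons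 203 (.leaf 179 1429 (.cons 227 (.leaf 298 1621 (.cons 228 (.leaf 200 1600 (.leaf 229 1611 .nil)) .nil)) .nil)) .nil)) .nil))))) .nil)) (.cons 202 t15 (.cons 252 (.cons 253 (.cons 273 (.leaf 274 1994 (.cons 249 (.leaf 272 1986 (.cons 229 (.leaf 228 1801 (.leaf 230 1809 .nil)) .nil)) .nil)) (.cons 230 (.leaf 229 1809 (.cons 254 (.leaf 231 1817 (.cons 278 (.leaf 277 2000 (.leaf 279 2008 .nil)) .nil)) .nil)) (.cons 274 (.leaf 273 1994 (.leaf 254 2002 .nil)) .nil))) (.cons 225 (.leaf 253 1803 (.cons 224 (.leaf 223 1784 (.leaf 227 1792 .nil)) .nil)) (.cons 249 (.cons 224 (.leaf 225 1795 (.cons 248 (.leaf 223 1787 (.cons 272 (.leaf 271 1978 (.leaf 273 1986 .nil)) .nil)) .nil)) (.cons 272 (.leaf 273 1986 (.cons 248 (.leaf 271 1978 (.cons 228 (.leaf 227 1793 (.leaf 229 1801 .nil)) .nil)) .nil)) (.cons 225 (.leaf 224 1795 (.cons 228 (.leaf 229 1801 (.cons 204 (.leaf 180 1438 (.cons 227 (.leaf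 205 1609 (.cons 201 (.leaf 200 1603 (.cons 177 (.leaf 153 1228 (.leaf 274 1420 .nil)) .nil)) .nil)) .nil)) .nil)) .nil)) .nil))) .nil))) (.cons 202 (.leaf 178 1428 (.cons 203 (.cons 179 (.leaf 274 1429 (.cons 155 (.leaf 131 1046 (.leaf 227 1238 .nil)) .nil)) (.cons 225 (.cons 204 (.leaf 205 1610 (.cons 180 (.leaf 227 1437 (.cons 252 (.leaf 253 1803 (.leaf 228 1438 .nil)) .nil)) .nil)) (.cons 204 (.leaf 205 1610 (.cons 227 (.leaf 224 1601 (.leaf 180 1437 .nil)) .nil)) (.cons 252 (.leaf 253 1803 (.cons 224 (.leaf 223 1784 (.leaf 249 1795 .nil)) .nil)) .nil))) (.cons 252 t0 .nil))) .nil)) (.cons 202 (.leaf 178 1428 (.cons 274 (.cons 201 (.leaf 177 1423 (.cons 225 (.leaf 298 1615 (.cons 224 (.leaf 223 1784 (.cons 203 (.leaf 204 1602 (.leaf 179 1429 .nil)) .nil)) .nil)) .nil)) (.cons 201 (.leaf 177 1423 (.cons 298 (.leaf 225 1615 (.cons 322 (.leaf 227 1813 (.leaf 346 2005 .nil)) .nil))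 .nil)) (.cons 203 (.leaf 179 1429 (.cons 227 (.leaf 298 1621 (.cons 204 (.leaf 180 1437 (.cons 205 (.leaf 225 1610 (.leaf 206 1618 .nil)) .nil)) .nil)) .nil)) (.cons 203 (.leaf 179 1429 (.cons 225 (.cons 204 (.leaf 205 1610 (.cons 224 (.leaf 223 1784 (.leaf 201 1602 .nil)) .nil)) (.cons 252 (.leaf 253 1803 (.cons 224 (.leaf 223 1784 (.leaf 227 1792 .nil)) .nil)) (.cons 204 (.leaf 205 1610 (.cons 180 (.leaf 227 1437 (.cons 201 (.leaf 181 1417 (.leaf 177 1423 .nil)) .nil)) .nil)) .nil))) .nil)) (.cons 272 t7 .nil))))) .nil)) (.cons 202 (.leaf 178 1428 (.cons 203 t14 .nil)) (.cons 202 (.leaf 178 1428 (.cons 204 t12 .nil)) (.cons 202 (.leaf 178 1428 (.cons 225 t9 .nil)) (.cons 202 (.leaf 178 1428 (.cons 274 t8 .nil)) .nil))))))))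
noncomputable def t17 : T := .cons 253 (.leaf 225 1803 (.cons 254 (.leaf 227 1811 (.cons 278 (.leaf 277 2000 (.leaf 279 2008 .nil)) .nil)) .nil)) (.cons 253 (.leaf 225 1803 (.cons 230 (.leaf 229 1809 (.cons 254 (.leaf 231 1817 (.cons 278 (.leaf 277 2000 (.leaf 279 2008 .nil)) .nil)) .nil)) .nil)) (.cons 253 (.cons 277 (.leaf 278 2000 (.cons 229 (.leaf 230 1809 (.cons 301 (.cons 324 (.leaf 300 1830 (.cons 325 (.leaf 348 2022 (.cons 326 (.leaf 302 1836 (.leaf 350 2028 .nil)) .nil)) .nil)) (.cons 205 (.cons 180 (.leaf 204 1447 (.cons 181 (.leaf 156 1255 (.cons 182 (.leaf 158 1261 (.leaf 206 1453 .nil)) .nil)) .nil)) (.cons 182 (.leaf 206 1453 (.cons 181 (.leaf 158 1261 (.cons 156 (.leaf 180 1255 (.cons 157 (.leaf 228 1254 (.leaf 132 1063 .nil)) .nil)) .nil)) .nil)) (.cons 182 (.leaf 206 1453 (.cons 181 (.leaf 158 1261 (.cons 228 (.leaf 157 1254 (.leaf 204 1639 .nil)) .nil)) .nil)) (.cons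 204 (.leaf 180 1447 (.leaf 228 1639 .nil)) .nil)))) .nil)) .nil)) .nil)) (.cons 254 (.leaf 227 1811 (.cons 278 (.leaf 277 2000 (.leaf 279 2008 .nil)) .nil)) (.cons 254 (.leaf 227 1811 (.cons 230 (.leaf 229 1809 (.leaf 231 1817 .nil)) .nil)) .nil))) (.cons 249 (.cons 272 (.leaf 273 1986 (.cons 248 (.leaf 271 1978 (.cons 228 (.leaf 227 1793 (.leaf 229 1801 .nil)) .nil)) .nil)) (.cons 273 (.leaf 272 1986 (.cons 297 (.leaf 225 1613 (.leaf 321 1805 .nil)) .nil)) (.cons 225 (.leaf 224 1795 (.cons 228 (.leaf 229 1801 (.cons 204 (.leaf 180 1438 (.cons 205 (.leaf 227 1609 (.leaf 203 1610 .nil)) .nil)) .nil)) .nil)) .nil))) .nil)))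
noncomputable def t18 : T := .cons 202 (.leaf 178 1428 (.cons 274 (.cons 273 (.leaf 297 1614 (.cons 252 (.leaf 272 1985 (.leaf 253 1994 .nil)) .nil)) (.cons 201 (.leaf 177 1423 (.cons 203 (.leaf 179 1429 (.cons 227 (.leaf 298 1621 (.cons 228 (.leaf 200 1600 (.leaf 229 1611 .nil)) .nil)) .nil)) .nil)) .nil)) .nil)) (.cons 202 (.leaf 178 1428 (.cons 274 (.cons 201 (.leaf 177 1423 (.cons 298 (.leaf 225 1615 (.cons 322 (.leaf 227 1813 (.leaf 346 2005 .nil)) .nil)) .nil)) (.cons 297 (.leaf 273 1614 (.cons 298 (.leaf 321 1806 (.cons 322 (.leaf 227 1813 (.leaf 346 2005 .nil)) .nil)) .nil)) (.cons 201 (.leaf 177 1423 (.cons 273 (.leaf 297 1614 (.cons 272 (.leaf 271 1977 (.cons 248 (.leaf 247 1979 (.cons 296 (.leaf 295 2170 (.cons 225 (.leaf 224 1605 (.leaf 249 1606 .nil)) .nil)) .nil)) .nil)) .nil)) .nil)) .nil))) .nil)) (.cons 252 (.cons 253 (.cons 273 (.leaf 274 1994 (.cons 249 (.leaf 272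 1986 (.cons 229 (.leaf 228 1801 (.leaf 230 1809 .nil)) .nil)) .nil)) (.cons 230 (.leaf 229 1809 (.cons 254 (.leaf 231 1817 (.cons 278 (.leaf 277 2000 (.leaf 279 2008 .nil)) .nil)) .nil)) (.cons 274 (.leaf 273 1994 (.leaf 254 2002 .nil)) .nil))) (.cons 253 (.leaf 225 1803 (.cons 254 (.leaf 227 1811 (.cons 278 (.leaf 277 2000 (.leaf 279 2008 .nil)) .nil)) .nil)) (.cons 249 (.cons 272 (.leaf 273 1986 (.cons 248 (.leaf 271 1978 (.cons 228 (.leaf 227 1793 (.leaf 229 1801 .nil)) .nil)) .nil)) (.cons 225 (.leaf 224 1795 (.cons 273 (.leaf 272 1986 (.cons 297 (.leaf 321 1805 (.cons 296 (.leaf 320 1798 (.cons 298 (.leaf 322 1804 (.cons 274 (.leaf 295 2169 (.leaf 201 1612 .nil)) .nil)) .nil)) .nil)) .nil)) .nil)) (.cons 225 (.leaf 224 1795 (.cons 228 (.leaf 229 1801 (.cons 204 (.leaf 180 1438 (.cons 227 (.leaf 205 1609 (.cons 201 (.leaf 200 1603 (.cons 274 (.leaf 177 1420 (.leaf 298 1615 .nil))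 .nil)) .nil)) .nil)) .nil)) .nil)) .nil))) .nil))) (.cons 202 (.leaf 178 1428 (.cons 274 (.cons 273 (.leaf 297 1614 (.cons 252 (.leaf 272 1985 (.leaf 253 1994 .nil)) .nil)) (.cons 201 (.leaf 177 1423 (.cons 298 (.leaf 225 1615 (.cons 321 (.leaf 297 1806 (.cons 322 (.leaf 346 2005 (.leaf 345 1998 .nil)) .nil)) .nil)) .nil)) (.cons 203 (.cons 204 (.cons 205 (.leaf 225 1610 (.cons 182 (.leaf 181 1425 (.cons 206 (.leaf 183 1433 (.cons 230 (.leaf 229 1616 (.leaf 231 1624 .nil)) .nil)) .nil)) .nil)) (.cons 201 (.leaf 177 1423 (.cons 180 (.leaf 181 1417 (.cons 228 (.leaf 229 1608 (.leaf 252 1438 .nil)) .nil)) .nil)) (.cons 205 (.leaf 225 1610 (.cons 181 (.leaf 182 1425 (.cons 201 (.leaf 180 1417 (.leaf 177 1423 .nil)) .nil)) .nil)) (.cons 205 (.leaf 225 1610 (.cons 229 (.leaf 230 1616 (.cons 201 (.leaf 228 1608 (.leaf 177 1423 .nil)) .nil)) .nil)) .nil)))) (.leaf 179 1429 .nil)) .nil))) .nil))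 (.cons 202 (.leaf 178 1428 (.cons 252 t17 .nil)) (.cons 202 t15 .nil)))))
noncomputable def t19 : T := .cons 176 (.cons 151 (.leaf 152 1211 (.cons 175 (.leaf 150 1203 (.cons 199 (.leaf 198 1394 (.leaf 200 1402 .nil)) .nil)) .nil)) (.cons 199 (.leaf 200 1402 (.cons 175 (.leaf 198 1394 (.cons 155 (.leaf 154 1209 (.leaf 156 1217 .nil)) .nil)) .nil)) (.cons 152 (.leaf 151 1211 (.cons 180 (.leaf 153 1219 (.cons 156 (.leaf 155 1217 (.leaf 157 1225 .nil)) .nil)) .nil)) .nil))) (.cons 180 (.cons 153 (.leaf 152 1219 (.cons 181 (.leaf 154 1227 (.cons 157 (.leaf 156 1225 (.leaf 158 1233 .nil)) .nil)) .nil)) (.cons 157 (.leaf 156 1225 (.cons 181 (.leaf 158 1233 (.cons 205 (.leaf 204 1416 (.leaf 206 1424 .nil)) .nil)) .nil)) (.cons 153 (.leaf 152 1219 (.cons 181 (.leaf 154 1227 (.cons 205 (.leaf 204 1416 (.leaf 206 1424 .nil)) .nil)) .nil)) (.cons 156 (.leaf 157 1225 (.cons 203 (.leaf 227 1245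 (.cons 132 (.leaf 108 862 (.cons 153 (.leaf 152 1219 (.cons 204 (.leaf 205 1416 (.cons 131 (.leaf 107 863 (.cons 133 (.leaf 109 869 (.cons 154 (.leaf 155 1033 (.leaf 130 1034 .nil)) .nil)) .nil)) .nil)) .nil)) .nil)) .nil)) .nil)) .nil)))) (.cons 180 (.cons 153 (.leaf 152 1219 (.cons 181 (.leaf 154 1227 (.cons 157 (.leaf 156 1225 (.leaf 158 1233 .nil)) .nil)) .nil)) (.cons 204 (.leaf 205 1416 (.cons 203 (.leaf 176 1408 (.leaf 227 1437 .nil)) .nil)) .nil)) (.cons 176 (.cons 151 (.leaf 152 1211 (.cons 175 (.leaf 150 1203 (.cons 199 (.leaf 198 1394 (.leaf 200 1402 .nil)) .nil)) .nil)) (.cons 155 (.leaf 156 1217 (.cons 203 (.leaf 204 1408 (.leaf 227 1238 .nil)) .nil)) .nil)) (.cons 203 (.cons 204 (.leaf 176 1408 (.cons 205 (.leaf 180 1416 (.leaf 206 1427 .nil)) .nil)) (.cons 227 (.leaf 155 1238 (.leaf 154 1239 .nil)) .nil)) .nil))))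
noncomputable def t20 : T := .cons 201 (.leaf 153 1228 (.cons 249 (.leaf 154 1229 (.cons 248 (.leaf 272 1414 (.cons 247 (.leaf 246 1777 (.leaf 227 1785 .nil)) .nil)) .nil)) .nil)) (.cons 201 (.leaf 153 1228 (.cons 249 (.leaf 154 1229 (.cons 176 (.leaf 152 1223 (.cons 273 (.leaf 200 1415 (.cons 272 (.leaf 248 1414 (.leaf 296 1606 .nil)) .nil)) .nil)) .nil)) .nil)) (.cons 179 t19 (.cons 249 (.cons 272 (.leaf 273 1986 (.cons 248 (.leaf 271 1978 (.cons 247 (.leaf 246 1777 (.leaf 227 1785 .nil)) .nil)) .nil)) (.cons 201 (.leaf 154 1229 (.cons 176 (.leaf 152 1223 (.cons 200 (.leaf 273 1415 (.cons 179 (.leaf 199 1402 (.leaf 180 1410 .nil)) .nil)) .nil)) .nil)) (.cons 201 (.leaf 154 1229 (.cons 248 (.leaf 272 1414 (.cons 247 (.leaf 246 1777 (.leaf 227 1785 .nil)) .nil)) .nil)) .nil))) (.cons 249 (.cons 272 (.leaf 273 1986 (.cons 248 (.leaf 271 1978 (.cons 247 (.leaf 246 1777 (.leaf 227 1785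 .nil)) .nil)) .nil)) (.cons 201 (.leaf 153 1228 (.cons 248 (.leaf 272 1414 (.cons 247 (.leaf 246 1777 (.leaf 227 1785 .nil)) .nil)) .nil)) (.cons 201 (.leaf 153 1228 (.cons 176 (.leaf 152 1223 (.cons 200 (.leaf 273 1415 (.cons 179 (.leaf 199 1402 (.leaf 180 1410 .nil)) .nil)) .nil)) .nil)) .nil))) .nil))))
noncomputable def t21 : T := .cons 274 (.leaf 298 1615 (.cons 177 (.leaf 153 1228 (.leaf 249 1420 .nil)) .nil)) (.cons 200 (.leaf 199 1595 (.cons 248 (.leaf 247 1786 (.cons 177 (.leaf 272 1413 (.leaf 153 1228 .nil)) .nil)) .nil)) (.cons 272 (.cons 274 (.leaf 298 1615 (.cons 273 (.leaf 271 1977 (.cons 296 (.leaf 295 2170 (.leaf 249 1606 .nil)) .nil)) .nil)) (.cons 248 (.leaf 296 1605 (.cons 271 (.leaf 249 1978 (.cons 200 (.leaf 295 1598 (.cons 199 (.leaf 198 1584 (.leaf 175 1407 .nil)) .nil)) .nil)) .nil)) (.cons 274 (.leaf 298 1615 (.cons 271 (.leaf 273 1977 (.cons 248 (.leaf 249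 1978 (.cons 200 (.leaf 295 1598 (.cons 199 (.leaf 198 1584 (.leaf 175 1407 .nil)) .nil)) .nil)) .nil)) .nil)) (.cons 296 (.leaf 248 1605 (.cons 274 (.leaf 298 1615 (.cons 273 (.leaf 271 1977 (.leaf 295 2170 .nil)) .nil)) .nil)) (.cons 296 (.leaf 248 1605 (.cons 273 (.leaf 249 1606 (.cons 274 (.leaf 295 2170 (.leaf 298 1615 .nil)) .nil)) .nil)) (.cons 296 (.leaf 248 1605 (.cons 273 (.leaf 249 1606 (.cons 274 (.leaf 271 1977 (.leaf 298 1615 .nil)) .nil)) .nil)) .nil)))))) .nil))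
noncomputable def t22 : T := .cons 200 (.cons 175 (.leaf 199 1407 (.cons 176 (.leaf 151 1215 (.cons 177 (.leaf 153 1221 (.leaf 201 1413 .nil)) .nil)) .nil)) (.cons 271 (.leaf 295 1598 (.cons 176 (.leaf 247 1406 (.cons 177 (.leaf 153 1221 (.leaf 201 1413 .nil)) .nil)) .nil)) (.cons 199 (.leaf 175 1407 (.cons 296 (.leaf 223 1599 (.cons 295 (.leaf 271 1598 (.leaf 319 1790 .nil)) .nil)) .nil)) .nil))) (.cons 296 (.cons 223 (.leaf 199 1599 (.cons 320 (.leaf 247 1791 (.cons 319 (.leaf 295 1790 (.leaf 343 1982 .nil)) .nil)) .nil)) (.cons 223 (.leaf 199 1599 (.cons 320 (.leaf 247 1791 (.cons 321 (.leaf 297 1796 (.leaf 345 1988 .nil)) .nil)) .nil)) (.cons 295 (.leaf 319 1790 (.cons 274 (.leaf 273 2170 (.cons 297 (.leaf 298 2169 (.leaf 321 1796 .nil)) .nil)) .nil)) .nil))) (.cons 200 (.cons 175 (.leaf 199 1407 (.cons 176 (.leaf 151 1215 (.cons 177 (.leaf 153 1221 (.leaf 201 1413 .nil)) .nil))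 .nil)) (.cons 271 (.leaf 295 1598 (.cons 273 (.leaf 274 1977 (.leaf 297 1604 .nil)) .nil)) .nil)) (.cons 273 (.cons 274 (.leaf 271 1977 (.leaf 247 1979 .nil)) (.cons 297 (.leaf 200 1604 (.cons 321 (.leaf 296 1796 (.leaf 345 1991 .nil)) .nil)) .nil)) .nil)))
noncomputable def t23 : T := .cons 225 (.leaf 223 1784 (.cons 252 (.leaf 227 1792 (.leaf 253 1803 .nil)) .nil)) (.cons 248 (.cons 223 (.leaf 225 1784 (.leaf 249 1787 .nil)) (.cons 249 (.cons 200 (.cons 273 (.leaf 176 1412 (.cons 297 (.leaf 225 1607 (.leaf 321 1805 .nil)) .nil)) (.cons 272 (.leaf 271 1978 (.cons 175 (.leaf 199 1407 (.cons 176 (.leaf 151 1215 (.cons 177 (.leaf 153 1221 (.leaf 201 1413 .nil)) .nil)) .nil)) .nil)) (.cons 272 (.leaf 271 1978 (.cons 201 (.leaf 177 1413 (.cons 296 (.leaf 225 1605 (.cons 297 (.leaf 273 1604 (.leaf 321 1796 .nil)) .nil)) .nil)) .nil)) .nil))) (.cons 271 (.leaf 272 1978 (.cons 247 (.leaf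 274 1976 (.leaf 270 1970 .nil)) .nil)) (.cons 247 (.leaf 274 1976 (.cons 246 (.leaf 225 1777 (.cons 221 (.leaf 222 1771 (.cons 245 (.leaf 220 1763 (.cons 269 (.leaf 268 1954 (.leaf 270 1962 .nil)) .nil)) .nil)) .nil)) .nil)) .nil))) (.cons 272 t22 .nil))) (.cons 248 (.cons 249 (.leaf 223 1787 (.cons 271 (.leaf 272 1978 (.cons 247 (.leaf 227 1785 (.leaf 270 1970 .nil)) .nil)) .nil)) (.cons 272 (.cons 200 (.cons 175 (.leaf 199 1407 (.cons 176 (.leaf 151 1215 (.cons 177 (.leaf 153 1221 (.leaf 201 1413 .nil)) .nil)) .nil)) (.cons 271 (.leaf 295 1598 (.cons 273 (.leaf 274 1977 (.leaf 297 1604 .nil)) .nil)) .nil)) (.cons 223 (.leaf 249 1787 (.cons 199 (.leaf 296 1599 (.cons 175 (.leaf 151 1212 (.leaf 200 1407 .nil)) .nil)) .nil)) (.cons 249 (.leaf 271 1978 (.leaf 223 1787 .nil)) .nil))) (.cons 272 t22 (.cons 249 (.cons 272 (.leaf 271 1978 (.cons 273 (.leaf 252 1986 (.cons 297 (.leaf 200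 1604 (.leaf 321 1805 .nil)) .nil)) .nil)) (.cons 247 (.leaf 274 1976 (.leaf 227 1785 .nil)) .nil)) (.cons 249 (.leaf 223 1787 (.cons 247 (.leaf 274 1976 (.leaf 227 1785 .nil)) .nil)) .nil))))) (.cons 225 (.cons 227 (.cons 203 (.leaf 204 1601 (.cons 274 (.leaf 298 1621 (.leaf 179 1430 .nil)) .nil)) (.cons 200 (.leaf 199 1595 (.cons 248 (.leaf 247 1786 (.cons 203 (.leaf 204 1601 (.cons 179 (.leaf 155 1238 (.cons 178 (.leaf 154 1239 (.cons 180 (.leaf 156 1245 (.cons 177 (.leaf 201 1410 (.cons 153 (.leaf 152 1219 (.leaf 176 1221 .nil)) .nil)) .nil)) .nil)) .nil)) .nil)) .nil)) .nil)) (.cons 201 t21 .nil))) (.cons 252 (.leaf 249 1795 (.leaf 253 1803 .nil)) (.cons 252 (.leaf 227 1792 (.leaf 253 1803 .nil)) .nil))) .nil)))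
noncomputable def t24 : T := .cons 201 (.leaf 296 1605 (.cons 177 (.leaf 200 1413 (.leaf 153 1228 .nil)) .nil)) (.cons 296 (.leaf 201 1605 (.cons 319 (.leaf 295 1790 (.cons 320 (.leaf 343 1982 (.cons 321 (.leaf 297 1796 (.leaf 345 1988 .nil)) .nil)) .nil)) .nil)) (.cons 200 (.cons 199 (.leaf 175 1407 (.cons 198 (.leaf 197 1576 (.cons 271 (.leaf 295 1598 (.cons 201 (.leaf 177 1413 (.cons 174 (.leaf 173 1387 (.cons 247 (.leaf 223 1784 (.cons 222 (.leaf 221 1578 (.leaf 246 1396 .nil)) .nil)) .nil)) .nil)) .nil)) .nil)) .nil)) (.cons 175 (.leaf 199 1407 (.cons 176 (.leaf 151 1215 (.cons 271 (.leaf 247 1406 (.leaf 295 1598 .nil)) .nil)) .nil)) (.cons 175 (.leaf 199 1407 (.cons 176 (.leaf 151 1215 (.cons 177 (.leaf 153 1221 (.leaf 201 1413 .nil)) .nil)) .nil)) (.cons 271 (.leaf 295 1598 (.cons 176 (.leaf 247 1406 (.cons 177 (.leaf 153 1221 (.leaf 201 1413 .nil)) .nil)) .nil)) .nil)))) (.cons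 296 (.cons 223 (.leaf 199 1599 (.cons 320 (.leaf 247 1791 (.cons 321 (.leaf 297 1796 (.leaf 345 1988 .nil)) .nil)) .nil)) (.cons 319 (.leaf 295 1790 (.cons 320 (.leaf 343 1982 (.cons 321 (.leaf 297 1796 (.leaf 345 1988 .nil)) .nil)) .nil)) (.cons 199 (.leaf 223 1784 (.cons 200 (.leaf 175 1407 (.cons 295 (.leaf 271 1598 (.leaf 319 1790 .nil)) .nil)) .nil)) .nil))) .nil)))
noncomputable def t25 : T := .cons 248 (.cons 271 (.leaf 273 1977 (.leaf 249 1978 .nil)) (.cons 273 (.leaf 271 1977 (.leaf 247 1979 .nil)) (.cons 249 (.leaf 247 1976 (.leaf 271 1978 .nil)) (.cons 247 (.leaf 249 1976 (.leaf 273 1979 .nil)) .nil)))) (.cons 273 (.leaf 271 1977 (.cons 248 (.leaf 247 1979 (.cons 296 (.leaf 295 2170 (.cons 224 (.leaf 201 1605 (.cons 297 (.leaf 200 1604 (.leaf 321 1796 .nil)) .nil)) .nil)) .nil)) .nil)) (.cons 248 (.cons 249 (.leaf 271 1978 (.cons 201 (.leaf 177 1420 (.cons 296 (.leaf 224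 1605 (.leaf 320 1797 .nil)) .nil)) .nil)) (.cons 224 t24 (.cons 249 (.leaf 247 1976 (.leaf 271 1978 .nil)) (.cons 249 (.leaf 247 1976 (.cons 201 (.leaf 177 1420 (.cons 296 (.leaf 224 1605 (.leaf 320 1797 .nil)) .nil)) .nil)) .nil)))) (.cons 248 (.cons 224 (.leaf 223 1784 (.cons 296 (.leaf 201 1605 (.cons 295 (.leaf 273 2170 (.leaf 319 1790 .nil)) .nil)) .nil)) (.cons 249 (.leaf 247 1976 (.cons 201 (.leaf 177 1420 (.cons 296 (.leaf 224 1605 (.leaf 320 1797 .nil)) .nil)) .nil)) (.cons 247 (.leaf 249 1976 (.leaf 273 1979 .nil)) .nil))) (.cons 273 (.leaf 271 1977 (.cons 296 (.leaf 295 2170 (.cons 249 (.leaf 201 1606 (.cons 297 (.leaf 321 1805 (.leaf 320 1798 .nil)) .nil)) .nil)) .nil)) .nil))))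
noncomputable def t26 : T := .cons 298 (.leaf 201 1615 (.cons 322 (.leaf 346 2005 (.leaf 249 1807 .nil)) .nil)) (.cons 298 (.leaf 201 1615 (.cons 321 (.leaf 297 1806 (.cons 322 (.leaf 346 2005 (.leaf 345 1998 .nil)) .nil)) .nil)) (.cons 272 t25 (.cons 298 (.cons 321 (.leaf 297 1806 (.cons 322 (.leaf 346 2005 (.leaf 345 1998 .nil)) .nil)) (.cons 249 (.cons 248 (.leaf 247 1976 (.cons 224 (.leaf 223 1784 (.cons 272 (.leaf 271 1978 (.cons 296 (.leaf 320 1797 (.cons 295 (.leaf 273 2170 (.leaf 319 1790 .nil)) .nil)) .nil)) .nil)) .nil)) (.cons 224 (.leaf 223 1784 (.cons 297 (.leaf 321 1806 (.cons 273 (.leaf 200 1607 (.cons 296 (.leaf 295 2169 (.leaf 320 1798 .nil)) .nil)) .nil)) .nil)) (.cons 248 (.leaf 247 1976 (.cons 272 (.leaf 271 1978 (.cons 296 (.leaf 320 1797 (.cons 297 (.leaf 295 2169 (.leaf 321 1806 .nil)) .nil)) .nil)) .nil)) (.cons 248 (.leaf 247 1976 (.cons 224 (.leaf 223 1784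 (.cons 272 (.leaf 271 1978 (.cons 297 (.leaf 321 1806 (.cons 200 (.leaf 273 1604 (.cons 175 (.leaf 199 1407 (.cons 176 (.leaf 152 1220 (.leaf 151 1215 .nil)) .nil)) .nil)) .nil)) .nil)) .nil)) .nil)) .nil)))) (.cons 322 (.leaf 346 2005 (.leaf 249 1807 .nil)) .nil))) .nil)))
noncomputable def t27 : T := .cons 202 (.leaf 178 1428 (.cons 274 (.cons 201 (.leaf 177 1423 (.cons 225 (.leaf 298 1615 (.cons 224 (.leaf 223 1784 (.cons 203 (.leaf 204 1602 (.leaf 179 1429 .nil)) .nil)) .nil)) .nil)) (.cons 273 (.leaf 297 1614 (.cons 272 (.leaf 271 1977 (.leaf 252 1985 .nil)) .nil)) .nil)) .nil)) (.cons 202 (.leaf 178 1428 (.cons 274 (.cons 273 (.leaf 297 1614 (.cons 272 (.leaf 271 1977 (.leaf 252 1985 .nil)) .nil)) (.cons 203 (.leaf 179 1429 (.cons 227 (.leaf 298 1621 (.cons 204 (.leaf 180 1437 (.cons 205 (.leaf 225 1610 (.leaf 206 1618 .nil)) .nil)) .nil)) .nil)) .nil)) .nil)) (.cons 202 (.leaf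 178 1428 (.cons 274 (.cons 201 (.leaf 177 1423 (.cons 298 (.leaf 225 1615 (.cons 322 (.leaf 227 1813 (.leaf 346 2005 .nil)) .nil)) .nil)) (.cons 297 (.leaf 273 1614 (.cons 298 (.leaf 321 1806 (.cons 322 (.leaf 227 1813 (.leaf 346 2005 .nil)) .nil)) .nil)) (.cons 201 (.leaf 177 1423 (.cons 273 (.leaf 297 1614 (.cons 272 (.leaf 271 1977 (.cons 248 (.leaf 247 1979 (.cons 296 (.leaf 295 2170 (.cons 225 (.leaf 224 1605 (.leaf 249 1606 .nil)) .nil)) .nil)) .nil)) .nil)) .nil)) .nil))) .nil)) (.cons 202 (.leaf 178 1428 (.cons 274 (.cons 298 (.cons 321 (.leaf 297 1806 (.cons 322 (.leaf 346 2005 (.leaf 345 1998 .nil)) .nil)) (.cons 225 (.leaf 201 1615 (.cons 252 (.leaf 253 1803 (.cons 224 (.leaf 223 1784 (.leaf 249 1795 .nil)) .nil)) .nil)) .nil)) (.cons 203 (.leaf 179 1429 (.cons 298 (.leaf 227 1621 (.cons 321 (.leaf 297 1806 (.cons 322 (.leaf 346 2005 (.leaf 345 1998 .nil)) .nil)) .nil))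 .nil)) (.cons 203 (.leaf 179 1429 (.cons 225 (.cons 204 (.leaf 205 1610 (.cons 224 (.leaf 223 1784 (.leaf 201 1602 .nil)) .nil)) (.cons 252 (.leaf 253 1803 (.cons 224 (.leaf 223 1784 (.leaf 227 1792 .nil)) .nil)) (.cons 204 (.leaf 205 1610 (.cons 180 (.leaf 227 1437 (.cons 201 (.leaf 181 1417 (.leaf 177 1423 .nil)) .nil)) .nil)) .nil))) .nil)) .nil))) .nil)) (.cons 202 (.leaf 178 1428 (.cons 274 (.cons 273 (.leaf 297 1614 (.cons 252 (.leaf 272 1985 (.leaf 253 1994 .nil)) .nil)) (.cons 203 (.leaf 179 1429 (.cons 298 (.leaf 227 1621 (.cons 321 (.leaf 297 1806 (.cons 322 (.leaf 346 2005 (.leaf 345 1998 .nil)) .nil)) .nil)) .nil)) (.cons 272 t7 .nil))) .nil)) (.cons 225 (.cons 252 (.leaf 253 1803 (.cons 224 (.leaf 223 1784 (.leaf 227 1792 .nil)) .nil)) (.cons 274 t26 (.cons 252 (.leaf 253 1803 (.cons 274 (.cons 298 (.leaf 201 1615 (.cons 322 (.leaf 346 2005 (.leaf 249 1807 .nil)) .nil))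 (.cons 298 (.leaf 201 1615 (.cons 321 (.leaf 297 1806 (.cons 322 (.leaf 346 2005 (.leaf 345 1998 .nil)) .nil)) .nil)) (.cons 273 (.leaf 272 1985 (.cons 297 (.leaf 202 1614 (.cons 321 (.leaf 249 1805 (.leaf 345 1997 .nil)) .nil)) .nil)) .nil))) .nil)) .nil))) (.cons 224 t23 (.cons 178 (.leaf 202 1428 (.cons 225 (.cons 252 (.leaf 253 1803 (.cons 224 (.leaf 223 1784 (.leaf 227 1792 .nil)) .nil)) (.cons 252 (.leaf 253 1803 (.cons 224 (.leaf 223 1784 (.leaf 249 1795 .nil)) .nil)) (.cons 252 (.leaf 253 1803 (.cons 177 t20 .nil)) (.cons 224 (.leaf 223 1784 (.cons 227 (.cons 200 (.leaf 199 1595 (.cons 228 (.leaf 201 1603 (.cons 248 (.leaf 247 1786 (.leaf 249 1793 .nil)) .nil)) .nil)) (.cons 203 (.leaf 204 1601 (.cons 179 (.leaf 155 1238 (.leaf 154 1239 .nil)) .nil)) .nil)) .nil)) .nil)))) .nil)) .nil)))))))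
noncomputable def t28 : T := .cons 226 (.leaf 321 1805 (.cons 202 (.leaf 178 1428 (.leaf 225 1613 .nil)) .nil)) (.cons 321 (.leaf 226 1805 (.cons 344 (.leaf 320 1990 (.cons 345 (.leaf 368 2182 (.cons 346 (.leaf 322 1996 (.leaf 370 2188 .nil)) .nil)) .nil)) .nil)) (.cons 321 (.cons 344 (.leaf 320 1990 (.cons 345 (.leaf 274 1997 (.leaf 368 2182 .nil)) .nil)) (.cons 345 (.leaf 274 1997 (.cons 346 (.leaf 322 1996 (.leaf 370 2188 .nil)) .nil)) (.cons 320 (.leaf 344 1990 (.cons 225 (.leaf 296 1798 (.cons 322 (.leaf 298 1804 (.leaf 346 1996 .nil)) .nil)) .nil)) .nil))) (.cons 225 (.cons 296 (.leaf 320 1798 (.cons 298 (.leaf 322 1804 (.cons 295 (.leaf 274 2169 (.cons 270 (.leaf 271 2163 (.cons 294 (.leaf 269 2155 (.cons 318 (.leaf 317 2346 (.leaf 319 2354 .nil)) .nil)) .nil)) .nil)) .nil)) .nil)) (.cons 201 (.cons 176 (.leaf 200 1415 (.cons 177 (.leaf 152 1223 (.cons 178 (.leaf 154 1229 (.leaf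 202 1421 .nil)) .nil)) .nil)) (.cons 176 (.leaf 200 1415 (.cons 177 (.leaf 152 1223 (.cons 154 (.leaf 178 1229 (.cons 153 (.leaf 226 1228 (.leaf 130 1037 .nil)) .nil)) .nil)) .nil)) (.cons 176 (.leaf 200 1415 (.cons 177 (.leaf 152 1223 (.cons 226 (.leaf 153 1228 (.leaf 202 1613 .nil)) .nil)) .nil)) (.cons 202 (.leaf 178 1421 (.leaf 226 1613 .nil)) .nil)))) .nil)) .nil)))
noncomputable def t29 : T := .cons 230 (.leaf 229 1809 (.cons 254 (.leaf 231 1817 (.cons 278 (.leaf 277 2000 (.leaf 279 2008 .nil)) .nil)) .nil)) (.cons 229 (.leaf 230 1809 (.cons 228 (.leaf 249 1801 (.cons 277 (.leaf 278 2000 (.cons 301 (.leaf 204 1639 (.leaf 325 1831 .nil)) .nil)) .nil)) .nil)) (.cons 278 (.leaf 277 2000 (.cons 254 (.leaf 279 2008 (.cons 227 (.leaf 226 1811 (.cons 255 (.leaf 228 1819 (.cons 231 (.leaf 230 1817 (.leaf 232 1825 .nil)) .nil)) .nil)) .nil)) .nil)) (.cons 278 (.leaf 277 2000 (.cons 254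 (.leaf 279 2008 (.cons 227 (.leaf 226 1811 (.cons 228 (.leaf 255 1819 (.cons 249 (.leaf 248 1793 (.leaf 229 1801 .nil)) .nil)) .nil)) .nil)) .nil)) (.cons 254 (.cons 227 (.leaf 226 1811 (.cons 255 (.leaf 228 1819 (.cons 232 (.leaf 231 1825 (.cons 256 (.leaf 233 1833 (.cons 280 (.leaf 279 2016 (.leaf 281 2024 .nil)) .nil)) .nil)) .nil)) .nil)) (.cons 230 (.leaf 229 1809 (.leaf 231 1817 .nil)) (.cons 227 (.leaf 226 1811 (.cons 228 (.leaf 255 1819 (.cons 229 (.leaf 249 1801 (.leaf 230 1809 .nil)) .nil)) .nil)) .nil))) .nil))))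
noncomputable def t30 : T := .cons 253 t29 (.cons 253 (.cons 273 (.leaf 274 1994 (.cons 249 (.leaf 272 1986 (.cons 229 (.leaf 228 1801 (.leaf 230 1809 .nil)) .nil)) .nil)) (.cons 230 (.leaf 229 1809 (.cons 254 (.leaf 231 1817 (.cons 278 (.leaf 277 2000 (.leaf 279 2008 .nil)) .nil)) .nil)) (.cons 274 (.leaf 273 1994 (.leaf 254 2002 .nil)) .nil))) (.cons 249 (.cons 272 (.leaf 273 1986 (.cons 248 (.leaf 271 1978 (.cons 228 (.leaf 227 1793 (.leaf 229 1801 .nil)) .nil)) .nil)) (.cons 228 (.leaf 229 1801 (.cons 248 (.leaf 227 1793 (.cons 247 (.leaf 274 1976 (.cons 222 (.leaf 223 1779 (.cons 246 (.leaf 221 1771 (.cons 270 (.leaf 269 1962 (.leaf 271 1970 .nil)) .nil)) .nil)) .nil)) .nil)) .nil)) (.cons 273 (.leaf 272 1986 (.cons 297 t28 .nil)) (.cons 228 (.leaf 229 1801 (.cons 227 (.cons 203 (.cons 178 (.leaf 202 1431 (.cons 179 (.leaf 155 1244 (.leaf 154 1239 .nil)) .nil)) (.cons 274 (.leaf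 179 1430 (.leaf 298 1622 .nil)) (.cons 202 (.leaf 178 1431 (.cons 201 (.leaf 200 1600 (.cons 274 (.leaf 298 1622 (.cons 226 (.leaf 177 1423 (.cons 273 (.leaf 272 1985 (.leaf 297 1614 .nil)) .nil)) .nil)) .nil)) .nil)) .nil))) (.leaf 248 1793 .nil)) .nil)) .nil)))) (.cons 253 (.cons 254 (.leaf 274 2002 (.cons 231 (.leaf 230 1817 (.cons 255 (.leaf 232 1825 (.cons 279 (.leaf 278 2008 (.leaf 280 2016 .nil)) .nil)) .nil)) .nil)) (.cons 226 (.leaf 225 1803 (.cons 254 (.leaf 227 1811 (.cons 278 (.leaf 277 2000 (.leaf 279 2008 .nil)) .nil)) .nil)) (.cons 226 (.leaf 225 1803 (.cons 202 (.leaf 178 1428 (.cons 274 (.leaf 273 1994 (.cons 203 (.leaf 179 1429 (.cons 298 (.leaf 227 1621 (.cons 321 (.leaf 297 1806 (.cons 322 (.leaf 346 2005 (.leaf 345 1998 .nil)) .nil)) .nil)) .nil)) .nil)) .nil)) .nil)) .nil))) .nil)))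
noncomputable def t31 : T := .cons 205 (.cons 182 (.leaf 181 1425 (.cons 206 (.leaf 183 1433 (.cons 230 (.leaf 229 1616 (.leaf 231 1624 .nil)) .nil)) .nil)) (.cons 178 (.leaf 177 1419 (.cons 206 (.leaf 179 1427 (.cons 230 (.leaf 229 1616 (.leaf 231 1624 .nil)) .nil)) .nil)) (.cons 177 (.leaf 178 1419 (.cons 201 (.leaf 176 1411 (.cons 181 (.leaf 180 1417 (.leaf 182 1425 .nil)) .nil)) .nil)) .nil))) (.cons 205 (.cons 182 (.leaf 181 1425 (.cons 206 (.leaf 183 1433 (.cons 230 (.leaf 229 1616 (.leaf 231 1624 .nil)) .nil)) .nil)) (.cons 178 (.leaf 177 1419 (.cons 206 (.leaf 179 1427 (.cons 182 (.leaf 181 1425 (.leaf 183 1433 .nil)) .nil)) .nil)) (.cons 177 (.leaf 178 1419 (.cons 201 (.leaf 176 1411 (.cons 229 (.leaf 228 1608 (.leaf 230 1616 .nil)) .nil)) .nil)) .nil))) (.cons 180 (.leaf 228 1438 (.cons 181 (.leaf 201 1417 (.cons 182 (.leaf 179 1426 (.leaf 183 1434 .nil)) .nil)) .nil)) (.cons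 205 (.cons 178 (.leaf 177 1419 (.cons 206 (.leaf 179 1427 (.cons 230 (.leaf 229 1616 (.leaf 231 1624 .nil)) .nil)) .nil)) (.cons 178 (.leaf 177 1419 (.cons 206 (.leaf 179 1427 (.cons 182 (.leaf 181 1425 (.leaf 183 1433 .nil)) .nil)) .nil)) (.cons 181 (.leaf 182 1425 (.cons 228 (.leaf 180 1438 (.cons 157 (.leaf 133 1062 (.leaf 229 1801 .nil)) .nil)) .nil)) .nil))) (.cons 228 (.leaf 180 1438 (.cons 229 (.leaf 201 1608 (.cons 230 (.leaf 205 1616 (.leaf 231 1818 .nil)) .nil)) .nil)) .nil))))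
noncomputable def t32 : T := .cons 202 (.cons 204 t31 (.cons 226 (.leaf 178 1428 (.leaf 179 1429 .nil)) (.cons 201 (.cons 200 (.cons 175 (.leaf 176 1403 (.cons 199 (.leaf 174 1395 (.cons 223 (.leaf 222 1586 (.leaf 224 1594 .nil)) .nil)) .nil)) (.cons 180 (.leaf 179 1409 (.cons 204 (.leaf 181 1417 (.leaf 228 1438 .nil)) .nil)) .nil)) (.cons 226 (.leaf 179 1429 (.leaf 177 1423 .nil)) (.cons 177 (.leaf 226 1423 (.cons 176 (.leaf 204 1411 (.cons 175 (.leaf 174 1392 (.leaf 200 1403 .nil)) .nil)) .nil)) .nil))) (.cons 204 (.cons 228 (.leaf 180 1438 (.cons 229 (.leaf 201 1608 (.cons 230 (.leaf 205 1616 (.leaf 231 1818 .nil)) .nil)) .nil)) (.cons 178 (.leaf 226 1428 (.cons 205 (.leaf 177 1419 (.cons 182 (.leaf 181 1425 (.cons 206 (.leaf 183 1433 (.cons 230 (.leaf 229 1616 (.leaf 231 1624 .nil)) .nil)) .nil)) .nil)) .nil)) (.cons 180 (.leaf 228 1438 (.cons 201 (.leaf 181 1417 (.cons 226 (.leaf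 178 1428 (.leaf 177 1423 .nil)) .nil)) .nil)) .nil))) .nil)))) (.cons 227 (.leaf 179 1430 (.leaf 298 1622 .nil)) (.cons 227 (.leaf 298 1622 (.cons 202 (.leaf 178 1431 (.cons 204 (.leaf 180 1437 (.cons 228 (.leaf 229 1801 (.cons 201 (.leaf 200 1600 (.cons 177 (.leaf 176 1411 (.leaf 226 1423 .nil)) .nil)) .nil)) .nil)) .nil)) .nil)) .nil))
noncomputable def t33 : T := .cons 295 (.leaf 297 2169 (.cons 319 (.leaf 224 1790 (.cons 343 (.leaf 271 1981 (.leaf 367 2173 .nil)) .nil)) .nil)) (.cons 320 (.cons 247 (.leaf 223 1791 (.cons 344 (.leaf 271 1983 (.cons 343 (.leaf 319 1982 (.leaf 367 2174 .nil)) .nil)) .nil)) (.cons 343 (.leaf 319 1982 (.cons 344 (.leaf 367 2174 (.cons 345 (.leaf 321 1988 (.leaf 369 2180 .nil)) .nil)) .nil)) (.cons 223 (.leaf 247 1791 (.cons 224 (.leaf 199 1599 (.cons 321 (.leaf 297 1796 (.leaf 345 1988 .nil)) .nil)) .nil)) .nil))) (.cons 320 (.cons 343 (.leaf 319 1982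 (.cons 344 (.leaf 367 2174 (.cons 345 (.leaf 321 1988 (.leaf 369 2180 .nil)) .nil)) .nil)) (.cons 247 (.leaf 223 1791 (.cons 344 (.leaf 271 1983 (.cons 345 (.leaf 321 1988 (.leaf 369 2180 .nil)) .nil)) .nil)) (.cons 223 (.leaf 247 1791 (.cons 224 (.leaf 199 1599 (.cons 319 (.leaf 295 1790 (.leaf 343 1982 .nil)) .nil)) .nil)) .nil))) (.cons 320 (.cons 247 (.leaf 223 1791 (.cons 344 (.leaf 271 1983 (.cons 343 (.leaf 319 1982 (.leaf 367 2174 .nil)) .nil)) .nil)) (.cons 247 (.leaf 223 1791 (.cons 344 (.leaf 271 1983 (.cons 345 (.leaf 321 1988 (.leaf 369 2180 .nil)) .nil)) .nil)) (.cons 319 (.leaf 343 1982 (.cons 321 (.leaf 345 1988 (.cons 297 (.leaf 295 2169 (.leaf 318 2353 .nil)) .nil)) .nil)) .nil))) (.cons 297 (.leaf 295 2169 (.cons 321 (.leaf 224 1796 (.cons 345 (.leaf 320 1988 (.leaf 369 2189 .nil)) .nil)) .nil)) .nil))))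
noncomputable def t34 : T := .cons 253 (.leaf 273 1994 (.leaf 254 2002 .nil)) (.cons 253 (.leaf 254 2002 (.cons 229 (.leaf 230 1809 (.cons 228 (.leaf 249 1801 (.cons 204 (.leaf 180 1438 (.cons 277 (.leaf 278 2000 (.leaf 301 1639 .nil)) .nil)) .nil)) .nil)) .nil)) (.cons 272 (.leaf 273 1985 (.cons 298 (.cons 227 (.leaf 322 1813 (.leaf 203 1622 .nil)) (.cons 227 (.leaf 203 1622 (.cons 248 (.cons 249 (.leaf 247 1976 (.leaf 228 1793 .nil)) (.cons 249 (.leaf 228 1793 (.leaf 271 1978 .nil)) (.cons 296 t33 .nil))) .nil)) (.cons 322 (.leaf 346 2005 (.cons 323 (.leaf 347 2004 (.cons 324 (.cons 325 (.leaf 297 2379 (.cons 302 (.leaf 301 2385 (.cons 326 (.leaf 303 2393 (.cons 350 (.leaf 349 2576 (.leaf 351 2584 .nil)) .nil)) .nil)) .nil)) (.cons 321 (.leaf 345 1998 (.cons 301 (.leaf 300 2377 (.cons 325 (.leaf 302 2385 (.cons 349 (.leaf 348 2568 (.leaf 350 2576 .nil)) .nil)) .nil)) .nil)) (.cons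 321 (.leaf 345 1998 (.cons 296 (.leaf 297 2371 (.cons 320 (.leaf 295 2363 (.cons 343 (.leaf 344 2554 (.cons 319 (.leaf 342 2546 (.leaf 248 1982 .nil)) .nil)) .nil)) .nil)) .nil)) .nil))) .nil)) .nil)) .nil))) .nil)) .nil))
noncomputable def t35 : T := .cons 180 (.cons 181 (.leaf 201 1417 (.cons 182 (.leaf 205 1425 (.leaf 183 1434 .nil)) .nil)) (.cons 228 (.leaf 252 1438 (.cons 201 (.leaf 229 1608 (.leaf 181 1417 .nil)) .nil)) (.cons 228 (.leaf 252 1438 (.cons 229 (.leaf 201 1608 (.cons 230 (.leaf 205 1616 (.leaf 231 1627 .nil)) .nil)) .nil)) (.cons 229 (.cons 228 (.leaf 252 1438 (.cons 156 (.leaf 253 1252 (.cons 131 (.leaf 155 1055 (.cons 132 (.leaf 107 863 (.cons 133 (.leaf 109 869 (.leaf 157 1061 .nil)) .nil)) .nil)) .nil)) .nil)) (.cons 205 (.leaf 230 1616 (.cons 253 (.leaf 277 1447 (.cons 181 (.leaf 182 1425 (.leaf 156 1255 .nil)) .nil)) .nil)) (.cons 230 (.leaf 205 1616 (.cons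 228 (.leaf 231 1627 (.leaf 252 1438 .nil)) .nil)) .nil))) .nil)))) (.cons 178 (.leaf 226 1428 (.cons 177 (.leaf 205 1419 (.cons 176 (.leaf 175 1400 (.leaf 201 1411 .nil)) .nil)) .nil)) (.cons 178 (.leaf 226 1428 (.cons 205 (.leaf 177 1419 (.cons 182 (.leaf 181 1425 (.cons 206 (.leaf 183 1433 (.cons 230 (.leaf 229 1616 (.leaf 231 1624 .nil)) .nil)) .nil)) .nil)) .nil)) (.cons 226 (.leaf 178 1428 (.cons 201 (.leaf 177 1423 (.cons 180 (.leaf 181 1417 (.cons 228 (.leaf 229 1608 (.leaf 252 1438 .nil)) .nil)) .nil)) .nil)) .nil)))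
noncomputable def t36 : T := .cons 205 (.cons 182 (.leaf 181 1425 (.cons 206 (.leaf 183 1433 (.cons 230 (.leaf 229 1616 (.leaf 231 1624 .nil)) .nil)) .nil)) (.cons 177 (.leaf 178 1419 (.cons 201 (.leaf 176 1411 (.cons 181 (.leaf 180 1417 (.leaf 182 1425 .nil)) .nil)) .nil)) (.cons 177 (.leaf 178 1419 (.cons 201 (.leaf 176 1411 (.cons 229 (.leaf 228 1608 (.leaf 230 1616 .nil)) .nil)) .nil)) .nil))) (.cons 205 (.cons 182 (.leaf 181 1425 (.cons 206 (.leaf 183 1433 (.cons 230 (.leaf 229 1616 (.leaf 231 1624 .nil)) .nil)) .nil)) (.cons 178 (.leaf 177 1419 (.cons 206 (.leaf 179 1427 (.cons 230 (.leaf 229 1616 (.leaf 231 1624 .nil)) .nil)) .nil)) (.cons 178 (.leaf 177 1419 (.cons 206 (.leaf 179 1427 (.cons 182 (.leaf 181 1425 (.leaf 183 1433 .nil)) .nil)) .nil)) (.cons 181 (.leaf 182 1425 (.cons 157 (.cons 178 (.leaf 177 1419 (.cons 229 (.leaf 230 1616 (.cons 156 (.leaf 132 1063 (.cons 180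 (.leaf 253 1255 (.cons 158 (.leaf 179 1233 (.leaf 134 1069 .nil)) .nil)) .nil)) .nil)) .nil)) (.cons 133 (.leaf 228 1062 (.cons 109 (.leaf 180 870 (.cons 110 (.leaf 86 685 (.leaf 134 877 .nil)) .nil)) .nil)) (.cons 133 (.leaf 228 1062 (.cons 132 (.leaf 108 871 (.cons 229 (.leaf 230 1616 (.leaf 156 1063 .nil)) .nil)) .nil)) .nil))) .nil)) .nil)))) (.cons 201 (.cons 180 (.leaf 181 1417 (.cons 228 (.leaf 229 1608 (.leaf 252 1438 .nil)) .nil)) (.cons 200 (.cons 175 (.leaf 176 1403 (.cons 199 (.leaf 174 1395 (.cons 223 (.leaf 222 1586 (.leaf 224 1594 .nil)) .nil)) .nil)) (.cons 223 (.leaf 224 1594 (.cons 199 (.leaf 222 1586 (.cons 174 (.leaf 175 1395 (.cons 198 (.leaf 173 1387 (.cons 178 (.leaf 177 1393 (.leaf 179 1401 .nil)) .nil)) .nil)) .nil)) .nil)) (.cons 176 (.leaf 175 1403 (.leaf 177 1411 .nil)) (.cons 223 (.leaf 224 1594 (.cons 199 (.leaf 222 1586 (.cons 178 (.leaf 179 1401 (.cons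 177 (.leaf 198 1393 (.leaf 176 1411 .nil)) .nil)) .nil)) .nil)) .nil)))) .nil)) (.cons 228 (.cons 229 (.leaf 201 1608 (.cons 230 (.leaf 205 1616 (.leaf 231 1627 .nil)) .nil)) (.cons 180 (.leaf 252 1438 (.cons 181 (.leaf 201 1417 (.cons 182 (.leaf 205 1425 (.leaf 179 1426 .nil)) .nil)) .nil)) (.cons 205 (.cons 182 (.leaf 181 1425 (.cons 206 (.leaf 183 1433 (.cons 230 (.leaf 229 1616 (.leaf 231 1624 .nil)) .nil)) .nil)) (.cons 180 (.leaf 252 1438 (.cons 229 (.leaf 230 1616 (.cons 253 (.leaf 156 1252 (.leaf 277 1447 .nil)) .nil)) .nil)) (.cons 182 (.leaf 181 1425 (.cons 206 (.leaf 183 1433 (.cons 231 (.leaf 230 1624 (.cons 207 (.leaf 232 1632 (.cons 180 (.leaf 179 1435 (.leaf 252 1438 .nil)) .nil)) .nil)) .nil)) .nil)) (.cons 181 (.leaf 182 1425 (.cons 157 (.leaf 133 1062 (.cons 252 (.leaf 180 1253 (.leaf 229 1254 .nil)) .nil)) .nil)) .nil)))) (.cons 180 (.leaf 252 1438 (.cons 201 (.leaf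 229 1608 (.leaf 181 1417 .nil)) .nil)) .nil)))) (.cons 205 (.cons 178 (.leaf 177 1419 (.cons 206 (.leaf 179 1427 (.cons 183 (.leaf 182 1433 (.cons 207 (.leaf 184 1441 (.cons 231 (.leaf 230 1624 (.leaf 232 1632 .nil)) .nil)) .nil)) .nil)) .nil)) (.cons 201 (.cons 228 (.leaf 229 1608 (.cons 180 (.leaf 252 1438 (.cons 179 (.leaf 200 1409 (.cons 206 (.leaf 178 1427 (.leaf 207 1435 .nil)) .nil)) .nil)) .nil)) (.cons 176 (.leaf 177 1411 (.cons 200 (.leaf 175 1403 (.cons 180 (.leaf 179 1409 (.cons 228 (.leaf 229 1608 (.leaf 252 1438 .nil)) .nil)) .nil)) .nil)) (.cons 177 (.leaf 176 1411 (.leaf 178 1419 .nil)) .nil))) (.cons 229 (.leaf 230 1616 (.cons 228 (.leaf 201 1608 (.cons 180 (.leaf 252 1438 (.cons 253 (.leaf 156 1252 (.leaf 277 1447 .nil)) .nil)) .nil)) .nil)) .nil))) (.cons 205 (.cons 177 (.leaf 178 1419 (.cons 201 (.leaf 176 1411 (.cons 181 (.leaf 180 1417 (.leaf 182 1425 .nil)) .nil))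 .nil)) (.cons 178 (.leaf 177 1419 (.cons 206 (.leaf 179 1427 (.cons 183 (.leaf 182 1433 (.cons 207 (.leaf 184 1441 (.cons 231 (.leaf 230 1624 (.leaf 232 1632 .nil)) .nil)) .nil)) .nil)) .nil)) (.cons 206 (.cons 183 (.leaf 182 1433 (.cons 207 (.leaf 184 1441 (.cons 231 (.leaf 230 1624 (.leaf 232 1632 .nil)) .nil)) .nil)) (.cons 182 (.leaf 181 1425 (.leaf 183 1433 .nil)) (.cons 231 (.leaf 230 1624 (.cons 207 (.leaf 232 1632 (.cons 180 (.leaf 179 1435 (.cons 181 (.leaf 201 1417 (.leaf 208 1443 .nil)) .nil)) .nil)) .nil)) .nil))) (.cons 201 (.cons 176 (.leaf 177 1411 (.cons 200 (.leaf 175 1403 (.cons 180 (.leaf 179 1409 (.leaf 181 1417 .nil)) .nil)) .nil)) (.cons 177 (.leaf 176 1411 (.leaf 178 1419 .nil)) (.cons 180 (.leaf 181 1417 (.cons 179 (.leaf 200 1409 (.cons 206 (.leaf 178 1427 (.leaf 207 1435 .nil)) .nil)) .nil)) .nil))) .nil)))) .nil)))))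
noncomputable def t37 : T := .cons 227 (.leaf 298 1622 (.cons 178 (.leaf 202 1431 (.cons 179 (.leaf 154 1239 (.cons 180 (.leaf 156 1245 (.leaf 204 1437 .nil)) .nil)) .nil)) .nil)) (.cons 298 (.leaf 227 1622 (.cons 322 (.leaf 346 2005 (.cons 321 (.leaf 345 1998 (.cons 297 (.leaf 226 1806 (.cons 296 (.leaf 295 2169 (.cons 323 (.leaf 324 2371 (.leaf 347 2004 .nil)) .nil)) .nil)) .nil)) .nil)) .nil)) (.cons 202 (.cons 226 (.leaf 178 1428 (.leaf 179 1429 .nil)) (.cons 201 (.cons 200 (.cons 175 (.leaf 176 1403 (.cons 199 (.leaf 174 1395 (.cons 223 (.leaf 222 1586 (.leaf 224 1594 .nil)) .nil)) .nil)) (.cons 180 (.leaf 179 1409 (.cons 204 (.leaf 181 1417 (.cons 228 (.leaf 229 1608 (.leaf 252 1438 .nil)) .nil)) .nil)) .nil)) (.cons 226 (.leaf 179 1429 (.leaf 177 1423 .nil)) (.cons 177 (.leaf 226 1423 (.cons 176 (.leaf 204 1411 (.cons 175 (.leaf 174 1392 (.leaf 200 1403 .nil)) .nil)) .nil))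 .nil))) (.cons 204 (.cons 205 (.cons 182 (.leaf 181 1425 (.cons 206 (.leaf 183 1433 (.cons 230 (.leaf 229 1616 (.leaf 231 1624 .nil)) .nil)) .nil)) (.cons 178 (.leaf 177 1419 (.cons 206 (.leaf 179 1427 (.cons 182 (.leaf 181 1425 (.leaf 183 1433 .nil)) .nil)) .nil)) (.cons 177 (.leaf 178 1419 (.cons 201 (.leaf 176 1411 (.cons 229 (.leaf 228 1608 (.leaf 230 1616 .nil)) .nil)) .nil)) .nil))) t36) (.cons 204 t35 .nil)))) .nil))
noncomputable def t38 : T := .cons 247 (.leaf 249 1976 (.cons 223 (.leaf 320 1791 (.cons 199 (.leaf 175 1404 (.leaf 224 1599 .nil)) .nil)) .nil)) (.cons 247 (.leaf 249 1976 (.cons 320 (.leaf 223 1791 (.cons 343 (.leaf 319 1982 (.cons 344 (.leaf 367 2174 (.cons 345 (.leaf 321 1988 (.leaf 369 2180 .nil)) .nil)) .nil)) .nil)) .nil)) (.cons 249 (.leaf 247 1976 (.cons 224 (.leaf 223 1787 (.cons 295 (.leaf 319 1790 (.cons 297 (.leaf 298 2169 (.leaf 321 1796 .nil)) .nil))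 .nil)) .nil)) (.cons 321 (.cons 345 (.leaf 320 1988 (.cons 297 (.leaf 369 2183 (.cons 295 (.leaf 298 2169 (.cons 294 (.leaf 322 2352 (.cons 269 (.leaf 270 2155 (.cons 293 (.leaf 268 2147 (.cons 317 (.leaf 316 2338 (.leaf 318 2346 .nil)) .nil)) .nil)) .nil)) .nil)) .nil)) .nil)) (.cons 345 (.leaf 320 1988 (.cons 297 (.leaf 224 1796 (.leaf 369 2183 .nil)) .nil)) (.cons 320 (.leaf 345 1988 (.cons 319 (.leaf 343 1982 (.cons 295 (.leaf 224 1790 (.cons 322 (.leaf 294 2355 (.leaf 323 2363 .nil)) .nil)) .nil)) .nil)) (.cons 297 (.leaf 224 1796 (.cons 298 (.leaf 295 2169 (.leaf 226 1806 .nil)) .nil)) .nil)))) .nil)))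
noncomputable def t39 : T := .cons 320 (.cons 321 (.leaf 345 1988 (.cons 297 (.leaf 224 1796 (.cons 295 (.leaf 298 2169 (.cons 322 (.leaf 294 2352 (.leaf 323 2363 .nil)) .nil)) .nil)) .nil)) (.cons 343 (.leaf 319 1982 (.cons 344 (.leaf 367 2174 (.cons 345 (.leaf 321 1988 (.leaf 369 2180 .nil)) .nil)) .nil)) (.cons 343 (.leaf 319 1982 (.cons 344 (.leaf 367 2174 (.cons 271 (.leaf 247 1983 (.cons 368 (.leaf 295 2175 (.cons 369 (.leaf 345 2180 (.leaf 393 2372 .nil)) .nil)) .nil)) .nil)) .nil)) (.cons 319 (.leaf 343 1982 (.cons 295 (.leaf 224 1790 (.cons 298 (.leaf 297 2169 (.cons 322 (.leaf 346 2005 (.cons 321 (.leaf 294 2355 (.leaf 323 2363 .nil)) .nil)) .nil)) .nil)) .nil)) .nil)))) (.cons 224 (.cons 295 (.leaf 319 1790 (.cons 297 (.leaf 298 2169 (.leaf 321 1796 .nil)) .nil)) (.cons 223 (.leaf 199 1599 (.cons 320 (.leaf 247 1791 (.cons 319 (.leaf 295 1790 (.leaf 343 1982 .nil)) .nil))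 .nil)) (.cons 223 (.leaf 199 1599 (.cons 320 (.leaf 247 1791 (.cons 321 (.leaf 297 1796 (.leaf 345 1988 .nil)) .nil)) .nil)) .nil))) (.cons 224 (.cons 295 (.leaf 319 1790 (.cons 297 (.leaf 298 2169 (.leaf 321 1796 .nil)) .nil)) (.cons 200 (.cons 175 (.leaf 199 1407 (.cons 176 (.leaf 151 1215 (.cons 177 (.leaf 153 1221 (.leaf 201 1413 .nil)) .nil)) .nil)) (.cons 177 (.leaf 201 1413 (.cons 176 (.leaf 153 1221 (.cons 151 (.leaf 175 1215 (.cons 152 (.leaf 127 1023 (.cons 247 (.leaf 223 1214 (.leaf 271 1406 .nil)) .nil)) .nil)) .nil)) .nil)) (.cons 177 (.leaf 201 1413 (.cons 176 (.leaf 153 1221 (.cons 247 (.leaf 271 1406 (.cons 223 (.leaf 152 1214 (.leaf 199 1599 .nil)) .nil)) .nil)) .nil)) (.cons 199 (.leaf 175 1407 (.leaf 223 1599 .nil)) .nil)))) .nil)) (.cons 224 (.cons 223 (.leaf 199 1599 (.cons 320 (.leaf 247 1791 (.cons 321 (.leaf 297 1796 (.leaf 345 1988 .nil)) .nil)) .nil)) (.cons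 199 (.leaf 223 1599 (.cons 200 (.leaf 175 1407 (.cons 271 (.leaf 295 1598 (.cons 176 (.leaf 247 1406 (.cons 177 (.leaf 153 1221 (.leaf 201 1413 .nil)) .nil)) .nil)) .nil)) .nil)) (.cons 321 (.leaf 297 1796 (.cons 320 (.leaf 345 1988 (.cons 247 (.leaf 223 1791 (.cons 271 (.leaf 344 1983 (.cons 200 (.leaf 176 1406 (.leaf 295 1598 .nil)) .nil)) .nil)) .nil)) .nil)) (.cons 297 (.leaf 321 1796 (.cons 295 (.leaf 298 2169 (.cons 200 (.leaf 271 1598 (.cons 175 (.leaf 199 1407 (.cons 176 (.leaf 151 1215 (.cons 177 (.leaf 153 1221 (.leaf 201 1413 .nil)) .nil)) .nil)) .nil)) .nil)) .nil)) .nil)))) (.cons 320 (.cons 247 (.leaf 223 1791 (.cons 344 (.leaf 271 1983 (.cons 343 (.leaf 319 1982 (.leaf 367 2174 .nil)) .nil)) .nil)) (.cons 343 (.leaf 319 1982 (.cons 344 (.leaf 367 2174 (.cons 345 (.leaf 321 1988 (.leaf 369 2180 .nil)) .nil)) .nil)) (.cons 247 (.leaf 223 1791 (.cons 344 (.leaf 271 1983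 (.cons 345 (.leaf 321 1988 (.leaf 369 2180 .nil)) .nil)) .nil)) (.cons 295 (.cons 297 (.leaf 298 2169 (.cons 321 (.leaf 345 1988 (.cons 322 (.leaf 294 2352 (.leaf 323 2363 .nil)) .nil)) .nil)) (.cons 297 (.leaf 298 2169 (.cons 319 (.leaf 343 1982 (.cons 318 (.leaf 317 2345 (.cons 247 (.leaf 223 1791 (.cons 271 (.leaf 342 1974 (.cons 246 (.leaf 222 1783 (.cons 245 (.leaf 244 1952 (.cons 269 (.leaf 270 2152 (.leaf 268 1954 .nil)) .nil)) .nil)) .nil)) .nil)) .nil)) .nil)) .nil)) (.cons 319 (.leaf 343 1982 (.cons 321 (.leaf 345 1988 (.cons 322 (.leaf 294 2355 (.leaf 323 2363 .nil)) .nil)) .nil)) .nil))) .nil)))) (.cons 320 (.cons 247 (.leaf 223 1791 (.cons 344 (.leaf 271 1983 (.cons 343 (.leaf 319 1982 (.leaf 367 2174 .nil)) .nil)) .nil)) (.cons 343 (.leaf 319 1982 (.cons 344 (.leaf 367 2174 (.cons 345 (.leaf 321 1988 (.leaf 369 2180 .nil)) .nil)) .nil)) (.cons 223 (.leaf 247 1791 (.cons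 224 (.leaf 199 1599 (.cons 321 (.leaf 297 1796 (.leaf 345 1988 .nil)) .nil)) .nil)) .nil))) (.cons 320 (.cons 223 (.leaf 247 1791 (.cons 224 (.leaf 199 1599 (.cons 319 (.leaf 295 1790 (.leaf 343 1982 .nil)) .nil)) .nil)) (.cons 247 (.leaf 223 1791 (.cons 344 (.leaf 271 1983 (.cons 367 (.leaf 343 2174 (.cons 368 (.leaf 391 2366 (.cons 369 (.leaf 345 2180 (.leaf 393 2372 .nil)) .nil)) .nil)) .nil)) .nil)) (.cons 344 (.cons 367 (.leaf 343 2174 (.cons 368 (.leaf 391 2366 (.cons 369 (.leaf 345 2180 (.leaf 393 2372 .nil)) .nil)) .nil)) (.cons 369 (.leaf 345 2180 (.cons 368 (.leaf 393 2372 (.cons 295 (.leaf 271 2175 (.cons 319 (.leaf 224 1790 (.leaf 392 2367 .nil)) .nil)) .nil)) .nil)) (.cons 343 (.leaf 319 1982 (.leaf 367 2174 .nil)) .nil))) (.cons 224 (.cons 199 (.leaf 223 1599 (.cons 200 (.leaf 175 1407 (.cons 295 (.leaf 271 1598 (.leaf 319 1790 .nil)) .nil)) .nil)) (.cons 295 (.leaf 319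 1790 (.cons 271 (.leaf 200 1598 (.cons 344 (.leaf 247 1983 (.leaf 368 2175 .nil)) .nil)) .nil)) (.cons 223 (.leaf 199 1599 (.leaf 247 1791 .nil)) .nil))) .nil)))) .nil))))))
noncomputable def t40 : T := .cons 249 (.leaf 247 1976 (.leaf 271 1978 .nil)) (.cons 224 (.cons 249 (.leaf 271 1978 (.leaf 223 1787 .nil)) (.cons 223 (.leaf 249 1787 (.cons 199 (.leaf 296 1599 (.cons 175 (.leaf 151 1212 (.leaf 200 1407 .nil)) .nil)) .nil)) (.cons 200 (.cons 175 (.leaf 199 1407 (.cons 176 (.leaf 151 1215 (.cons 177 (.leaf 153 1221 (.leaf 201 1413 .nil)) .nil)) .nil)) (.cons 295 (.leaf 271 1598 (.cons 296 (.leaf 319 1790 (.cons 297 (.leaf 298 2169 (.leaf 321 1796 .nil)) .nil)) .nil)) .nil)) .nil))) (.cons 296 (.cons 297 (.cons 224 (.leaf 321 1796 (.cons 199 (.leaf 223 1599 (.cons 200 (.leaf 175 1407 (.cons 295 (.leaf 271 1598 (.leaf 319 1790 .nil)) .nil)) .nil)) .nil)) (.cons 321 (.leaf 224 1796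 (.cons 345 (.leaf 369 2183 (.cons 298 (.leaf 226 1806 (.leaf 322 1998 .nil)) .nil)) .nil)) (.cons 295 (.leaf 298 2169 (.cons 319 (.leaf 224 1790 (.cons 343 (.leaf 271 1981 (.leaf 367 2173 .nil)) .nil)) .nil)) (.cons 298 (.leaf 295 2169 (.cons 321 (.leaf 226 1806 (.cons 345 (.leaf 369 2189 (.leaf 322 1998 .nil)) .nil)) .nil)) .nil)))) t39) (.cons 296 t38 .nil)))
noncomputable def t41 : T := .cons 205 (.cons 182 (.leaf 181 1425 (.cons 206 (.leaf 183 1433 (.cons 230 (.leaf 229 1616 (.leaf 231 1624 .nil)) .nil)) .nil)) (.cons 178 (.leaf 177 1419 (.cons 206 (.leaf 179 1427 (.cons 230 (.leaf 229 1616 (.leaf 231 1624 .nil)) .nil)) .nil)) (.cons 177 (.leaf 178 1419 (.cons 201 (.leaf 176 1411 (.cons 181 (.leaf 180 1417 (.leaf 182 1425 .nil)) .nil)) .nil)) .nil))) (.cons 205 (.cons 182 (.leaf 181 1425 (.cons 206 (.leaf 183 1433 (.cons 230 (.leaf 229 1616 (.leaf 231 1624 .nil)) .nil)) .nil))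 (.cons 178 (.leaf 177 1419 (.cons 206 (.leaf 179 1427 (.cons 182 (.leaf 181 1425 (.leaf 183 1433 .nil)) .nil)) .nil)) (.cons 177 (.leaf 178 1419 (.cons 201 (.leaf 176 1411 (.cons 229 (.leaf 228 1608 (.leaf 230 1616 .nil)) .nil)) .nil)) .nil))) (.cons 180 (.leaf 228 1438 (.cons 181 (.leaf 201 1417 (.cons 182 (.leaf 179 1426 (.leaf 183 1434 .nil)) .nil)) .nil)) (.cons 205 (.cons 178 (.leaf 177 1419 (.cons 206 (.leaf 179 1427 (.cons 230 (.leaf 229 1616 (.leaf 231 1624 .nil)) .nil)) .nil)) (.cons 178 (.leaf 177 1419 (.cons 206 (.leaf 179 1427 (.cons 182 (.leaf 181 1425 (.leaf 183 1433 .nil)) .nil)) .nil)) (.cons 181 (.leaf 182 1425 (.cons 228 (.leaf 180 1438 (.cons 157 (.leaf 133 1062 (.leaf 229 1254 .nil)) .nil)) .nil)) .nil))) (.cons 228 (.leaf 180 1438 (.cons 229 (.leaf 201 1608 (.cons 230 (.leaf 205 1616 (.leaf 231 1818 .nil)) .nil)) .nil)) .nil))))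
noncomputable def t42 : T := .cons 253 (.leaf 273 1994 (.leaf 254 2002 .nil)) (.cons 253 (.leaf 254 2002 (.cons 277 (.leaf 278 2000 (.cons 229 (.leaf 230 1809 (.cons 301 (.cons 324 (.leaf 300 1830 (.cons 325 (.leaf 348 2022 (.cons 326 (.leaf 302 1836 (.leaf 350 2028 .nil)) .nil)) .nil)) (.cons 205 (.cons 180 (.leaf 204 1447 (.cons 181 (.leaf 156 1255 (.cons 182 (.leaf 158 1261 (.leaf 206 1453 .nil)) .nil)) .nil)) (.cons 182 (.leaf 206 1453 (.cons 181 (.leaf 158 1261 (.cons 156 (.leaf 180 1255 (.cons 157 (.leaf 228 1254 (.leaf 132 1063 .nil)) .nil)) .nil)) .nil)) (.cons 182 (.leaf 206 1453 (.cons 181 (.leaf 158 1261 (.cons 228 (.leaf 157 1254 (.leaf 204 1639 .nil)) .nil)) .nil)) (.cons 204 (.leaf 180 1447 (.leaf 228 1639 .nil)) .nil)))) .nil)) .nil)) .nil)) .nil)) (.cons 298 (.cons 227 (.leaf 322 1813 (.leaf 203 1622 .nil)) (.cons 322 (.leaf 346 2005 (.cons 321 (.leaf 345 1998 (.cons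 297 (.leaf 226 1806 (.cons 296 (.leaf 295 2169 (.cons 323 (.leaf 324 2371 (.leaf 347 2004 .nil)) .nil)) .nil)) .nil)) .nil)) (.cons 203 (.leaf 227 1622 (.cons 202 (.cons 204 t41 (.cons 226 (.leaf 179 1429 (.cons 273 (.leaf 272 1985 (.leaf 297 1614 .nil)) .nil)) (.cons 226 (.leaf 178 1428 (.cons 273 (.leaf 272 1985 (.leaf 297 1614 .nil)) .nil)) .nil))) .nil)) .nil))) .nil))
noncomputable def t43 : T := .leaf 322 1813 (.cons 296 (.cons 295 (.leaf 297 2169 (.cons 319 (.leaf 224 1790 (.cons 343 (.leaf 271 1981 (.leaf 367 2173 .nil)) .nil)) .nil)) (.cons 320 (.cons 247 (.leaf 223 1791 (.cons 344 (.leaf 271 1983 (.cons 343 (.leaf 319 1982 (.leaf 367 2174 .nil)) .nil)) .nil)) (.cons 343 (.leaf 319 1982 (.cons 344 (.leaf 367 2174 (.cons 345 (.leaf 321 1988 (.leaf 369 2180 .nil)) .nil)) .nil)) (.cons 223 (.leaf 247 1791 (.cons 224 (.leaf 199 1599 (.cons 321 (.leaf 297 1796 (.leaf 345 1988 .nil))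 .nil)) .nil)) .nil))) (.cons 320 (.cons 343 (.leaf 319 1982 (.cons 344 (.leaf 367 2174 (.cons 345 (.leaf 321 1988 (.leaf 369 2180 .nil)) .nil)) .nil)) (.cons 247 (.leaf 223 1791 (.cons 344 (.leaf 271 1983 (.cons 345 (.leaf 321 1988 (.leaf 369 2180 .nil)) .nil)) .nil)) (.cons 223 (.leaf 247 1791 (.cons 224 (.leaf 199 1599 (.cons 319 (.leaf 295 1790 (.leaf 343 1982 .nil)) .nil)) .nil)) .nil))) (.cons 297 (.leaf 295 2169 (.cons 321 (.leaf 226 1806 (.cons 345 (.leaf 320 1988 (.leaf 369 2189 .nil)) .nil)) .nil)) .nil)))) .nil)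
noncomputable def t44 : T := .cons 298 t43 (.cons 273 (.leaf 271 1977 (.leaf 247 1979 .nil)) (.cons 273 (.leaf 247 1979 (.cons 321 (.cons 297 (.leaf 345 1997 (.cons 226 (.leaf 202 1614 (.leaf 298 1806 .nil)) .nil)) (.cons 345 (.leaf 297 1997 (.cons 296 (.leaf 295 2170 (.leaf 320 1988 .nil)) .nil)) (.cons 296 (.leaf 295 2170 (.cons 320 (.leaf 345 1988 (.cons 343 (.leaf 319 1982 (.cons 344 (.leaf 367 2174 (.cons 322 (.leaf 323 2554 (.leaf 298 1813 .nil)) .nil)) .nil)) .nil)) .nil)) (.cons 296 (.leaf 295 2170 (.cons 297 (.leaf 224 1796 (.cons 226 (.leaf 202 1614 (.leaf 298 1806 .nil)) .nil)) .nil)) .nil)))) .nil)) (.cons 273 (.cons 321 (.cons 297 (.leaf 345 1997 (.cons 226 (.leaf 202 1614 (.leaf 298 1806 .nil)) .nil)) (.cons 345 (.leaf 297 1997 (.cons 296 (.leaf 295 2170 (.leaf 320 1988 .nil)) .nil)) (.cons 296 (.leaf 295 2170 (.cons 320 (.leaf 345 1988 (.cons 343 (.leaf 319 1982 (.cons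 344 (.leaf 367 2174 (.cons 322 (.leaf 323 2554 (.leaf 298 1813 .nil)) .nil)) .nil)) .nil)) .nil)) (.cons 296 (.leaf 295 2170 (.cons 297 (.leaf 224 1796 (.cons 226 (.leaf 202 1614 (.leaf 298 1806 .nil)) .nil)) .nil)) .nil)))) (.leaf 271 1977 .nil)) .nil)))
noncomputable def t45 : T := .cons 203 (.leaf 179 1430 (.leaf 298 1622 .nil)) (.cons 248 (.cons 249 (.leaf 247 1976 (.leaf 228 1793 .nil)) (.cons 272 t44 (.cons 249 (.leaf 228 1793 (.cons 272 (.leaf 271 1978 (.cons 296 (.cons 295 (.leaf 273 2170 (.cons 224 (.leaf 223 1787 (.leaf 319 1790 .nil)) .nil)) (.cons 295 (.leaf 273 2170 (.cons 298 (.leaf 297 2169 (.cons 322 (.leaf 346 2005 (.cons 321 (.leaf 345 1998 (.cons 323 (.leaf 320 2363 (.leaf 347 2004 .nil)) .nil)) .nil)) .nil)) .nil)) (.cons 224 (.leaf 223 1787 (.cons 295 (.leaf 319 1790 (.cons 297 (.leaf 298 2169 (.leaf 321 1796 .nil)) .nil)) .nil)) (.cons 224 (.leaf 223 1787 (.cons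 321 (.leaf 297 1796 (.cons 320 (.leaf 345 1988 (.cons 343 (.leaf 319 1982 (.cons 344 (.leaf 273 1989 (.leaf 367 2174 .nil)) .nil)) .nil)) .nil)) .nil)) .nil)))) .nil)) .nil)) .nil))) (.cons 203 (.leaf 179 1430 (.cons 202 (.leaf 178 1431 (.cons 229 (.cons 228 (.leaf 230 1810 (.cons 201 (.leaf 200 1600 (.leaf 226 1611 .nil)) .nil)) (.cons 230 (.leaf 228 1810 (.cons 204 (.leaf 205 1616 (.leaf 180 1437 .nil)) .nil)) (.cons 204 (.leaf 180 1437 (.cons 205 (.leaf 230 1616 (.cons 206 (.leaf 226 1618 (.cons 182 (.leaf 181 1425 (.leaf 183 1433 .nil)) .nil)) .nil)) .nil)) (.cons 204 (.leaf 180 1437 (.cons 201 (.leaf 228 1608 (.cons 176 (.leaf 177 1411 (.cons 200 (.leaf 175 1403 (.cons 223 (.leaf 224 1594 (.cons 199 (.leaf 226 1592 (.leaf 222 1586 .nil)) .nil)) .nil)) .nil)) .nil)) .nil)) .nil)))) .nil)) .nil)) .nil))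
noncomputable def t46 : T := .cons 227 (.leaf 180 1437 (.leaf 179 1430 .nil)) (.cons 228 (.cons 229 (.leaf 201 1608 (.cons 230 (.leaf 205 1616 (.leaf 231 1627 .nil)) .nil)) (.cons 180 (.leaf 252 1438 (.cons 181 (.leaf 201 1417 (.cons 182 (.leaf 205 1425 (.leaf 179 1426 .nil)) .nil)) .nil)) (.cons 205 (.cons 182 (.leaf 181 1425 (.cons 206 (.leaf 183 1433 (.cons 230 (.leaf 229 1616 (.leaf 231 1624 .nil)) .nil)) .nil)) (.cons 180 (.leaf 252 1438 (.cons 229 (.leaf 230 1616 (.cons 253 (.leaf 156 1252 (.leaf 277 1447 .nil)) .nil)) .nil)) (.cons 182 (.leaf 181 1425 (.cons 206 (.leaf 183 1433 (.cons 231 (.leaf 230 1624 (.cons 207 (.leaf 232 1632 (.cons 180 (.leaf 179 1435 (.leaf 252 1438 .nil)) .nil)) .nil)) .nil)) .nil)) (.cons 181 (.leaf 182 1425 (.cons 157 (.leaf 133 1062 (.cons 252 (.leaf 180 1253 (.leaf 229 1254 .nil)) .nil)) .nil)) .nil)))) (.cons 180 (.leaf 252 1438 (.cons 201 (.leaf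 229 1608 (.leaf 181 1417 .nil)) .nil)) .nil)))) (.cons 229 (.cons 230 (.leaf 205 1616 (.cons 228 (.leaf 201 1608 (.leaf 227 1810 .nil)) .nil)) (.cons 228 (.leaf 201 1608 (.cons 249 (.leaf 252 1801 (.cons 248 (.leaf 247 1976 (.leaf 227 1793 .nil)) .nil)) .nil)) (.cons 205 (.leaf 230 1616 (.cons 182 (.leaf 181 1425 (.cons 206 (.leaf 183 1433 (.cons 253 (.leaf 252 1994 (.leaf 277 1453 .nil)) .nil)) .nil)) .nil)) .nil))) .nil))
noncomputable def t47 : T := .cons 252 (.leaf 272 1985 (.leaf 253 1994 .nil)) (.cons 297 (.cons 272 (.leaf 271 1977 (.cons 248 (.leaf 247 1979 (.cons 321 (.leaf 345 1997 (.cons 224 (.leaf 200 1604 (.leaf 296 1796 .nil)) .nil)) .nil)) .nil)) (.cons 272 (.leaf 271 1977 (.cons 248 (.leaf 247 1979 (.cons 224 (.leaf 200 1604 (.cons 223 (.leaf 249 1787 (.cons 296 (.leaf 295 2170 (.leaf 199 1599 .nil)) .nil)) .nil)) .nil)) .nil)) (.cons 226 (.leaf 202 1614 (.cons 321 (.leaf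 249 1805 (.leaf 345 1997 .nil)) .nil)) .nil))) (.cons 202 (.cons 226 (.leaf 178 1428 (.leaf 297 1614 .nil)) (.cons 226 (.cons 203 (.leaf 179 1429 (.cons 201 (.cons 200 (.cons 175 (.leaf 176 1403 (.cons 199 (.leaf 174 1395 (.cons 223 (.leaf 222 1586 (.leaf 224 1594 .nil)) .nil)) .nil)) (.cons 228 (.leaf 227 1600 (.cons 204 (.leaf 229 1608 (.cons 180 (.leaf 181 1417 (.leaf 252 1438 .nil)) .nil)) .nil)) .nil)) (.leaf 177 1423 .nil)) .nil)) (.leaf 297 1614 .nil)) (.cons 203 (.cons 227 (.leaf 179 1430 (.leaf 178 1431 .nil)) (.cons 252 (.leaf 253 1994 (.cons 204 t41 .nil)) (.cons 252 (.leaf 253 1994 (.cons 204 (.cons 180 (.leaf 227 1437 (.leaf 228 1438 .nil)) (.cons 178 (.leaf 227 1431 (.cons 177 (.leaf 205 1419 (.cons 176 (.leaf 175 1400 (.leaf 201 1411 .nil)) .nil)) .nil)) (.cons 228 (.leaf 180 1438 (.cons 229 (.leaf 201 1608 (.cons 230 (.leaf 205 1616 (.leaf 231 1818 .nil)) .nil)) .nil))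 .nil))) .nil)) (.cons 204 t46 .nil)))) .nil))) .nil))
noncomputable def t48 : T := .cons 227 (.leaf 322 1813 (.leaf 203 1622 .nil)) (.cons 296 (.cons 295 (.leaf 297 2169 (.cons 319 (.leaf 224 1790 (.cons 343 (.leaf 271 1981 (.leaf 367 2173 .nil)) .nil)) .nil)) (.cons 320 (.cons 247 (.leaf 223 1791 (.cons 344 (.leaf 271 1983 (.cons 343 (.leaf 319 1982 (.leaf 367 2174 .nil)) .nil)) .nil)) (.cons 343 (.leaf 319 1982 (.cons 344 (.leaf 367 2174 (.cons 345 (.leaf 321 1988 (.leaf 369 2180 .nil)) .nil)) .nil)) (.cons 223 (.leaf 247 1791 (.cons 224 (.leaf 199 1599 (.cons 321 (.leaf 297 1796 (.leaf 345 1988 .nil)) .nil)) .nil)) .nil))) (.cons 320 (.cons 343 (.leaf 319 1982 (.cons 344 (.leaf 367 2174 (.cons 345 (.leaf 321 1988 (.leaf 369 2180 .nil)) .nil)) .nil)) (.cons 247 (.leaf 223 1791 (.cons 344 (.leaf 271 1983 (.cons 345 (.leaf 321 1988 (.leaf 369 2180 .nil)) .nil)) .nil)) (.cons 223 (.leaf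 247 1791 (.cons 224 (.leaf 199 1599 (.cons 319 (.leaf 295 1790 (.leaf 343 1982 .nil)) .nil)) .nil)) .nil))) (.cons 297 (.leaf 295 2169 (.cons 321 (.leaf 226 1806 (.cons 345 (.leaf 320 1988 (.leaf 369 2189 .nil)) .nil)) .nil)) .nil)))) .nil)
noncomputable def t49 : T := .cons 249 (.leaf 247 1976 (.leaf 271 1978 .nil)) (.cons 298 t48 (.cons 224 (.cons 249 (.leaf 271 1978 (.leaf 223 1787 .nil)) (.cons 223 (.leaf 249 1787 (.cons 199 (.leaf 296 1599 (.cons 175 (.leaf 151 1212 (.leaf 200 1407 .nil)) .nil)) .nil)) (.cons 271 (.leaf 249 1978 (.cons 295 (.leaf 200 1598 (.cons 319 (.leaf 343 1981 (.leaf 296 1790 .nil)) .nil)) .nil)) (.cons 296 (.cons 199 (.leaf 223 1599 (.cons 200 (.leaf 175 1407 (.cons 295 (.leaf 271 1598 (.leaf 319 1790 .nil)) .nil)) .nil)) (.cons 321 (.leaf 297 1796 (.cons 320 (.leaf 345 1988 (.cons 343 (.leaf 319 1982 (.cons 344 (.leaf 367 2174 (.cons 322 (.leaf 323 2554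 (.cons 298 (.leaf 227 1813 (.leaf 346 2005 .nil)) .nil)) .nil)) .nil)) .nil)) .nil)) (.cons 297 (.leaf 321 1796 (.cons 298 (.leaf 295 2169 (.cons 227 (.leaf 322 1813 (.leaf 203 1622 .nil)) .nil)) .nil)) .nil))) .nil)))) (.cons 298 (.cons 227 (.leaf 322 1813 (.leaf 203 1622 .nil)) (.cons 322 (.leaf 346 2005 (.cons 321 (.leaf 345 1998 (.cons 297 (.leaf 226 1806 (.cons 296 (.leaf 295 2169 (.cons 323 (.leaf 324 2371 (.leaf 347 2004 .nil)) .nil)) .nil)) .nil)) .nil)) (.cons 226 (.cons 203 (.leaf 227 1621 (.cons 202 (.leaf 178 1428 (.leaf 179 1429 .nil)) .nil)) (.cons 297 (.leaf 321 1806 (.cons 296 (.leaf 295 2169 (.cons 247 (.leaf 249 1976 (.cons 223 (.leaf 320 1791 (.cons 199 (.leaf 175 1404 (.leaf 224 1599 .nil)) .nil)) .nil)) .nil)) .nil)) .nil)) .nil))) .nil)))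
noncomputable def t50 : T := .cons 272 (.cons 273 (.leaf 271 1977 (.leaf 252 1985 .nil)) (.cons 248 t49 (.cons 273 (.leaf 252 1985 (.cons 248 (.leaf 247 1979 (.cons 297 (.cons 226 (.leaf 202 1614 (.cons 321 (.leaf 345 1997 (.leaf 298 1806 .nil)) .nil)) (.cons 224 (.leaf 200 1604 (.cons 223 (.leaf 249 1787 (.cons 296 (.leaf 295 2170 (.leaf 199 1599 .nil)) .nil)) .nil)) .nil)) .nil)) .nil)) .nil))) (.cons 273 t47 (.cons 227 t45 (.cons 252 t42 (.cons 272 (.cons 273 (.leaf 252 1985 (.cons 247 (.leaf 248 1979 (.cons 271 (.leaf 246 1971 (.cons 295 (.leaf 294 2162 (.leaf 296 2170 .nil)) .nil)) .nil)) .nil)) (.cons 252 (.leaf 273 1985 (.cons 253 (.leaf 254 2002 (.cons 229 (.leaf 230 1809 (.cons 228 (.leaf 249 1801 (.cons 204 (.leaf 180 1438 (.cons 277 (.leaf 278 2000 (.leaf 301 1639 .nil)) .nil)) .nil)) .nil)) .nil)) .nil)) (.cons 248 t40 .nil))) (.cons 203 t37 (.cons 252 t34 (.cons 252 (.cons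 253 t29 (.cons 253 (.leaf 273 1994 (.leaf 254 2002 .nil)) (.cons 272 (.leaf 273 1985 (.cons 249 (.cons 248 (.leaf 247 1976 (.leaf 271 1978 .nil)) (.cons 203 t32 .nil)) .nil)) .nil))) .nil)))))))
noncomputable def t51 : T := .cons 223 (.cons 224 (.leaf 203 1594 (.cons 222 (.leaf 221 1577 (.leaf 199 1586 .nil)) .nil)) (.cons 199 (.leaf 222 1586 (.cons 175 (.leaf 174 1395 (.cons 176 (.leaf 203 1403 (.cons 152 (.leaf 247 1213 (.leaf 128 1022 .nil)) .nil)) .nil)) .nil)) (.cons 222 (.leaf 199 1586 (.cons 224 (.leaf 221 1577 (.cons 248 (.leaf 249 1787 (.cons 177 (.leaf 272 1413 (.cons 153 (.leaf 129 1036 (.leaf 176 1221 .nil)) .nil)) .nil)) .nil)) .nil)) (.cons 203 (.leaf 224 1594 (.cons 176 (.leaf 175 1403 (.cons 204 (.leaf 177 1411 (.cons 180 (.leaf 179 1409 (.leaf 181 1417 .nil)) .nil)) .nil)) .nil)) .nil)))) (.cons 203 (.cons 175 (.leaf 176 1403 (.cons 199 (.leaf 174 1395 (.cons 223 (.leaf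 222 1586 (.leaf 224 1594 .nil)) .nil)) .nil)) (.cons 179 (.leaf 180 1409 (.leaf 274 1429 .nil)) .nil)) (.cons 199 (.cons 174 (.leaf 175 1395 (.cons 198 (.leaf 173 1387 (.cons 222 (.leaf 221 1578 (.leaf 223 1586 .nil)) .nil)) .nil)) (.cons 223 (.leaf 222 1586 (.cons 274 (.leaf 177 1423 (.cons 273 (.leaf 297 1614 (.cons 272 (.leaf 271 1977 (.cons 248 (.leaf 247 1979 (.cons 296 (.leaf 295 2170 (.leaf 224 1599 .nil)) .nil)) .nil)) .nil)) .nil)) .nil)) (.cons 175 (.leaf 174 1395 (.cons 274 (.leaf 177 1423 (.cons 273 (.leaf 297 1614 (.cons 272 (.leaf 271 1977 (.cons 248 (.leaf 247 1979 (.leaf 224 1407 .nil)) .nil)) .nil)) .nil)) .nil)) .nil))) (.cons 177 (.leaf 274 1423 (.cons 224 (.cons 153 (.leaf 129 1036 (.cons 248 (.leaf 176 1221 (.leaf 272 1413 .nil)) .nil)) (.cons 223 (.leaf 203 1594 (.cons 222 (.leaf 221 1577 (.leaf 199 1586 .nil)) .nil)) .nil)) .nil)) (.cons 203 (.cons 176 (.leaf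 175 1403 (.cons 204 (.leaf 177 1411 (.cons 180 (.leaf 179 1409 (.leaf 181 1417 .nil)) .nil)) .nil)) (.cons 179 (.leaf 180 1409 (.leaf 274 1429 .nil)) (.cons 176 (.leaf 175 1403 (.cons 177 (.leaf 204 1411 (.leaf 274 1423 .nil)) .nil)) .nil))) .nil))))
noncomputable def t52 : T := .cons 227 (.leaf 199 1592 (.cons 228 (.leaf 203 1600 (.leaf 229 1611 .nil)) .nil)) (.cons 199 (.leaf 227 1592 (.cons 174 (.leaf 175 1395 (.cons 198 (.leaf 173 1387 (.cons 222 (.leaf 221 1578 (.leaf 223 1586 .nil)) .nil)) .nil)) .nil)) (.cons 223 (.cons 224 (.leaf 203 1594 (.cons 222 (.leaf 221 1577 (.leaf 199 1586 .nil)) .nil)) (.cons 199 (.leaf 222 1586 (.cons 175 (.leaf 174 1395 (.cons 176 (.leaf 203 1403 (.cons 152 (.leaf 247 1213 (.leaf 128 1022 .nil)) .nil)) .nil)) .nil)) (.cons 222 (.leaf 199 1586 (.cons 224 (.leaf 221 1577 (.cons 248 (.leaf 249 1787 (.cons 177 (.leaf 272 1413 (.cons 153 (.leaf 129 1036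 (.leaf 176 1221 .nil)) .nil)) .nil)) .nil)) .nil)) (.cons 203 (.leaf 224 1594 (.cons 176 (.leaf 175 1403 (.cons 204 (.leaf 177 1411 (.cons 180 (.leaf 179 1409 (.leaf 181 1417 .nil)) .nil)) .nil)) .nil)) .nil)))) (.cons 203 (.cons 176 (.leaf 175 1403 (.cons 204 (.leaf 177 1411 (.cons 180 (.leaf 179 1409 (.leaf 181 1417 .nil)) .nil)) .nil)) (.cons 176 (.leaf 175 1403 (.cons 204 (.leaf 177 1411 (.cons 228 (.leaf 227 1600 (.leaf 229 1608 .nil)) .nil)) .nil)) (.cons 179 (.leaf 180 1409 (.cons 155 (.leaf 131 1046 (.leaf 227 1238 .nil)) .nil)) .nil))) .nil)))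
noncomputable def t53 : T := .cons 200 t52 (.cons 274 (.leaf 177 1423 (.cons 297 (.leaf 273 1614 (.cons 298 (.leaf 321 1806 (.cons 322 (.leaf 227 1813 (.leaf 346 2005 .nil)) .nil)) .nil)) .nil)) (.cons 200 t51 (.cons 203 (.cons 227 (.cons 179 (.leaf 155 1238 (.cons 180 (.leaf 156 1245 (.leaf 204 1437 .nil)) .nil)) (.cons 200 (.leaf 228 1600 (.cons 175 (.leaf 176 1403 (.cons 199 (.leaf 174 1395 (.cons 223 (.leaf 222 1586 (.leaf 224 1594 .nil)) .nil)) .nil)) .nil)) .nil)) (.cons 179 (.leaf 274 1429 (.cons 180 (.leaf 200 1409 (.cons 181 (.leaf 204 1417 (.leaf 182 1426 .nil)) .nil)) .nil)) (.cons 227 (.cons 274 (.leaf 298 1621 (.cons 273 (.leaf 297 1614 (.cons 272 (.leaf 271 1977 (.cons 248 (.leaf 247 1979 (.cons 200 (.leaf 199 1592 (.cons 176 (.leaf 175 1403 (.cons 224 (.leaf 223 1594 (.leaf 249 1412 .nil)) .nil)) .nil)) .nil)) .nil)) .nil)) .nil)) (.cons 204 (.leaf 180 1437 (.cons 205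 (.leaf 206 1618 (.cons 229 (.leaf 228 1608 (.leaf 230 1616 .nil)) .nil)) .nil)) .nil)) (.cons 179 (.leaf 274 1429 (.cons 155 (.leaf 131 1046 (.leaf 227 1238 .nil)) .nil)) .nil)))) .nil)))
noncomputable def t54 : T := .cons 223 (.leaf 224 1787 (.cons 247 (.leaf 222 1779 (.cons 271 (.leaf 270 1970 (.leaf 272 1978 .nil)) .nil)) .nil)) (.cons 271 (.leaf 272 1978 (.cons 247 (.leaf 270 1970 (.cons 227 (.leaf 226 1785 (.leaf 228 1793 .nil)) .nil)) .nil)) (.cons 223 (.leaf 224 1787 (.cons 247 (.leaf 222 1779 (.cons 227 (.leaf 226 1785 (.leaf 228 1793 .nil)) .nil)) .nil)) (.cons 227 (.leaf 228 1793 (.cons 274 (.cons 203 (.leaf 179 1430 (.leaf 298 1622 .nil)) (.cons 272 (.leaf 271 1978 (.cons 296 (.cons 295 (.leaf 273 2170 (.cons 224 (.leaf 223 1787 (.leaf 319 1790 .nil)) .nil)) (.cons 295 (.leaf 273 2170 (.cons 298 (.leaf 297 2169 (.cons 322 (.leaf 346 2005 (.cons 321 (.leaf 345 1998 (.cons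 323 (.leaf 320 2363 (.leaf 347 2004 .nil)) .nil)) .nil)) .nil)) .nil)) (.cons 224 (.leaf 223 1787 (.cons 295 (.leaf 319 1790 (.cons 297 (.leaf 298 2169 (.leaf 321 1796 .nil)) .nil)) .nil)) (.cons 224 (.leaf 223 1787 (.cons 321 (.leaf 297 1796 (.cons 320 (.leaf 345 1988 (.cons 343 (.leaf 319 1982 (.cons 344 (.leaf 273 1989 (.leaf 367 2174 .nil)) .nil)) .nil)) .nil)) .nil)) .nil)))) .nil)) (.cons 203 (.leaf 179 1430 (.cons 204 (.leaf 180 1437 (.cons 224 (.leaf 223 1787 (.cons 225 (.leaf 226 1601 (.cons 272 (.leaf 271 1978 (.cons 296 (.leaf 320 1797 (.cons 295 (.leaf 273 2170 (.leaf 319 1790 .nil)) .nil)) .nil)) .nil)) .nil)) .nil)) .nil)) .nil))) .nil)) .nil)))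
noncomputable def t55 : T := .cons 248 (.cons 178 (.leaf 226 1428 (.cons 227 (.leaf 228 1793 (.leaf 203 1431 .nil)) .nil)) (.cons 223 (.leaf 224 1787 (.cons 247 (.leaf 222 1779 (.cons 271 (.leaf 270 1970 (.leaf 272 1978 .nil)) .nil)) .nil)) .nil)) (.cons 248 (.cons 223 (.leaf 224 1787 (.cons 247 (.leaf 222 1779 (.cons 271 (.leaf 270 1970 (.leaf 272 1978 .nil)) .nil)) .nil)) (.cons 227 (.leaf 228 1793 (.cons 203 (.leaf 178 1431 (.cons 274 (.leaf 179 1430 (.leaf 298 1622 .nil)) .nil)) .nil)) .nil)) (.cons 248 t54 (.cons 203 (.cons 178 (.leaf 226 1428 (.leaf 227 1431 .nil)) (.cons 227 (.leaf 178 1431 (.cons 274 (.leaf 179 1430 (.leaf 298 1622 .nil)) .nil)) (.cons 226 (.cons 274 (.leaf 179 1429 (.cons 297 (.leaf 273 1614 (.cons 298 (.leaf 321 1806 (.cons 322 (.leaf 346 2005 (.leaf 225 1807 .nil)) .nil)) .nil)) .nil)) (.leaf 178 1428 .nil)) (.cons 227 (.cons 274 (.leaf 179 1430 (.leaf 298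 1622 .nil)) (.cons 229 (.cons 228 (.leaf 226 1802 (.leaf 230 1810 .nil)) (.cons 230 (.leaf 228 1810 (.cons 204 (.leaf 205 1616 (.leaf 180 1437 .nil)) .nil)) (.cons 204 (.leaf 180 1437 (.cons 205 (.leaf 230 1616 (.cons 226 (.leaf 225 1610 (.leaf 206 1618 .nil)) .nil)) .nil)) (.cons 226 (.leaf 228 1802 (.cons 204 (.leaf 180 1437 (.cons 205 (.leaf 225 1610 (.leaf 206 1618 .nil)) .nil)) .nil)) .nil)))) .nil)) .nil)))) (.cons 226 (.leaf 178 1428 (.cons 248 (.cons 247 (.leaf 274 1976 (.cons 246 (.leaf 225 1777 (.cons 221 (.leaf 222 1771 (.cons 245 (.leaf 220 1763 (.cons 269 (.leaf 268 1954 (.leaf 270 1962 .nil)) .nil)) .nil)) .nil)) .nil)) (.cons 223 (.leaf 224 1787 (.cons 247 (.leaf 222 1779 (.cons 271 (.leaf 270 1970 (.leaf 272 1978 .nil)) .nil)) .nil)) (.cons 297 (.cons 273 (.leaf 321 1805 (.cons 224 (.leaf 223 1787 (.cons 200 (.leaf 176 1412 (.leaf 272 1604 .nil)) .nil)) .nil)) (.cons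 273 (.leaf 225 1613 (.leaf 321 1805 .nil)) (.cons 224 (.leaf 223 1787 (.cons 272 (.leaf 271 1978 (.cons 273 (.leaf 200 1604 (.leaf 225 1613 .nil)) .nil)) .nil)) (.cons 224 (.leaf 223 1787 (.cons 272 (.leaf 271 1978 (.cons 296 (.leaf 321 1796 (.cons 319 (.leaf 295 1790 (.cons 320 (.leaf 225 1797 (.leaf 343 1982 .nil)) .nil)) .nil)) .nil)) .nil)) .nil)))) .nil))) .nil)) .nil))))
noncomputable def t56 : T := .cons 178 (.leaf 273 1421 (.cons 154 (.leaf 177 1229 (.leaf 130 1038 .nil)) .nil)) (.cons 177 (.cons 224 (.cons 203 (.leaf 204 1602 (.cons 223 (.leaf 222 1776 (.leaf 200 1594 .nil)) .nil)) (.cons 153 (.leaf 248 1222 (.cons 128 (.leaf 152 1031 (.cons 129 (.leaf 104 839 (.cons 130 (.leaf 106 845 (.leaf 154 1037 .nil)) .nil)) .nil)) .nil)) .nil)) (.cons 248 (.leaf 272 1414 (.cons 153 (.leaf 224 1222 (.cons 154 (.leaf 130 1037 (.leaf 178 1229 .nil)) .nil)) .nil)) (.cons 176 (.leaf 152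 1223 (.cons 203 (.leaf 204 1411 (.cons 175 (.leaf 174 1392 (.leaf 178 1400 .nil)) .nil)) .nil)) .nil))) (.cons 248 (.cons 223 (.leaf 224 1787 (.cons 247 (.leaf 222 1779 (.cons 271 (.leaf 270 1970 (.leaf 272 1978 .nil)) .nil)) .nil)) (.cons 272 (.leaf 271 1978 (.cons 296 (.leaf 320 1797 (.leaf 273 1606 .nil)) .nil)) (.cons 224 (.leaf 223 1787 (.cons 177 (.leaf 153 1222 (.cons 176 (.leaf 152 1223 (.cons 200 (.leaf 273 1412 (.cons 175 (.leaf 174 1392 (.leaf 203 1403 .nil)) .nil)) .nil)) .nil)) .nil)) .nil))) (.cons 273 (.leaf 178 1421 (.cons 272 (.leaf 296 1606 (.cons 271 (.leaf 270 1969 (.leaf 248 1978 .nil)) .nil)) .nil)) .nil)))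
noncomputable def t57 : T := .cons 177 (.cons 224 (.cons 203 (.leaf 204 1602 (.cons 223 (.leaf 222 1585 (.leaf 200 1594 .nil)) .nil)) (.cons 153 (.leaf 248 1222 (.cons 128 (.leaf 152 1031 (.cons 129 (.leaf 104 839 (.cons 130 (.leaf 106 845 (.leaf 154 1037 .nil)) .nil)) .nil)) .nil)) .nil)) (.cons 153 (.leaf 226 1228 (.cons 128 (.leaf 152 1031 (.cons 129 (.leaf 104 839 (.cons 130 (.leaf 106 845 (.leaf 154 1037 .nil)) .nil)) .nil)) .nil)) (.cons 176 (.cons 203 (.leaf 204 1411 (.cons 175 (.leaf 174 1392 (.leaf 200 1403 .nil)) .nil)) (.cons 249 (.leaf 152 1223 (.cons 248 (.leaf 272 1414 (.cons 223 (.leaf 224 1787 (.cons 247 (.leaf 222 1779 (.cons 270 (.leaf 271 1970 (.cons 246 (.leaf 226 1777 (.leaf 269 1962 .nil)) .nil)) .nil)) .nil)) .nil)) .nil)) .nil)) (.cons 153 (.leaf 226 1228 (.cons 224 (.leaf 248 1222 (.cons 129 (.leaf 200 1030 (.cons 130 (.leaf 106 845 (.leaf 154 1037 .nil)) .nil))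 .nil)) .nil)) .nil)))) (.cons 249 t56 (.cons 178 (.leaf 226 1428 (.cons 154 (.leaf 130 1038 (.cons 249 (.leaf 177 1229 (.leaf 273 1421 .nil)) .nil)) .nil)) (.cons 226 (.leaf 178 1428 (.cons 200 (.cons 199 (.leaf 198 1584 (.cons 175 (.leaf 174 1395 (.cons 203 (.leaf 176 1403 (.cons 204 (.leaf 205 1610 (.cons 180 (.leaf 179 1409 (.leaf 181 1417 .nil)) .nil)) .nil)) .nil)) .nil)) (.cons 199 (.leaf 198 1584 (.cons 223 (.leaf 224 1784 (.leaf 222 1586 .nil)) .nil)) (.cons 224 (.leaf 223 1784 (.cons 203 (.leaf 204 1602 (.cons 176 (.leaf 175 1403 (.cons 152 (.leaf 128 1028 (.cons 153 (.leaf 177 1228 (.leaf 129 1029 .nil)) .nil)) .nil)) .nil)) .nil)) .nil))) .nil)) (.cons 226 (.leaf 178 1428 (.cons 200 (.cons 199 (.leaf 198 1584 (.cons 223 (.leaf 224 1784 (.leaf 222 1586 .nil)) .nil)) (.cons 199 (.leaf 198 1584 (.cons 175 (.leaf 174 1395 (.cons 203 (.leaf 176 1403 (.cons 204 (.leaf 205 1610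 (.cons 180 (.leaf 179 1409 (.leaf 181 1417 .nil)) .nil)) .nil)) .nil)) .nil)) (.cons 224 (.leaf 223 1784 (.cons 203 (.leaf 204 1602 (.cons 176 (.leaf 175 1403 (.cons 249 (.leaf 152 1220 (.leaf 273 1415 .nil)) .nil)) .nil)) .nil)) .nil))) .nil)) .nil))))
noncomputable def t58 : T := .cons 200 (.cons 223 (.leaf 224 1594 (.cons 199 (.leaf 222 1586 (.cons 179 (.leaf 178 1401 (.leaf 180 1409 .nil)) .nil)) .nil)) (.cons 175 (.leaf 176 1403 (.cons 199 (.leaf 174 1395 (.cons 179 (.leaf 178 1401 (.leaf 180 1409 .nil)) .nil)) .nil)) (.cons 176 (.leaf 175 1403 (.cons 273 (.leaf 225 1415 (.cons 224 (.leaf 223 1594 (.leaf 248 1412 .nil)) .nil)) .nil)) .nil))) (.cons 200 (.cons 223 (.leaf 224 1594 (.cons 199 (.leaf 222 1586 (.cons 179 (.leaf 178 1401 (.leaf 180 1409 .nil)) .nil)) .nil)) (.cons 175 (.leaf 176 1403 (.cons 199 (.leaf 174 1395 (.cons 179 (.leaf 178 1401 (.leaf 180 1409 .nil)) .nil))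 .nil)) (.cons 176 (.leaf 175 1403 (.cons 224 (.leaf 223 1594 (.cons 248 (.leaf 273 1412 (.cons 247 (.leaf 274 1976 (.leaf 271 1406 .nil)) .nil)) .nil)) .nil)) .nil))) (.cons 225 (.cons 248 (.cons 223 (.leaf 224 1787 (.cons 247 (.leaf 222 1779 (.cons 271 (.leaf 270 1970 (.leaf 272 1978 .nil)) .nil)) .nil)) (.cons 223 (.leaf 224 1787 (.cons 247 (.leaf 274 1976 (.leaf 222 1779 .nil)) .nil)) (.cons 271 (.leaf 272 1978 (.cons 247 (.leaf 274 1976 (.leaf 270 1970 .nil)) .nil)) (.cons 224 (.leaf 223 1787 (.cons 272 (.leaf 271 1978 (.cons 296 (.leaf 320 1797 (.cons 295 (.leaf 319 1790 (.cons 274 (.leaf 273 2170 (.cons 298 (.leaf 297 2169 (.leaf 322 1807 .nil)) .nil)) .nil)) .nil)) .nil)) .nil)) .nil)))) (.cons 178 (.leaf 273 1421 (.cons 154 (.leaf 177 1229 (.leaf 130 1038 .nil)) .nil)) (.cons 177 (.leaf 274 1420 (.cons 152 (.leaf 176 1223 (.cons 153 (.leaf 128 1031 (.cons 154 (.leaf 130 1037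 (.leaf 178 1229 .nil)) .nil)) .nil)) .nil)) .nil))) (.cons 225 (.cons 177 (.leaf 274 1420 (.cons 176 (.leaf 152 1223 (.cons 175 (.leaf 174 1392 (.leaf 200 1403 .nil)) .nil)) .nil)) (.cons 178 (.leaf 273 1421 (.cons 154 (.leaf 177 1229 (.leaf 130 1038 .nil)) .nil)) (.cons 273 (.leaf 178 1421 (.cons 272 (.leaf 296 1606 (.cons 271 (.leaf 270 1969 (.leaf 274 1977 .nil)) .nil)) .nil)) .nil))) (.cons 248 (.cons 223 (.leaf 224 1787 (.cons 247 (.leaf 274 1976 (.leaf 222 1779 .nil)) .nil)) (.cons 271 (.leaf 272 1978 (.cons 247 (.leaf 274 1976 (.leaf 270 1970 .nil)) .nil)) (.cons 224 (.leaf 223 1787 (.cons 272 (.leaf 271 1978 (.cons 177 (.leaf 200 1413 (.leaf 225 1414 .nil)) .nil)) .nil)) .nil))) .nil))))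
noncomputable def t59 : T := .cons 200 (.cons 175 (.leaf 176 1403 (.cons 199 (.leaf 174 1395 (.cons 223 (.leaf 222 1586 (.leaf 224 1594 .nil)) .nil)) .nil)) (.cons 175 (.leaf 176 1403 (.cons 199 (.leaf 174 1395 (.cons 179 (.leaf 178 1401 (.leaf 180 1409 .nil)) .nil)) .nil)) (.cons 224 (.leaf 223 1594 (.cons 204 (.leaf 225 1602 (.cons 180 (.leaf 179 1409 (.leaf 181 1417 .nil)) .nil)) .nil)) .nil))) (.cons 204 (.cons 177 (.leaf 176 1411 (.cons 205 (.leaf 178 1419 (.cons 229 (.leaf 228 1608 (.leaf 230 1616 .nil)) .nil)) .nil)) (.cons 176 (.leaf 177 1411 (.cons 200 (.leaf 175 1403 (.cons 180 (.leaf 179 1409 (.leaf 181 1417 .nil)) .nil)) .nil)) (.cons 181 (.leaf 180 1417 (.cons 205 (.leaf 182 1425 (.cons 229 (.leaf 228 1608 (.leaf 230 1616 .nil)) .nil)) .nil)) .nil))) (.cons 204 (.cons 176 (.leaf 177 1411 (.cons 200 (.leaf 175 1403 (.cons 224 (.leaf 223 1594 (.leaf 225 1602 .nil)) .nil))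 .nil)) (.cons 181 (.leaf 180 1417 (.cons 205 (.leaf 182 1425 (.cons 229 (.leaf 228 1608 (.leaf 230 1616 .nil)) .nil)) .nil)) .nil)) (.cons 204 (.cons 224 (.leaf 225 1602 (.cons 200 (.leaf 223 1594 (.cons 180 (.leaf 179 1409 (.leaf 181 1417 .nil)) .nil)) .nil)) (.cons 181 (.leaf 180 1417 (.cons 205 (.leaf 182 1425 (.cons 229 (.leaf 228 1608 (.leaf 230 1616 .nil)) .nil)) .nil)) (.cons 229 (.leaf 228 1608 (.cons 205 (.leaf 230 1616 (.cons 178 (.leaf 177 1419 (.cons 206 (.leaf 179 1427 (.cons 182 (.leaf 181 1425 (.leaf 183 1433 .nil)) .nil)) .nil)) .nil)) .nil)) (.cons 224 (.leaf 225 1602 (.cons 200 (.leaf 223 1594 (.cons 179 (.leaf 180 1409 (.cons 178 (.leaf 199 1401 (.cons 205 (.leaf 177 1419 (.leaf 206 1427 .nil)) .nil)) .nil)) .nil)) .nil)) .nil)))) (.cons 200 (.cons 175 (.leaf 176 1403 (.cons 199 (.leaf 174 1395 (.cons 223 (.leaf 222 1586 (.leaf 224 1594 .nil)) .nil)) .nil)) (.cons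 223 (.leaf 224 1594 (.cons 199 (.leaf 222 1586 (.cons 174 (.leaf 175 1395 (.cons 198 (.leaf 173 1387 (.cons 178 (.leaf 177 1393 (.leaf 179 1401 .nil)) .nil)) .nil)) .nil)) .nil)) (.cons 175 (.leaf 176 1403 (.cons 199 (.leaf 174 1395 (.cons 222 (.leaf 223 1586 (.cons 198 (.leaf 221 1578 (.cons 178 (.leaf 177 1393 (.leaf 179 1401 .nil)) .nil)) .nil)) .nil)) .nil)) (.cons 175 (.leaf 176 1403 (.cons 199 (.leaf 174 1395 (.cons 178 (.leaf 179 1401 (.cons 177 (.leaf 198 1393 (.cons 204 (.leaf 205 1419 (.cons 225 (.leaf 224 1602 (.cons 154 (.leaf 249 1229 (.leaf 130 1038 .nil)) .nil)) .nil)) .nil)) .nil)) .nil)) .nil)) (.cons 224 (.leaf 223 1594 (.cons 204 (.leaf 225 1602 (.cons 177 (.leaf 176 1411 (.cons 205 (.leaf 178 1419 (.cons 229 (.leaf 228 1608 (.leaf 230 1616 .nil)) .nil)) .nil)) .nil)) .nil)) .nil))))) (.cons 204 (.cons 181 (.leaf 180 1417 (.cons 205 (.leaf 182 1425 (.cons 229 (.leaf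 228 1608 (.leaf 230 1616 .nil)) .nil)) .nil)) (.cons 177 (.leaf 176 1411 (.cons 225 (.leaf 224 1602 (.cons 249 (.leaf 274 1420 (.cons 178 (.leaf 154 1229 (.leaf 273 1421 .nil)) .nil)) .nil)) .nil)) .nil)) (.cons 249 t58 .nil))))))
noncomputable def t60 : T := .cons 224 (.cons 203 (.leaf 204 1602 (.cons 223 (.leaf 222 1585 (.leaf 200 1594 .nil)) .nil)) (.cons 177 (.cons 249 (.leaf 274 1420 (.cons 176 (.leaf 152 1223 (.cons 200 (.leaf 273 1415 (.cons 203 (.leaf 175 1403 (.leaf 204 1602 .nil)) .nil)) .nil)) .nil)) (.cons 248 (.leaf 153 1222 (.cons 272 (.leaf 200 1413 (.leaf 296 1605 .nil)) .nil)) (.cons 153 (.leaf 248 1222 (.cons 128 (.leaf 152 1031 (.cons 129 (.leaf 104 839 (.cons 130 (.leaf 106 845 (.leaf 154 1037 .nil)) .nil)) .nil)) .nil)) .nil))) (.cons 223 (.leaf 222 1585 (.cons 249 (.leaf 248 1787 (.cons 274 (.leaf 177 1420 (.cons 298 (.leaf 273 1612 (.leaf 322 1807 .nil)) .nil))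 .nil)) .nil)) .nil))) (.cons 226 (.cons 274 (.leaf 298 1615 (.cons 203 (.leaf 179 1429 (.cons 204 (.leaf 224 1602 (.leaf 205 1610 .nil)) .nil)) .nil)) (.cons 200 (.cons 199 (.leaf 198 1584 (.cons 223 (.leaf 224 1784 (.leaf 222 1586 .nil)) .nil)) (.cons 199 (.leaf 198 1584 (.cons 175 (.leaf 174 1395 (.cons 203 (.leaf 176 1403 (.cons 204 (.leaf 205 1610 (.cons 180 (.leaf 179 1409 (.leaf 181 1417 .nil)) .nil)) .nil)) .nil)) .nil)) (.cons 224 (.leaf 223 1784 (.cons 203 (.leaf 204 1602 (.cons 176 (.leaf 175 1403 (.cons 249 (.leaf 152 1220 (.leaf 273 1415 .nil)) .nil)) .nil)) .nil)) .nil))) (.cons 274 (.leaf 298 1615 (.cons 273 (.leaf 297 1614 (.cons 272 (.leaf 271 1977 (.cons 296 (.leaf 295 2170 (.leaf 249 1606 .nil)) .nil)) .nil)) .nil)) .nil))) (.cons 177 (.cons 224 (.cons 203 (.leaf 204 1602 (.cons 223 (.leaf 222 1585 (.leaf 200 1594 .nil)) .nil)) (.cons 153 (.leaf 248 1222 (.cons 128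 (.leaf 152 1031 (.cons 129 (.leaf 104 839 (.cons 130 (.leaf 106 845 (.leaf 154 1037 .nil)) .nil)) .nil)) .nil)) .nil)) (.cons 153 (.leaf 226 1228 (.cons 128 (.leaf 152 1031 (.cons 129 (.leaf 104 839 (.cons 130 (.leaf 106 845 (.leaf 154 1037 .nil)) .nil)) .nil)) .nil)) (.cons 176 (.cons 203 (.leaf 204 1411 (.cons 175 (.leaf 174 1392 (.leaf 200 1403 .nil)) .nil)) (.cons 249 (.leaf 152 1223 (.cons 248 (.leaf 272 1414 (.cons 223 (.leaf 224 1787 (.cons 247 (.leaf 222 1779 (.cons 270 (.leaf 271 1970 (.cons 246 (.leaf 226 1777 (.leaf 269 1962 .nil)) .nil)) .nil)) .nil)) .nil)) .nil)) .nil)) (.cons 153 (.leaf 226 1228 (.cons 224 (.leaf 248 1222 (.cons 129 (.leaf 200 1030 (.cons 130 (.leaf 106 845 (.leaf 154 1037 .nil)) .nil)) .nil)) .nil)) .nil)))) (.cons 274 (.cons 226 (.leaf 177 1423 (.leaf 298 1615 .nil)) (.cons 177 (.leaf 249 1420 (.leaf 226 1423 .nil)) (.cons 298 (.leaf 226 1615 (.cons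 322 (.leaf 346 2005 (.leaf 249 1807 .nil)) .nil)) (.cons 249 (.leaf 177 1420 (.cons 298 (.leaf 273 1612 (.leaf 322 1807 .nil)) .nil)) .nil)))) (.cons 226 (.cons 274 (.leaf 298 1615 (.cons 203 (.leaf 179 1429 (.cons 204 (.leaf 224 1602 (.leaf 205 1610 .nil)) .nil)) .nil)) (.cons 200 (.cons 199 (.leaf 198 1584 (.cons 175 (.leaf 174 1395 (.cons 203 (.leaf 176 1403 (.cons 204 (.leaf 205 1610 (.cons 180 (.leaf 179 1409 (.leaf 181 1417 .nil)) .nil)) .nil)) .nil)) .nil)) (.cons 199 (.leaf 198 1584 (.cons 223 (.leaf 224 1784 (.leaf 222 1586 .nil)) .nil)) (.cons 224 (.leaf 223 1784 (.cons 203 (.leaf 204 1602 (.cons 176 (.leaf 175 1403 (.cons 152 (.leaf 128 1028 (.cons 153 (.leaf 177 1228 (.leaf 129 1029 .nil)) .nil)) .nil)) .nil)) .nil)) .nil))) (.cons 274 (.leaf 177 1423 (.leaf 298 1615 .nil)) .nil))) .nil))))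
noncomputable def t61 : T := .cons 225 t60 (.cons 203 t59 (.cons 226 (.leaf 178 1428 (.cons 225 (.cons 274 (.leaf 298 1615 (.cons 203 (.leaf 179 1429 (.cons 204 (.leaf 224 1602 (.leaf 205 1610 .nil)) .nil)) .nil)) (.cons 200 (.cons 199 (.leaf 198 1584 (.cons 223 (.leaf 224 1784 (.leaf 222 1586 .nil)) .nil)) (.cons 199 (.leaf 198 1584 (.cons 175 (.leaf 174 1395 (.cons 203 (.leaf 176 1403 (.cons 204 (.leaf 205 1610 (.cons 180 (.leaf 179 1409 (.leaf 181 1417 .nil)) .nil)) .nil)) .nil)) .nil)) (.cons 224 (.leaf 223 1784 (.cons 203 (.leaf 204 1602 (.cons 176 (.leaf 175 1403 (.cons 249 (.leaf 152 1220 (.leaf 273 1415 .nil)) .nil)) .nil)) .nil)) .nil))) (.cons 274 (.leaf 298 1615 (.cons 273 (.leaf 297 1614 (.cons 272 (.leaf 271 1977 (.cons 296 (.leaf 295 2170 (.leaf 249 1606 .nil)) .nil)) .nil)) .nil)) .nil))) .nil)) (.cons 225 t57 (.cons 226 (.leaf 178 1428 (.cons 200 t51 .nil)) (.cons 226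 (.leaf 178 1428 (.cons 177 (.leaf 274 1423 (.cons 153 (.leaf 129 1036 (.leaf 225 1228 .nil)) .nil)) .nil)) .nil)))))
noncomputable def t62 : T := .cons 200 (.cons 175 (.leaf 176 1403 (.cons 199 (.leaf 174 1395 (.cons 223 (.leaf 222 1586 (.leaf 224 1594 .nil)) .nil)) .nil)) (.cons 175 (.leaf 176 1403 (.cons 199 (.leaf 174 1395 (.cons 179 (.leaf 178 1401 (.leaf 180 1409 .nil)) .nil)) .nil)) (.cons 224 (.leaf 223 1594 (.cons 204 (.leaf 225 1602 (.cons 180 (.leaf 179 1409 (.leaf 181 1417 .nil)) .nil)) .nil)) .nil))) (.cons 204 (.cons 177 (.leaf 176 1411 (.cons 205 (.leaf 178 1419 (.cons 229 (.leaf 228 1608 (.leaf 230 1616 .nil)) .nil)) .nil)) (.cons 176 (.leaf 177 1411 (.cons 200 (.leaf 175 1403 (.cons 180 (.leaf 179 1409 (.leaf 181 1417 .nil)) .nil)) .nil)) (.cons 181 (.leaf 180 1417 (.cons 205 (.leaf 182 1425 (.cons 229 (.leaf 228 1608 (.leaf 230 1616 .nil)) .nil)) .nil)) .nil))) (.cons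 204 (.cons 176 (.leaf 177 1411 (.cons 200 (.leaf 175 1403 (.cons 224 (.leaf 223 1594 (.leaf 225 1602 .nil)) .nil)) .nil)) (.cons 181 (.leaf 180 1417 (.cons 205 (.leaf 182 1425 (.cons 229 (.leaf 228 1608 (.leaf 230 1616 .nil)) .nil)) .nil)) .nil)) (.cons 249 t58 (.cons 204 (.cons 181 (.leaf 180 1417 (.cons 205 (.leaf 182 1425 (.cons 229 (.leaf 228 1608 (.leaf 230 1616 .nil)) .nil)) .nil)) (.cons 177 (.leaf 176 1411 (.cons 225 (.leaf 224 1602 (.cons 249 (.leaf 274 1420 (.cons 178 (.leaf 154 1229 (.leaf 273 1421 .nil)) .nil)) .nil)) .nil)) .nil)) (.cons 204 (.cons 224 (.leaf 225 1602 (.cons 200 (.leaf 223 1594 (.cons 180 (.leaf 179 1409 (.leaf 181 1417 .nil)) .nil)) .nil)) (.cons 181 (.leaf 180 1417 (.cons 205 (.leaf 182 1425 (.cons 229 (.leaf 228 1608 (.leaf 230 1616 .nil)) .nil)) .nil)) (.cons 229 (.leaf 228 1608 (.cons 205 (.leaf 230 1616 (.cons 178 (.leaf 177 1419 (.cons 206 (.leaf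 179 1427 (.cons 182 (.leaf 181 1425 (.leaf 183 1433 .nil)) .nil)) .nil)) .nil)) .nil)) (.cons 224 (.leaf 225 1602 (.cons 200 (.leaf 223 1594 (.cons 179 (.leaf 180 1409 (.cons 178 (.leaf 199 1401 (.cons 205 (.leaf 177 1419 (.leaf 206 1427 .nil)) .nil)) .nil)) .nil)) .nil)) .nil)))) (.cons 200 (.cons 175 (.leaf 176 1403 (.cons 199 (.leaf 174 1395 (.cons 223 (.leaf 222 1586 (.leaf 224 1594 .nil)) .nil)) .nil)) (.cons 223 (.leaf 224 1594 (.cons 199 (.leaf 222 1586 (.cons 174 (.leaf 175 1395 (.cons 198 (.leaf 173 1387 (.cons 178 (.leaf 177 1393 (.leaf 179 1401 .nil)) .nil)) .nil)) .nil)) .nil)) (.cons 175 (.leaf 176 1403 (.cons 199 (.leaf 174 1395 (.cons 222 (.leaf 223 1586 (.cons 198 (.leaf 221 1578 (.cons 178 (.leaf 177 1393 (.leaf 179 1401 .nil)) .nil)) .nil)) .nil)) .nil)) (.cons 175 (.leaf 176 1403 (.cons 199 (.leaf 174 1395 (.cons 178 (.leaf 179 1401 (.cons 177 (.leaf 198 1393 (.cons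 204 (.leaf 205 1419 (.cons 225 (.leaf 224 1602 (.cons 154 (.leaf 249 1229 (.leaf 130 1038 .nil)) .nil)) .nil)) .nil)) .nil)) .nil)) .nil)) (.cons 224 (.leaf 223 1594 (.cons 204 (.leaf 225 1602 (.cons 177 (.leaf 176 1411 (.cons 205 (.leaf 178 1419 (.cons 229 (.leaf 228 1608 (.leaf 230 1616 .nil)) .nil)) .nil)) .nil)) .nil)) .nil))))) .nil))))))
noncomputable def t63 : T := .cons 227 (.leaf 178 1431 (.cons 274 (.leaf 179 1430 (.leaf 298 1622 .nil)) .nil)) (.cons 201 t62 (.cons 227 (.cons 274 (.leaf 179 1430 (.leaf 298 1622 .nil)) (.cons 204 (.leaf 180 1437 (.cons 205 (.cons 182 (.leaf 181 1425 (.cons 206 (.leaf 183 1433 (.cons 230 (.leaf 229 1616 (.leaf 231 1624 .nil)) .nil)) .nil)) (.cons 182 (.leaf 181 1425 (.cons 206 (.leaf 183 1433 (.cons 207 (.leaf 228 1626 (.cons 231 (.leaf 230 1624 (.leaf 232 1632 .nil)) .nil)) .nil)) .nil)) (.cons 182 (.leaf 181 1425 (.cons 206 (.leaf 183 1433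 (.cons 228 (.leaf 207 1626 (.cons 201 (.leaf 200 1600 (.leaf 229 1608 .nil)) .nil)) .nil)) .nil)) (.cons 229 (.leaf 230 1616 (.cons 201 (.leaf 228 1608 (.cons 176 (.leaf 177 1411 (.cons 200 (.leaf 175 1403 (.cons 224 (.leaf 223 1594 (.leaf 225 1602 .nil)) .nil)) .nil)) .nil)) .nil)) .nil)))) .nil)) .nil)) (.cons 227 (.leaf 178 1431 (.cons 204 (.leaf 180 1437 (.cons 205 (.cons 182 (.leaf 181 1425 (.cons 206 (.leaf 183 1433 (.cons 230 (.leaf 229 1616 (.leaf 231 1624 .nil)) .nil)) .nil)) (.cons 182 (.leaf 181 1425 (.cons 206 (.leaf 183 1433 (.cons 207 (.leaf 228 1626 (.cons 231 (.leaf 230 1624 (.leaf 232 1632 .nil)) .nil)) .nil)) .nil)) (.cons 182 (.leaf 181 1425 (.cons 206 (.leaf 183 1433 (.cons 228 (.leaf 207 1626 (.cons 201 (.leaf 200 1600 (.leaf 229 1608 .nil)) .nil)) .nil)) .nil)) (.cons 229 (.leaf 230 1616 (.cons 201 (.leaf 228 1608 (.cons 176 (.leaf 177 1411 (.cons 200 (.leaf 175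 1403 (.cons 224 (.leaf 223 1594 (.leaf 225 1602 .nil)) .nil)) .nil)) .nil)) .nil)) .nil)))) .nil)) .nil)) .nil)))
noncomputable def t64 : T := .cons 226 (.leaf 177 1423 (.cons 298 (.leaf 225 1615 (.cons 297 (.leaf 273 1614 (.leaf 321 1806 .nil)) .nil)) .nil)) (.cons 298 (.cons 226 (.leaf 225 1615 (.cons 297 (.leaf 273 1614 (.leaf 321 1806 .nil)) .nil)) (.cons 322 (.leaf 227 1813 (.leaf 346 2005 .nil)) .nil)) (.cons 226 (.leaf 177 1423 (.cons 297 (.leaf 273 1614 (.cons 298 (.leaf 321 1806 (.cons 322 (.leaf 227 1813 (.leaf 346 2005 .nil)) .nil)) .nil)) .nil)) (.cons 177 (.leaf 226 1423 (.cons 249 (.leaf 225 1420 (.cons 248 (.leaf 247 1976 (.cons 227 (.leaf 228 1793 (.cons 203 (.leaf 179 1430 (.cons 204 (.leaf 176 1411 (.leaf 180 1437 .nil)) .nil)) .nil)) .nil)) .nil)) .nil)) (.cons 298 (.cons 227 (.leaf 322 1813 (.leaf 203 1622 .nil)) (.cons 322 (.leaf 346 2005 (.cons 249 (.leaf 225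 1807 (.cons 248 (.leaf 247 1976 (.cons 224 (.leaf 223 1787 (.cons 272 (.leaf 271 1978 (.cons 321 (.leaf 345 1998 (.cons 297 (.leaf 296 1796 (.leaf 273 1799 .nil)) .nil)) .nil)) .nil)) .nil)) .nil)) .nil)) (.cons 203 (.leaf 227 1622 (.cons 204 (.cons 181 (.leaf 180 1417 (.cons 205 (.leaf 182 1425 (.cons 229 (.leaf 228 1608 (.leaf 230 1616 .nil)) .nil)) .nil)) (.cons 177 (.leaf 176 1411 (.cons 225 (.leaf 224 1602 (.leaf 249 1420 .nil)) .nil)) .nil)) .nil)) .nil))) .nil))))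
noncomputable def t65 : T := .cons 200 t52 (.cons 274 (.leaf 177 1423 (.cons 297 (.leaf 273 1614 (.cons 298 (.leaf 321 1806 (.cons 322 (.leaf 227 1813 (.leaf 346 2005 .nil)) .nil)) .nil)) .nil)) (.cons 203 (.cons 227 (.cons 179 (.leaf 155 1238 (.cons 180 (.leaf 156 1245 (.leaf 204 1437 .nil)) .nil)) (.cons 200 (.leaf 228 1600 (.cons 175 (.leaf 176 1403 (.cons 199 (.leaf 174 1395 (.cons 223 (.leaf 222 1586 (.leaf 224 1594 .nil)) .nil)) .nil)) .nil)) .nil)) (.cons 179 (.leaf 274 1429 (.cons 180 (.leaf 200 1409 (.cons 181 (.leaf 204 1417 (.leaf 182 1426 .nil)) .nil)) .nil)) (.cons 227 (.cons 274 (.leaf 298 1621 (.cons 273 (.leaf 297 1614 (.cons 272 (.leaf 271 1977 (.cons 248 (.leaf 247 1979 (.cons 200 (.leaf 199 1592 (.cons 176 (.leaf 175 1403 (.cons 224 (.leaf 223 1594 (.leaf 249 1412 .nil)) .nil)) .nil)) .nil)) .nil)) .nil)) .nil)) (.cons 204 (.leaf 180 1437 (.cons 205 (.leaf 206 1618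 (.cons 229 (.leaf 228 1608 (.leaf 230 1616 .nil)) .nil)) .nil)) .nil)) (.cons 179 (.leaf 274 1429 (.cons 155 (.leaf 131 1046 (.leaf 227 1238 .nil)) .nil)) .nil)))) (.cons 200 t51 .nil)))
noncomputable def t66 : T := .cons 204 (.cons 225 (.leaf 224 1602 (.cons 205 (.leaf 226 1610 (.cons 229 (.leaf 228 1608 (.leaf 230 1616 .nil)) .nil)) .nil)) (.cons 224 (.leaf 225 1602 (.cons 200 (.leaf 223 1594 (.cons 180 (.leaf 179 1409 (.leaf 181 1417 .nil)) .nil)) .nil)) (.cons 181 (.leaf 180 1417 (.cons 205 (.leaf 182 1425 (.cons 229 (.leaf 228 1608 (.leaf 230 1616 .nil)) .nil)) .nil)) .nil))) (.cons 204 (.cons 225 (.leaf 224 1602 (.cons 205 (.leaf 226 1610 (.cons 229 (.leaf 228 1608 (.leaf 230 1616 .nil)) .nil)) .nil)) (.cons 180 (.leaf 181 1417 (.leaf 227 1437 .nil)) .nil)) (.cons 200 (.cons 175 (.leaf 176 1403 (.cons 199 (.leaf 174 1395 (.cons 223 (.leaf 222 1586 (.leaf 224 1594 .nil)) .nil))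 .nil)) (.cons 179 (.leaf 180 1409 (.cons 227 (.leaf 228 1600 (.leaf 274 1430 .nil)) .nil)) .nil)) (.cons 274 (.cons 227 (.leaf 179 1430 (.leaf 298 1622 .nil)) (.cons 179 (.leaf 226 1429 (.leaf 227 1430 .nil)) (.cons 226 (.leaf 179 1429 (.cons 298 (.leaf 225 1615 (.cons 297 (.leaf 273 1614 (.leaf 321 1806 .nil)) .nil)) .nil)) (.cons 298 (.cons 226 (.leaf 225 1615 (.cons 297 (.leaf 273 1614 (.leaf 321 1806 .nil)) .nil)) (.cons 322 (.leaf 227 1813 (.leaf 346 2005 .nil)) .nil)) .nil)))) .nil)))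
noncomputable def t67 : T := .cons 298 (.cons 226 (.leaf 225 1615 (.cons 297 (.leaf 273 1614 (.leaf 321 1806 .nil)) .nil)) (.cons 322 (.leaf 227 1813 (.leaf 346 2005 .nil)) .nil)) (.cons 226 (.leaf 177 1423 (.cons 297 (.leaf 273 1614 (.cons 298 (.leaf 321 1806 (.cons 322 (.leaf 227 1813 (.leaf 346 2005 .nil)) .nil)) .nil)) .nil)) (.cons 177 (.leaf 226 1423 (.cons 249 (.leaf 225 1420 (.cons 248 (.leaf 247 1976 (.cons 224 (.leaf 223 1787 (.cons 272 (.leaf 271 1978 (.leaf 200 1413 .nil)) .nil)) .nil)) .nil)) .nil)) (.cons 249 (.cons 225 (.leaf 177 1420 (.cons 298 (.leaf 273 1612 (.leaf 322 1807 .nil)) .nil)) (.cons 248 (.leaf 247 1976 (.cons 224 (.leaf 223 1787 (.cons 272 (.leaf 271 1978 (.cons 200 (.leaf 177 1413 (.cons 273 (.leaf 176 1412 (.leaf 297 1604 .nil)) .nil)) .nil)) .nil)) .nil)) (.cons 248 (.leaf 247 1976 (.cons 224 (.leaf 223 1787 (.cons 272 (.leaf 271 1978 (.cons 296 (.leaf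 225 1605 (.cons 295 (.leaf 273 2170 (.leaf 319 1790 .nil)) .nil)) .nil)) .nil)) .nil)) (.cons 177 (.leaf 225 1420 (.cons 248 (.leaf 247 1976 (.cons 224 (.leaf 223 1787 (.cons 272 (.leaf 271 1978 (.leaf 200 1413 .nil)) .nil)) .nil)) .nil)) .nil)))) .nil)))
noncomputable def t68 : T := .cons 204 (.cons 176 (.leaf 177 1411 (.cons 200 (.leaf 175 1403 (.cons 224 (.leaf 223 1594 (.leaf 225 1602 .nil)) .nil)) .nil)) (.cons 181 (.leaf 180 1417 (.cons 205 (.leaf 182 1425 (.cons 229 (.leaf 228 1608 (.leaf 230 1616 .nil)) .nil)) .nil)) .nil)) (.cons 200 (.cons 175 (.leaf 176 1403 (.cons 199 (.leaf 174 1395 (.cons 223 (.leaf 222 1586 (.leaf 224 1594 .nil)) .nil)) .nil)) (.cons 179 (.leaf 180 1409 (.cons 227 (.leaf 228 1600 (.leaf 274 1430 .nil)) .nil)) .nil)) (.cons 204 (.cons 181 (.leaf 180 1417 (.cons 205 (.leaf 182 1425 (.cons 229 (.leaf 228 1608 (.leaf 230 1616 .nil)) .nil)) .nil)) (.cons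 177 (.leaf 176 1411 (.cons 225 (.leaf 224 1602 (.cons 274 (.leaf 249 1420 (.cons 227 (.leaf 179 1430 (.leaf 298 1622 .nil)) .nil)) .nil)) .nil)) .nil)) (.cons 204 (.cons 176 (.leaf 177 1411 (.cons 200 (.leaf 175 1403 (.cons 224 (.leaf 223 1594 (.leaf 225 1602 .nil)) .nil)) .nil)) (.cons 180 (.leaf 181 1417 (.leaf 227 1437 .nil)) .nil)) (.cons 227 (.cons 274 (.leaf 179 1430 (.leaf 298 1622 .nil)) (.cons 228 (.leaf 200 1600 (.cons 229 (.leaf 204 1608 (.leaf 230 1810 .nil)) .nil)) .nil)) .nil))))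
noncomputable def t69 : T := .cons 204 (.cons 176 (.leaf 177 1411 (.cons 200 (.leaf 175 1403 (.cons 224 (.leaf 223 1594 (.leaf 225 1602 .nil)) .nil)) .nil)) (.cons 181 (.leaf 180 1417 (.cons 205 (.leaf 182 1425 (.cons 229 (.leaf 228 1608 (.leaf 230 1616 .nil)) .nil)) .nil)) .nil)) (.cons 204 (.cons 225 (.leaf 224 1602 (.cons 205 (.leaf 226 1610 (.cons 229 (.leaf 228 1608 (.leaf 230 1616 .nil)) .nil)) .nil)) (.cons 180 (.leaf 181 1417 (.leaf 227 1437 .nil)) .nil)) (.cons 204 (.cons 205 (.cons 182 (.leaf 181 1425 (.cons 206 (.leaf 183 1433 (.cons 230 (.leaf 229 1616 (.leaf 231 1624 .nil)) .nil)) .nil)) (.cons 226 (.leaf 225 1610 (.cons 227 (.leaf 206 1618 (.leaf 180 1437 .nil)) .nil)) (.cons 181 (.leaf 182 1425 (.cons 229 (.leaf 230 1616 (.cons 180 (.leaf 227 1437 (.cons 253 (.leaf 156 1255 (.leaf 277 1447 .nil)) .nil)) .nil)) .nil)) .nil))) (.cons 176 (.leaf 177 1411 (.cons 200 (.leaf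 175 1403 (.cons 180 (.leaf 179 1409 (.leaf 181 1417 .nil)) .nil)) .nil)) (.cons 176 (.leaf 177 1411 (.cons 200 (.leaf 175 1403 (.cons 228 (.leaf 227 1600 (.leaf 229 1608 .nil)) .nil)) .nil)) .nil))) (.cons 204 (.cons 205 (.cons 182 (.leaf 181 1425 (.cons 206 (.leaf 183 1433 (.cons 230 (.leaf 229 1616 (.leaf 231 1624 .nil)) .nil)) .nil)) (.cons 226 (.leaf 225 1610 (.cons 227 (.leaf 206 1618 (.leaf 180 1437 .nil)) .nil)) (.cons 181 (.leaf 182 1425 (.cons 229 (.leaf 230 1616 (.cons 180 (.leaf 227 1437 (.cons 253 (.leaf 156 1255 (.leaf 277 1447 .nil)) .nil)) .nil)) .nil)) .nil))) (.cons 176 (.leaf 177 1411 (.cons 200 (.leaf 175 1403 (.cons 224 (.leaf 223 1594 (.leaf 225 1602 .nil)) .nil)) .nil)) (.cons 176 (.leaf 177 1411 (.cons 200 (.leaf 175 1403 (.cons 180 (.leaf 179 1409 (.leaf 181 1417 .nil)) .nil)) .nil)) .nil))) (.cons 200 (.cons 175 (.leaf 176 1403 (.cons 199 (.leaf 174 1395 (.cons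 223 (.leaf 222 1586 (.leaf 224 1594 .nil)) .nil)) .nil)) (.cons 179 (.leaf 180 1409 (.cons 227 (.leaf 228 1600 (.cons 155 (.leaf 226 1238 (.cons 130 (.leaf 154 1047 (.cons 131 (.leaf 106 855 (.cons 132 (.leaf 108 861 (.leaf 156 1053 .nil)) .nil)) .nil)) .nil)) .nil)) .nil)) .nil)) (.cons 200 (.cons 176 (.leaf 175 1403 (.cons 204 (.leaf 177 1411 (.cons 224 (.leaf 223 1594 (.leaf 225 1602 .nil)) .nil)) .nil)) (.cons 175 (.leaf 176 1403 (.cons 199 (.leaf 174 1395 (.cons 227 (.leaf 226 1592 (.leaf 228 1600 .nil)) .nil)) .nil)) (.cons 223 (.leaf 224 1594 (.cons 199 (.leaf 222 1586 (.cons 227 (.leaf 226 1592 (.leaf 228 1600 .nil)) .nil)) .nil)) .nil))) .nil)))))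
noncomputable def t70 : T := .cons 203 t69 (.cons 203 t68 (.cons 274 t67 (.cons 203 t66 (.cons 225 t60 (.cons 226 t65 (.cons 274 t64 (.cons 274 (.cons 226 (.leaf 177 1423 (.cons 298 (.leaf 225 1615 (.cons 297 (.leaf 273 1614 (.leaf 321 1806 .nil)) .nil)) .nil)) (.cons 298 (.cons 226 (.leaf 225 1615 (.cons 297 (.leaf 273 1614 (.leaf 321 1806 .nil)) .nil)) (.cons 322 (.leaf 227 1813 (.leaf 346 2005 .nil)) .nil)) (.cons 226 (.leaf 177 1423 (.cons 297 (.leaf 273 1614 (.cons 298 (.leaf 321 1806 (.cons 322 (.leaf 227 1813 (.leaf 346 2005 .nil)) .nil)) .nil)) .nil)) (.cons 177 (.leaf 226 1423 (.cons 249 (.leaf 225 1420 (.cons 248 (.leaf 247 1976 (.cons 227 (.leaf 228 1793 (.cons 203 (.leaf 179 1430 (.cons 204 (.leaf 176 1411 (.leaf 180 1437 .nil)) .nil)) .nil)) .nil)) .nil)) .nil)) (.cons 227 (.cons 203 (.leaf 179 1430 (.leaf 298 1622 .nil)) (.cons 249 (.cons 248 (.leaf 247 1976 (.leaf 228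 1793 .nil)) (.cons 225 (.leaf 177 1420 (.cons 298 (.leaf 273 1612 (.leaf 322 1813 .nil)) .nil)) .nil)) (.cons 203 (.leaf 179 1430 (.cons 228 (.leaf 200 1600 (.cons 229 (.leaf 204 1608 (.leaf 230 1810 .nil)) .nil)) .nil)) .nil))) .nil))))) (.cons 274 (.cons 298 (.cons 226 (.leaf 225 1615 (.cons 297 (.leaf 273 1614 (.leaf 321 1806 .nil)) .nil)) (.cons 322 (.leaf 227 1813 (.leaf 346 2005 .nil)) .nil)) (.cons 226 (.leaf 177 1423 (.cons 297 (.leaf 273 1614 (.cons 298 (.leaf 321 1806 (.cons 322 (.leaf 227 1813 (.leaf 346 2005 .nil)) .nil)) .nil)) .nil)) (.cons 177 (.leaf 226 1423 (.cons 249 (.leaf 225 1420 (.cons 248 (.leaf 247 1976 (.cons 224 (.leaf 223 1787 (.cons 272 (.leaf 271 1978 (.leaf 200 1413 .nil)) .nil)) .nil)) .nil)) .nil)) (.cons 227 (.cons 203 (.leaf 179 1430 (.leaf 298 1622 .nil)) (.cons 249 (.cons 248 (.leaf 247 1976 (.leaf 228 1793 .nil)) (.cons 225 (.leaf 177 1420 (.cons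 298 (.leaf 273 1612 (.leaf 322 1813 .nil)) .nil)) .nil)) (.cons 203 (.leaf 179 1430 (.cons 228 (.leaf 200 1600 (.cons 229 (.leaf 204 1608 (.leaf 230 1810 .nil)) .nil)) .nil)) .nil))) .nil)))) .nil))))))))
noncomputable def t71 : T := .cons 201 t70 (.cons 203 t63 (.cons 201 t61 (.cons 226 (.leaf 178 1428 (.cons 274 (.cons 201 (.leaf 177 1423 (.cons 298 (.leaf 225 1615 (.cons 322 (.leaf 227 1813 (.leaf 346 2005 .nil)) .nil)) .nil)) (.cons 297 (.leaf 273 1614 (.cons 298 (.leaf 321 1806 (.cons 322 (.leaf 227 1813 (.leaf 346 2005 .nil)) .nil)) .nil)) (.cons 201 (.leaf 177 1423 (.cons 273 (.leaf 297 1614 (.cons 272 (.leaf 271 1977 (.cons 248 (.leaf 247 1979 (.cons 296 (.leaf 295 2170 (.cons 225 (.leaf 224 1605 (.leaf 249 1606 .nil)) .nil)) .nil)) .nil)) .nil)) .nil)) .nil))) .nil)) (.cons 249 t55 (.cons 178 (.leaf 226 1428 (.cons 203 (.leaf 227 1431 (.cons 204 (.cons 177 (.leaf 205 1419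 (.cons 176 (.leaf 175 1400 (.leaf 201 1411 .nil)) .nil)) (.cons 205 (.leaf 177 1419 (.cons 206 (.leaf 179 1427 (.cons 182 (.leaf 181 1425 (.leaf 183 1433 .nil)) .nil)) .nil)) (.cons 201 (.cons 224 (.leaf 225 1602 (.cons 200 (.leaf 223 1594 (.cons 175 (.leaf 176 1403 (.cons 199 (.leaf 179 1401 (.leaf 174 1395 .nil)) .nil)) .nil)) .nil)) (.cons 181 (.leaf 180 1417 (.cons 205 (.leaf 182 1425 (.cons 229 (.leaf 228 1608 (.leaf 230 1616 .nil)) .nil)) .nil)) .nil)) (.cons 201 (.cons 224 (.leaf 225 1602 (.cons 200 (.leaf 223 1594 (.cons 180 (.leaf 179 1409 (.leaf 181 1417 .nil)) .nil)) .nil)) (.cons 176 (.leaf 177 1411 (.cons 200 (.leaf 175 1403 (.cons 180 (.leaf 179 1409 (.leaf 181 1417 .nil)) .nil)) .nil)) (.cons 177 (.leaf 176 1411 (.cons 225 (.leaf 224 1602 (.cons 154 (.leaf 249 1229 (.leaf 130 1038 .nil)) .nil)) .nil)) .nil))) .nil)))) .nil)) .nil)) (.cons 226 (.leaf 178 1428 (.cons 201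 t53 .nil)) (.cons 226 (.leaf 178 1428 (.cons 274 (.cons 297 (.leaf 273 1614 (.cons 298 (.leaf 321 1806 (.cons 322 (.leaf 227 1813 (.leaf 346 2005 .nil)) .nil)) .nil)) (.cons 201 (.leaf 177 1423 (.cons 298 (.leaf 225 1615 (.cons 321 (.leaf 297 1806 (.cons 322 (.leaf 346 2005 (.leaf 345 1998 .nil)) .nil)) .nil)) .nil)) (.cons 227 (.cons 201 (.leaf 177 1423 (.cons 228 (.leaf 229 1611 (.cons 200 (.leaf 199 1592 (.leaf 225 1603 .nil)) .nil)) .nil)) (.cons 203 (.leaf 179 1429 (.cons 204 (.leaf 180 1437 (.cons 205 (.leaf 225 1610 (.leaf 206 1618 .nil)) .nil)) .nil)) (.cons 203 (.leaf 179 1429 (.cons 201 (.leaf 177 1423 (.cons 228 (.leaf 200 1600 (.leaf 229 1611 .nil)) .nil)) .nil)) .nil))) .nil))) .nil)) .nil)))))))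
noncomputable def t72 : T := .cons 179 (.cons 151 (.leaf 152 1211 (.cons 175 (.leaf 150 1203 (.cons 199 (.leaf 198 1394 (.leaf 200 1402 .nil)) .nil)) .nil)) (.cons 152 (.leaf 151 1211 (.cons 180 (.leaf 153 1219 (.cons 156 (.leaf 155 1217 (.leaf 157 1225 .nil)) .nil)) .nil)) (.cons 200 (.leaf 199 1402 (.cons 180 (.leaf 201 1410 (.cons 156 (.leaf 155 1217 (.leaf 157 1225 .nil)) .nil)) .nil)) .nil))) (.cons 225 (.cons 252 (.leaf 253 1803 (.cons 224 (.leaf 223 1784 (.leaf 249 1795 .nil)) .nil)) (.cons 201 (.leaf 153 1228 (.cons 249 (.leaf 154 1229 (.leaf 152 1223 .nil)) .nil)) (.cons 153 (.leaf 201 1228 (.cons 224 (.leaf 223 1784 (.cons 200 (.leaf 248 1221 (.cons 129 (.leaf 152 1029 (.leaf 105 838 .nil)) .nil)) .nil)) .nil)) .nil))) (.cons 179 (.cons 151 (.leaf 152 1211 (.cons 175 (.leaf 150 1203 (.cons 199 (.leaf 198 1394 (.leaf 200 1402 .nil)) .nil)) .nil)) (.cons 151 (.leaf 152 1211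 (.cons 175 (.leaf 150 1203 (.cons 155 (.leaf 154 1209 (.leaf 156 1217 .nil)) .nil)) .nil)) (.cons 200 (.leaf 199 1402 (.cons 180 (.leaf 201 1410 (.cons 156 (.leaf 155 1217 (.leaf 157 1225 .nil)) .nil)) .nil)) .nil))) (.cons 175 (.cons 150 (.leaf 151 1203 (.cons 174 (.leaf 149 1195 (.cons 198 (.leaf 197 1386 (.leaf 199 1394 .nil)) .nil)) .nil)) (.cons 150 (.leaf 151 1203 (.cons 174 (.leaf 149 1195 (.cons 154 (.leaf 153 1201 (.leaf 155 1209 .nil)) .nil)) .nil)) (.cons 199 (.leaf 198 1394 (.cons 179 (.leaf 200 1402 (.cons 155 (.leaf 154 1209 (.leaf 156 1217 .nil)) .nil)) .nil)) .nil))) (.cons 175 (.cons 150 (.leaf 151 1203 (.cons 174 (.leaf 149 1195 (.cons 198 (.leaf 197 1386 (.leaf 199 1394 .nil)) .nil)) .nil)) (.cons 198 (.leaf 199 1394 (.cons 174 (.leaf 197 1386 (.cons 154 (.leaf 153 1201 (.leaf 155 1209 .nil)) .nil)) .nil)) (.cons 151 (.leaf 150 1203 (.cons 179 (.leaf 152 1211 (.cons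 155 (.leaf 154 1209 (.leaf 156 1217 .nil)) .nil)) .nil)) .nil))) .nil))))
noncomputable def t73 : T := .cons 248 (.cons 247 (.leaf 227 1785 (.cons 223 (.leaf 222 1779 (.leaf 224 1787 .nil)) .nil)) (.cons 224 (.leaf 223 1787 (.cons 272 (.leaf 271 1978 (.cons 273 (.leaf 252 1986 (.cons 297 (.leaf 200 1604 (.leaf 321 1805 .nil)) .nil)) .nil)) .nil)) (.cons 271 (.leaf 272 1978 (.cons 247 (.leaf 227 1785 (.leaf 270 1970 .nil)) .nil)) .nil))) (.cons 225 (.cons 252 (.leaf 253 1803 (.cons 224 (.leaf 223 1784 (.leaf 227 1792 .nil)) .nil)) (.cons 201 (.leaf 154 1229 (.cons 176 (.leaf 152 1223 (.cons 200 (.leaf 273 1415 (.cons 179 (.leaf 199 1402 (.leaf 180 1410 .nil)) .nil)) .nil)) .nil)) .nil)) (.cons 248 (.cons 247 (.leaf 227 1785 (.cons 222 (.leaf 223 1779 (.cons 246 (.leaf 225 1777 (.leaf 221 1771 .nil)) .nil)) .nil)) (.cons 271 (.leaf 272 1978 (.cons 247 (.leaf 227 1785 (.leaf 270 1970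 .nil)) .nil)) (.cons 224 (.leaf 223 1787 (.cons 272 (.leaf 271 1978 (.cons 201 (.leaf 200 1413 (.leaf 225 1414 .nil)) .nil)) .nil)) .nil))) (.cons 248 (.cons 247 (.leaf 227 1785 (.cons 222 (.leaf 223 1779 (.cons 246 (.leaf 225 1777 (.leaf 221 1771 .nil)) .nil)) .nil)) (.cons 247 (.leaf 227 1785 (.cons 222 (.leaf 223 1779 (.cons 246 (.leaf 221 1771 (.cons 270 (.leaf 269 1962 (.leaf 271 1970 .nil)) .nil)) .nil)) .nil)) (.cons 271 (.leaf 272 1978 (.cons 247 (.leaf 270 1970 (.cons 222 (.leaf 223 1779 (.cons 246 (.leaf 225 1777 (.leaf 221 1771 .nil)) .nil)) .nil)) .nil)) (.cons 272 (.leaf 271 1978 (.cons 252 (.leaf 273 1986 (.cons 253 (.leaf 225 1803 (.cons 254 (.leaf 227 1811 (.cons 230 (.leaf 229 1809 (.leaf 231 1817 .nil)) .nil)) .nil)) .nil)) .nil)) .nil)))) (.cons 225 (.cons 252 (.leaf 224 1795 (.leaf 253 1803 .nil)) (.cons 201 (.leaf 154 1229 (.cons 176 (.leaf 152 1223 (.cons 273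 (.leaf 200 1415 (.cons 272 (.leaf 248 1414 (.leaf 296 1606 .nil)) .nil)) .nil)) .nil)) .nil)) .nil))))
noncomputable def t74 : T := .cons 179 t19 (.cons 249 t73 (.cons 225 (.cons 252 (.leaf 253 1803 (.cons 224 (.leaf 223 1784 (.leaf 227 1792 .nil)) .nil)) (.cons 252 (.leaf 253 1803 (.cons 224 (.leaf 223 1784 (.leaf 249 1795 .nil)) .nil)) (.cons 201 (.leaf 153 1228 (.cons 249 (.leaf 154 1229 (.cons 248 (.leaf 272 1414 (.cons 247 (.leaf 246 1777 (.leaf 227 1785 .nil)) .nil)) .nil)) .nil)) .nil))) (.cons 179 (.cons 180 (.cons 200 (.leaf 201 1410 (.cons 176 (.leaf 199 1402 (.cons 156 (.leaf 155 1217 (.leaf 157 1225 .nil)) .nil)) .nil)) (.cons 157 (.leaf 156 1225 (.cons 181 (.leaf 158 1233 (.cons 205 (.leaf 204 1416 (.leaf 206 1424 .nil)) .nil)) .nil)) (.cons 204 (.leaf 205 1416 (.cons 203 (.leaf 176 1408 (.leaf 227 1437 .nil)) .nil)) .nil))) (.cons 176 (.cons 151 (.leaf 152 1211 (.cons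 175 (.leaf 150 1203 (.cons 199 (.leaf 198 1394 (.leaf 200 1402 .nil)) .nil)) .nil)) (.cons 155 (.leaf 156 1217 (.cons 203 (.leaf 204 1408 (.leaf 227 1238 .nil)) .nil)) .nil)) (.cons 180 (.cons 157 (.leaf 156 1225 (.cons 181 (.leaf 158 1233 (.cons 205 (.leaf 204 1416 (.leaf 206 1424 .nil)) .nil)) .nil)) (.cons 153 (.leaf 152 1219 (.cons 201 (.leaf 200 1410 (.leaf 225 1228 .nil)) .nil)) .nil)) (.cons 225 (.cons 252 (.leaf 253 1803 (.cons 224 (.leaf 223 1784 (.leaf 227 1792 .nil)) .nil)) (.cons 153 (.leaf 201 1228 (.cons 152 (.leaf 180 1219 (.cons 151 (.leaf 150 1200 (.leaf 176 1211 .nil)) .nil)) .nil)) .nil)) .nil)))) (.cons 176 t72 .nil))))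
noncomputable def t75 : T := .cons 202 (.leaf 178 1428 (.cons 274 (.cons 201 (.leaf 177 1423 (.cons 225 (.leaf 298 1615 (.cons 224 (.leaf 223 1784 (.cons 203 (.leaf 204 1602 (.leaf 179 1429 .nil)) .nil)) .nil)) .nil)) (.cons 273 (.leaf 297 1614 (.cons 272 (.leaf 271 1977 (.leaf 252 1985 .nil)) .nil)) .nil)) .nil)) (.cons 202 (.leaf 178 1428 (.cons 274 (.cons 273 (.leaf 297 1614 (.cons 272 (.leaf 271 1977 (.leaf 252 1985 .nil)) .nil)) (.cons 203 (.leaf 179 1429 (.cons 227 (.leaf 298 1621 (.cons 204 (.leaf 180 1437 (.cons 205 (.leaf 225 1610 (.leaf 206 1618 .nil)) .nil)) .nil)) .nil)) .nil)) .nil)) (.cons 202 (.leaf 178 1428 (.cons 274 (.cons 201 (.leaf 177 1423 (.cons 298 (.leaf 225 1615 (.cons 322 (.leaf 227 1813 (.leaf 346 2005 .nil)) .nil)) .nil)) (.cons 297 (.leaf 273 1614 (.cons 298 (.leaf 321 1806 (.cons 322 (.leaf 227 1813 (.leaf 346 2005 .nil)) .nil)) .nil)) (.cons 201 (.leaf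 177 1423 (.cons 273 (.leaf 297 1614 (.cons 272 (.leaf 271 1977 (.cons 248 (.leaf 247 1979 (.cons 296 (.leaf 295 2170 (.cons 225 (.leaf 224 1605 (.leaf 249 1606 .nil)) .nil)) .nil)) .nil)) .nil)) .nil)) .nil))) .nil)) (.cons 202 (.leaf 178 1428 (.cons 274 (.cons 298 (.cons 321 (.leaf 297 1806 (.cons 322 (.leaf 346 2005 (.leaf 345 1998 .nil)) .nil)) (.cons 225 (.leaf 201 1615 (.cons 252 (.leaf 253 1803 (.cons 224 (.leaf 223 1784 (.leaf 249 1795 .nil)) .nil)) .nil)) .nil)) (.cons 203 (.leaf 179 1429 (.cons 298 (.leaf 227 1621 (.cons 321 (.leaf 297 1806 (.cons 322 (.leaf 346 2005 (.leaf 345 1998 .nil)) .nil)) .nil)) .nil)) (.cons 203 (.leaf 179 1429 (.cons 225 (.cons 204 (.leaf 205 1610 (.cons 224 (.leaf 223 1784 (.leaf 201 1602 .nil)) .nil)) (.cons 252 (.leaf 253 1803 (.cons 224 (.leaf 223 1784 (.leaf 227 1792 .nil)) .nil)) (.cons 204 (.leaf 205 1610 (.cons 180 (.leaf 227 1437 (.cons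 201 (.leaf 181 1417 (.leaf 177 1423 .nil)) .nil)) .nil)) .nil))) .nil)) .nil))) .nil)) (.cons 202 (.leaf 178 1428 (.cons 274 (.cons 273 (.leaf 297 1614 (.cons 252 (.leaf 272 1985 (.leaf 253 1994 .nil)) .nil)) (.cons 203 (.leaf 179 1429 (.cons 298 (.leaf 227 1621 (.cons 321 (.leaf 297 1806 (.cons 322 (.leaf 346 2005 (.leaf 345 1998 .nil)) .nil)) .nil)) .nil)) (.cons 272 t7 .nil))) .nil)) (.cons 225 (.cons 252 (.leaf 253 1803 (.cons 224 (.leaf 223 1784 (.leaf 227 1792 .nil)) .nil)) (.cons 274 t26 (.cons 252 (.leaf 253 1803 (.cons 274 (.cons 298 (.leaf 201 1615 (.cons 322 (.leaf 346 2005 (.leaf 249 1807 .nil)) .nil)) (.cons 298 (.leaf 201 1615 (.cons 321 (.leaf 297 1806 (.cons 322 (.leaf 346 2005 (.leaf 345 1998 .nil)) .nil)) .nil)) (.cons 273 (.leaf 272 1985 (.cons 297 (.leaf 202 1614 (.cons 321 (.leaf 249 1805 (.leaf 345 1997 .nil)) .nil)) .nil)) .nil))) .nil)) .nil))) (.cons 224 t23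 (.cons 178 (.leaf 202 1428 (.cons 177 t74 .nil)) (.cons 202 (.leaf 178 1428 (.cons 274 (.cons 201 (.leaf 177 1423 (.cons 225 (.leaf 298 1615 (.cons 224 (.leaf 223 1784 (.cons 203 (.leaf 204 1602 (.leaf 179 1429 .nil)) .nil)) .nil)) .nil)) (.cons 201 (.leaf 177 1423 (.cons 298 (.leaf 225 1615 (.cons 322 (.leaf 227 1813 (.leaf 346 2005 .nil)) .nil)) .nil)) (.cons 203 (.leaf 179 1429 (.cons 227 (.leaf 298 1621 (.cons 204 (.leaf 180 1437 (.cons 205 (.leaf 225 1610 (.leaf 206 1618 .nil)) .nil)) .nil)) .nil)) (.cons 203 (.leaf 179 1429 (.cons 225 (.cons 204 (.leaf 205 1610 (.cons 224 (.leaf 223 1784 (.leaf 201 1602 .nil)) .nil)) (.cons 252 (.leaf 253 1803 (.cons 224 (.leaf 223 1784 (.leaf 227 1792 .nil)) .nil)) (.cons 204 (.leaf 205 1610 (.cons 180 (.leaf 227 1437 (.cons 201 (.leaf 181 1417 (.leaf 177 1423 .nil)) .nil)) .nil)) .nil))) .nil)) (.cons 272 t7 .nil))))) .nil)) .nil))))))))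
noncomputable def t76 : T := .cons 298 (.cons 321 (.leaf 297 1806 (.cons 322 (.leaf 346 2005 (.leaf 345 1998 .nil)) .nil)) (.cons 225 (.leaf 201 1615 (.cons 252 (.leaf 253 1803 (.cons 224 (.leaf 223 1784 (.leaf 249 1795 .nil)) .nil)) .nil)) .nil)) (.cons 203 (.leaf 179 1429 (.cons 298 (.leaf 227 1621 (.cons 321 (.leaf 297 1806 (.cons 322 (.leaf 346 2005 (.leaf 345 1998 .nil)) .nil)) .nil)) .nil)) (.cons 252 (.cons 253 (.leaf 254 2002 (.cons 229 (.leaf 230 1809 (.cons 249 (.leaf 228 1801 (.cons 224 (.leaf 225 1795 (.cons 248 (.leaf 247 1976 (.leaf 223 1787 .nil)) .nil)) .nil)) .nil)) .nil)) (.cons 225 (.leaf 253 1803 (.cons 224 (.leaf 223 1784 (.leaf 227 1792 .nil)) .nil)) (.cons 249 (.cons 228 (.leaf 229 1801 (.cons 248 (.leaf 247 1976 (.leaf 227 1793 .nil)) .nil)) (.cons 224 (.leaf 225 1795 (.cons 248 (.leaf 247 1976 (.leaf 223 1787 .nil)) .nil)) (.cons 201 (.leaf 177 1423 (.cons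 224 (.leaf 225 1795 (.cons 228 (.leaf 229 1801 (.cons 203 (.leaf 179 1429 (.cons 200 (.leaf 227 1600 (.leaf 223 1594 .nil)) .nil)) .nil)) .nil)) .nil)) .nil))) (.cons 253 (.leaf 254 2002 (.cons 229 (.leaf 230 1809 (.cons 228 (.leaf 249 1801 (.cons 201 (.leaf 227 1611 (.leaf 177 1423 .nil)) .nil)) .nil)) .nil)) .nil)))) .nil))
noncomputable def t77 : T := .cons 252 (.leaf 253 1803 (.cons 224 (.leaf 223 1784 (.leaf 249 1795 .nil)) .nil)) (.cons 252 (.leaf 253 1803 (.cons 274 (.cons 201 (.leaf 177 1423 (.cons 203 (.leaf 179 1429 (.cons 204 (.leaf 205 1610 (.cons 180 (.leaf 181 1417 (.leaf 228 1438 .nil)) .nil)) .nil)) .nil)) (.cons 298 (.leaf 201 1615 (.cons 322 (.leaf 346 2005 (.leaf 249 1807 .nil)) .nil)) (.cons 203 (.leaf 179 1429 (.cons 204 (.leaf 205 1610 (.cons 228 (.leaf 180 1438 (.cons 249 (.leaf 229 1801 (.cons 298 (.leaf 322 1807 (.cons 297 (.leaf 321 1806 (.cons 296 (.leaf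 295 2169 (.cons 248 (.leaf 247 1976 (.cons 272 (.leaf 271 1978 (.leaf 320 1797 .nil)) .nil)) .nil)) .nil)) .nil)) .nil)) .nil)) .nil)) .nil)) .nil))) .nil)) (.cons 201 (.cons 274 (.leaf 177 1423 (.leaf 298 1615 .nil)) (.cons 274 (.leaf 298 1615 (.cons 203 (.leaf 179 1429 (.cons 204 (.leaf 224 1602 (.leaf 205 1610 .nil)) .nil)) .nil)) (.cons 200 (.cons 199 (.leaf 198 1584 (.cons 175 (.leaf 174 1395 (.cons 203 (.leaf 176 1403 (.cons 204 (.leaf 205 1610 (.cons 180 (.leaf 179 1409 (.leaf 181 1417 .nil)) .nil)) .nil)) .nil)) .nil)) (.cons 199 (.leaf 198 1584 (.cons 223 (.leaf 224 1784 (.leaf 222 1586 .nil)) .nil)) (.cons 224 (.leaf 223 1784 (.cons 203 (.leaf 204 1602 (.cons 176 (.leaf 175 1403 (.cons 152 (.leaf 128 1028 (.cons 153 (.leaf 177 1228 (.leaf 129 1029 .nil)) .nil)) .nil)) .nil)) .nil)) .nil))) .nil))) .nil))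
noncomputable def t78 : T := .cons 253 (.cons 254 (.leaf 274 2002 (.cons 278 (.leaf 277 2000 (.leaf 279 2008 .nil)) .nil)) (.cons 229 (.leaf 230 1809 (.cons 228 (.leaf 249 1801 (.cons 204 (.leaf 180 1438 (.cons 277 (.leaf 278 2000 (.leaf 301 1639 .nil)) .nil)) .nil)) .nil)) (.cons 254 (.leaf 274 2002 (.cons 230 (.leaf 229 1809 (.leaf 231 1817 .nil)) .nil)) .nil))) (.cons 225 (.leaf 253 1803 (.cons 224 (.leaf 223 1784 (.leaf 227 1792 .nil)) .nil)) (.cons 249 (.cons 224 (.leaf 225 1795 (.cons 248 (.leaf 223 1787 (.cons 228 (.leaf 227 1793 (.leaf 229 1801 .nil)) .nil)) .nil)) (.cons 224 (.leaf 225 1795 (.cons 248 (.leaf 223 1787 (.cons 271 (.leaf 272 1978 (.cons 247 (.leaf 274 1976 (.leaf 270 1970 .nil)) .nil)) .nil)) .nil)) (.cons 228 (.leaf 229 1801 (.cons 248 (.leaf 227 1793 (.cons 247 (.leaf 274 1976 (.cons 222 (.leaf 223 1779 (.cons 246 (.leaf 221 1771 (.cons 270 (.leaf 269 1962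 (.leaf 271 1970 .nil)) .nil)) .nil)) .nil)) .nil)) .nil)) (.cons 225 (.leaf 224 1795 (.cons 228 (.leaf 229 1801 (.cons 204 (.leaf 180 1438 (.cons 227 (.leaf 205 1609 (.cons 201 (.leaf 200 1603 (.cons 274 (.leaf 177 1420 (.leaf 298 1615 .nil)) .nil)) .nil)) .nil)) .nil)) .nil)) .nil)))) .nil))
noncomputable def t79 : T := .cons 252 t78 (.cons 202 (.leaf 178 1428 (.cons 203 t14 .nil)) (.cons 202 (.leaf 178 1428 (.cons 225 t77 .nil)) (.cons 202 (.leaf 178 1428 (.cons 204 t12 .nil)) (.cons 202 (.leaf 178 1428 (.cons 274 (.cons 201 (.leaf 177 1423 (.cons 298 (.leaf 225 1615 (.cons 321 (.leaf 297 1806 (.cons 322 (.leaf 346 2005 (.leaf 345 1998 .nil)) .nil)) .nil)) .nil)) (.cons 203 (.leaf 179 1429 (.cons 298 (.leaf 227 1621 (.cons 321 (.leaf 297 1806 (.cons 322 (.leaf 346 2005 (.leaf 345 1998 .nil)) .nil)) .nil)) .nil)) (.cons 227 (.cons 201 (.leaf 177 1423 (.cons 228 (.leaf 229 1611 (.cons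 200 (.leaf 199 1592 (.leaf 225 1603 .nil)) .nil)) .nil)) (.cons 203 (.leaf 179 1429 (.cons 204 (.leaf 180 1437 (.cons 205 (.leaf 225 1610 (.leaf 206 1618 .nil)) .nil)) .nil)) (.cons 203 (.leaf 179 1429 (.cons 201 (.leaf 177 1423 (.cons 228 (.leaf 200 1600 (.leaf 229 1611 .nil)) .nil)) .nil)) .nil))) .nil))) .nil)) (.cons 202 (.leaf 178 1428 (.cons 274 (.cons 298 (.cons 321 (.leaf 297 1806 (.cons 322 (.leaf 346 2005 (.leaf 345 1998 .nil)) .nil)) (.cons 225 (.leaf 201 1615 (.cons 252 (.leaf 253 1803 (.cons 224 (.leaf 223 1784 (.leaf 249 1795 .nil)) .nil)) .nil)) .nil)) (.cons 203 (.leaf 179 1429 (.cons 298 (.leaf 227 1621 (.cons 321 (.leaf 297 1806 (.cons 322 (.leaf 346 2005 (.leaf 345 1998 .nil)) .nil)) .nil)) .nil)) (.cons 203 (.leaf 179 1429 (.cons 225 (.cons 204 (.leaf 205 1610 (.cons 224 (.leaf 223 1784 (.leaf 201 1602 .nil)) .nil)) (.cons 252 (.leaf 253 1803 (.cons 224 (.leaf 223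 1784 (.leaf 227 1792 .nil)) .nil)) (.cons 204 (.leaf 205 1610 (.cons 180 (.leaf 227 1437 (.cons 201 (.leaf 181 1417 (.leaf 177 1423 .nil)) .nil)) .nil)) .nil))) .nil)) .nil))) .nil)) (.cons 202 (.leaf 178 1428 (.cons 203 (.cons 179 (.leaf 274 1429 (.cons 155 (.leaf 131 1046 (.leaf 227 1238 .nil)) .nil)) (.cons 225 (.cons 204 (.leaf 205 1610 (.cons 180 (.leaf 227 1437 (.cons 252 (.leaf 253 1803 (.leaf 228 1438 .nil)) .nil)) .nil)) (.cons 204 (.leaf 205 1610 (.cons 227 (.leaf 224 1601 (.leaf 180 1437 .nil)) .nil)) (.cons 252 (.leaf 253 1803 (.cons 224 (.leaf 223 1784 (.leaf 249 1795 .nil)) .nil)) .nil))) (.cons 252 t0 .nil))) .nil)) (.cons 202 (.leaf 178 1428 (.cons 274 t76 .nil)) .nil)))))))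
noncomputable def t80 : T := .cons 177 (.leaf 153 1228 (.cons 178 (.leaf 202 1428 (.cons 249 (.leaf 154 1229 (.cons 248 (.leaf 272 1414 (.cons 227 (.leaf 247 1785 (.leaf 228 1793 .nil)) .nil)) .nil)) .nil)) .nil)) (.cons 177 (.leaf 153 1228 (.cons 178 (.leaf 202 1428 (.cons 249 (.leaf 154 1229 (.cons 176 (.leaf 152 1223 (.cons 273 (.leaf 200 1415 (.cons 272 (.leaf 248 1414 (.leaf 296 1606 .nil)) .nil)) .nil)) .nil)) .nil)) .nil)) (.cons 227 (.cons 228 (.cons 229 (.leaf 249 1802 (.leaf 230 1810 .nil)) (.cons 204 (.leaf 205 1609 (.cons 180 (.leaf 203 1437 (.leaf 156 1246 .nil)) .nil)) .nil)) (.cons 249 (.cons 177 (.leaf 153 1228 (.cons 248 (.leaf 247 1785 (.leaf 272 1414 .nil)) .nil)) (.cons 248 (.leaf 247 1785 (.cons 272 (.leaf 271 1978 (.cons 296 (.leaf 320 1797 (.leaf 273 1606 .nil)) .nil)) .nil)) (.cons 177 (.leaf 153 1228 (.cons 176 (.leaf 152 1223 (.cons 200 (.leaf 273 1415 (.cons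 199 (.leaf 198 1584 (.cons 178 (.leaf 179 1402 (.leaf 154 1229 .nil)) .nil)) .nil)) .nil)) .nil)) .nil))) (.cons 228 (.leaf 200 1603 (.cons 229 (.leaf 230 1810 (.cons 205 (.leaf 204 1609 (.leaf 206 1617 .nil)) .nil)) .nil)) .nil))) (.cons 177 (.leaf 153 1228 (.cons 249 (.cons 176 (.leaf 152 1223 (.cons 273 (.leaf 200 1415 (.cons 297 (.leaf 202 1613 (.leaf 321 1805 .nil)) .nil)) .nil)) (.cons 248 (.leaf 272 1414 (.cons 227 (.leaf 247 1785 (.leaf 228 1793 .nil)) .nil)) .nil)) .nil)) (.cons 227 (.cons 228 (.leaf 200 1603 (.cons 229 (.leaf 249 1802 (.leaf 230 1810 .nil)) .nil)) (.cons 203 (.cons 179 (.leaf 155 1238 (.cons 180 (.leaf 156 1245 (.leaf 204 1437 .nil)) .nil)) (.cons 179 (.leaf 155 1238 (.cons 178 (.leaf 202 1428 (.leaf 154 1239 .nil)) .nil)) (.cons 202 (.leaf 178 1428 (.cons 204 (.leaf 205 1610 (.leaf 180 1437 .nil)) .nil)) .nil))) .nil)) (.cons 202 (.leaf 178 1428 (.cons 200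 (.cons 227 (.leaf 199 1592 (.cons 228 (.leaf 203 1600 (.leaf 229 1611 .nil)) .nil)) (.cons 199 (.leaf 227 1592 (.cons 174 (.leaf 175 1395 (.cons 198 (.leaf 173 1387 (.cons 222 (.leaf 221 1578 (.leaf 223 1586 .nil)) .nil)) .nil)) .nil)) (.cons 203 (.cons 176 (.leaf 175 1403 (.cons 204 (.leaf 177 1411 (.cons 180 (.leaf 179 1409 (.leaf 181 1417 .nil)) .nil)) .nil)) (.cons 176 (.leaf 175 1403 (.cons 204 (.leaf 177 1411 (.cons 228 (.leaf 227 1600 (.leaf 229 1608 .nil)) .nil)) .nil)) (.cons 179 (.leaf 180 1409 (.cons 155 (.leaf 131 1046 (.leaf 227 1238 .nil)) .nil)) .nil))) (.cons 199 (.leaf 198 1584 (.cons 175 (.leaf 174 1395 (.cons 203 (.leaf 176 1403 (.cons 204 (.leaf 205 1610 (.cons 180 (.leaf 179 1409 (.leaf 181 1417 .nil)) .nil)) .nil)) .nil)) .nil)) .nil)))) .nil)) .nil)))))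
noncomputable def t81 : T := .cons 224 (.leaf 223 1784 (.cons 252 (.leaf 227 1792 (.leaf 249 1795 .nil)) .nil)) (.cons 201 t80 (.cons 202 (.leaf 178 1428 (.cons 249 (.cons 201 (.cons 177 (.leaf 153 1228 (.cons 176 (.leaf 152 1223 (.cons 203 (.leaf 204 1411 (.cons 175 (.leaf 174 1392 (.leaf 200 1403 .nil)) .nil)) .nil)) .nil)) (.cons 273 (.leaf 297 1613 (.cons 272 (.leaf 296 1606 (.cons 271 (.leaf 270 1969 (.leaf 248 1978 .nil)) .nil)) .nil)) .nil)) (.cons 248 (.cons 227 (.leaf 247 1785 (.leaf 228 1793 .nil)) (.cons 272 (.leaf 271 1978 (.cons 201 (.leaf 177 1414 (.cons 296 (.leaf 320 1797 (.leaf 273 1606 .nil)) .nil)) .nil)) .nil)) (.cons 252 (.leaf 224 1795 (.cons 228 (.leaf 229 1801 (.cons 204 (.leaf 180 1438 (.cons 205 (.leaf 227 1609 (.leaf 203 1610 .nil)) .nil)) .nil)) .nil)) .nil))) .nil)) (.cons 224 (.leaf 223 1784 (.cons 227 (.leaf 252 1792 (.cons 200 (.leaf 199 1595 (.cons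 228 (.leaf 201 1603 (.cons 204 (.leaf 203 1601 (.leaf 205 1609 .nil)) .nil)) .nil)) .nil)) .nil)) (.cons 224 (.leaf 223 1784 (.cons 249 (.leaf 252 1795 (.cons 202 (.leaf 178 1428 (.cons 201 (.cons 177 (.leaf 153 1228 (.cons 176 (.leaf 152 1223 (.cons 203 (.leaf 204 1602 (.cons 175 (.leaf 174 1392 (.leaf 200 1403 .nil)) .nil)) .nil)) .nil)) (.cons 273 (.leaf 297 1613 (.cons 272 (.leaf 296 1606 (.cons 271 (.leaf 270 1969 (.leaf 248 1978 .nil)) .nil)) .nil)) .nil)) .nil)) .nil)) .nil)) .nil))))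
noncomputable def t82 : T := .cons 200 (.cons 175 (.leaf 199 1407 (.cons 176 (.leaf 151 1215 (.cons 271 (.leaf 247 1406 (.leaf 295 1598 .nil)) .nil)) .nil)) (.cons 271 (.leaf 295 1598 (.cons 176 (.leaf 247 1406 (.cons 177 (.leaf 153 1221 (.leaf 201 1413 .nil)) .nil)) .nil)) (.cons 199 (.leaf 175 1407 (.cons 201 (.leaf 177 1413 (.cons 198 (.leaf 225 1584 (.cons 173 (.leaf 174 1387 (.cons 197 (.leaf 172 1379 (.cons 221 (.leaf 220 1570 (.leaf 222 1578 .nil)) .nil)) .nil)) .nil)) .nil)) .nil)) .nil))) (.cons 200 (.cons 175 (.leaf 199 1407 (.cons 176 (.leaf 151 1215 (.cons 177 (.leaf 153 1221 (.leaf 201 1413 .nil)) .nil)) .nil)) (.cons 271 (.leaf 295 1598 (.cons 273 (.leaf 274 1977 (.leaf 297 1604 .nil)) .nil)) .nil)) (.cons 273 (.cons 274 (.leaf 271 1977 (.leaf 247 1979 .nil)) (.cons 297 (.leaf 200 1604 (.cons 321 (.leaf 296 1796 (.leaf 345 1991 .nil)) .nil)) .nil)) (.cons 296 (.cons 319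 (.leaf 295 1790 (.cons 320 (.leaf 343 1982 (.cons 321 (.leaf 297 1796 (.leaf 345 1988 .nil)) .nil)) .nil)) (.cons 225 (.leaf 201 1605 (.cons 227 (.leaf 247 1786 (.cons 203 (.leaf 204 1601 (.cons 274 (.leaf 298 1621 (.leaf 179 1430 .nil)) .nil)) .nil)) .nil)) .nil)) .nil)))
noncomputable def t83 : T := .cons 272 (.cons 200 (.cons 175 (.leaf 199 1407 (.cons 176 (.leaf 151 1215 (.cons 177 (.leaf 153 1221 (.leaf 201 1413 .nil)) .nil)) .nil)) (.cons 271 (.leaf 295 1598 (.cons 273 (.leaf 274 1977 (.leaf 297 1604 .nil)) .nil)) .nil)) (.cons 296 (.cons 319 (.leaf 295 1790 (.cons 320 (.leaf 343 1982 (.cons 321 (.leaf 297 1796 (.leaf 345 1988 .nil)) .nil)) .nil)) (.cons 295 (.leaf 319 1790 (.cons 274 (.leaf 273 2170 (.cons 249 (.leaf 247 1976 (.cons 227 (.leaf 228 1793 (.cons 203 (.leaf 298 1621 (.leaf 179 1430 .nil)) .nil)) .nil)) .nil)) .nil)) (.cons 297 (.leaf 321 1796 (.cons 200 (.leaf 273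 1604 (.cons 175 (.leaf 199 1407 (.cons 176 (.leaf 151 1215 (.cons 177 (.leaf 153 1221 (.leaf 201 1413 .nil)) .nil)) .nil)) .nil)) .nil)) .nil))) (.cons 249 (.leaf 271 1978 (.cons 227 (.leaf 247 1785 (.leaf 228 1793 .nil)) .nil)) .nil))) (.cons 272 t82 (.cons 249 (.cons 200 (.cons 273 (.leaf 176 1412 (.cons 297 (.leaf 225 1607 (.leaf 321 1805 .nil)) .nil)) (.cons 272 (.leaf 271 1978 (.cons 175 (.leaf 199 1407 (.cons 176 (.leaf 151 1215 (.cons 177 (.leaf 153 1221 (.leaf 201 1413 .nil)) .nil)) .nil)) .nil)) (.cons 272 (.leaf 271 1978 (.cons 201 (.leaf 177 1413 (.cons 296 (.leaf 225 1605 (.cons 297 (.leaf 273 1604 (.leaf 321 1796 .nil)) .nil)) .nil)) .nil)) .nil))) (.cons 271 (.leaf 272 1978 (.cons 247 (.leaf 274 1976 (.leaf 270 1970 .nil)) .nil)) (.cons 247 (.leaf 274 1976 (.cons 246 (.leaf 225 1777 (.cons 221 (.leaf 222 1771 (.cons 245 (.leaf 220 1763 (.cons 269 (.leaf 268 1954 (.leaf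 270 1962 .nil)) .nil)) .nil)) .nil)) .nil)) .nil))) (.cons 272 (.cons 200 (.cons 175 (.leaf 199 1407 (.cons 176 (.leaf 151 1215 (.cons 177 (.leaf 153 1221 (.leaf 201 1413 .nil)) .nil)) .nil)) (.cons 271 (.leaf 295 1598 (.cons 273 (.leaf 274 1977 (.leaf 297 1604 .nil)) .nil)) .nil)) (.cons 200 (.cons 175 (.leaf 199 1407 (.cons 176 (.leaf 151 1215 (.cons 273 (.leaf 249 1412 (.leaf 297 1604 .nil)) .nil)) .nil)) (.cons 177 (.leaf 201 1413 (.cons 176 (.leaf 153 1221 (.cons 273 (.leaf 249 1412 (.leaf 297 1604 .nil)) .nil)) .nil)) (.cons 199 (.leaf 175 1407 (.cons 201 (.leaf 177 1413 (.cons 198 (.leaf 225 1584 (.cons 173 (.leaf 174 1387 (.cons 197 (.leaf 172 1379 (.cons 221 (.leaf 220 1570 (.leaf 222 1578 .nil)) .nil)) .nil)) .nil)) .nil)) .nil)) .nil))) (.cons 249 (.cons 227 (.leaf 228 1793 (.cons 203 (.cons 274 (.leaf 179 1430 (.leaf 298 1621 .nil)) (.cons 204 (.leaf 225 1601 (.leaf 180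 1437 .nil)) .nil)) .nil)) (.leaf 271 1978 .nil)) .nil))) (.cons 227 (.cons 249 (.leaf 247 1785 (.leaf 228 1793 .nil)) (.cons 203 (.cons 274 (.leaf 179 1430 (.leaf 298 1621 .nil)) (.cons 204 (.leaf 225 1601 (.leaf 180 1437 .nil)) .nil)) .nil)) (.cons 227 (.cons 249 (.leaf 247 1785 (.leaf 228 1793 .nil)) (.cons 247 (.leaf 249 1785 (.leaf 225 1786 .nil)) (.cons 225 (.leaf 247 1786 (.cons 200 (.leaf 199 1595 (.cons 201 (.leaf 228 1603 (.cons 177 (.leaf 153 1228 (.leaf 272 1413 .nil)) .nil)) .nil)) .nil)) (.cons 228 (.leaf 249 1793 (.cons 229 (.leaf 230 1810 (.cons 205 (.leaf 206 1617 (.cons 225 (.leaf 204 1609 (.cons 200 (.leaf 199 1595 (.leaf 201 1603 .nil)) .nil)) .nil)) .nil)) .nil)) .nil)))) .nil)))))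
noncomputable def t84 : T := .cons 249 (.leaf 223 1787 (.cons 227 (.leaf 247 1785 (.leaf 228 1793 .nil)) .nil)) (.cons 272 t22 (.cons 272 (.cons 200 (.cons 175 (.leaf 199 1407 (.cons 176 (.leaf 151 1215 (.cons 177 (.leaf 153 1221 (.leaf 201 1413 .nil)) .nil)) .nil)) (.cons 271 (.leaf 295 1598 (.cons 273 (.leaf 274 1977 (.leaf 297 1604 .nil)) .nil)) .nil)) (.cons 296 (.cons 319 (.leaf 295 1790 (.cons 320 (.leaf 343 1982 (.cons 321 (.leaf 297 1796 (.leaf 345 1988 .nil)) .nil)) .nil)) (.cons 295 (.leaf 319 1790 (.cons 274 (.leaf 273 2170 (.cons 249 (.leaf 247 1976 (.cons 227 (.leaf 228 1793 (.cons 203 (.leaf 298 1621 (.leaf 179 1430 .nil)) .nil)) .nil)) .nil)) .nil)) (.cons 297 (.leaf 321 1796 (.cons 200 (.leaf 273 1604 (.cons 175 (.leaf 199 1407 (.cons 176 (.leaf 151 1215 (.cons 177 (.leaf 153 1221 (.leaf 201 1413 .nil)) .nil)) .nil)) .nil)) .nil)) .nil))) (.cons 249 (.leaf 271 1978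 (.cons 227 (.leaf 247 1785 (.leaf 228 1793 .nil)) .nil)) .nil))) (.cons 272 (.cons 200 (.cons 175 (.leaf 199 1407 (.cons 176 (.leaf 151 1215 (.cons 177 (.leaf 153 1221 (.leaf 201 1413 .nil)) .nil)) .nil)) (.cons 271 (.leaf 295 1598 (.cons 273 (.leaf 274 1977 (.leaf 297 1604 .nil)) .nil)) .nil)) (.cons 223 (.leaf 249 1787 (.cons 199 (.leaf 296 1599 (.cons 175 (.leaf 151 1212 (.leaf 200 1407 .nil)) .nil)) .nil)) (.cons 249 (.leaf 271 1978 (.leaf 223 1787 .nil)) .nil))) .nil)))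
noncomputable def t85 : T := .cons 225 (.leaf 223 1784 (.cons 227 (.cons 203 (.leaf 204 1601 (.cons 274 (.leaf 298 1621 (.leaf 179 1430 .nil)) .nil)) (.cons 200 (.leaf 199 1595 (.cons 228 (.leaf 201 1603 (.cons 229 (.leaf 249 1802 (.leaf 230 1810 .nil)) .nil)) .nil)) .nil)) .nil)) (.cons 225 (.leaf 223 1784 (.cons 227 (.cons 200 (.leaf 199 1595 (.cons 201 (.leaf 228 1603 (.cons 177 (.leaf 153 1228 (.cons 248 (.leaf 247 1786 (.leaf 272 1413 .nil)) .nil)) .nil)) .nil)) (.cons 203 (.leaf 204 1601 (.cons 274 (.leaf 298 1621 (.leaf 179 1430 .nil)) .nil)) .nil)) .nil)) (.cons 225 (.leaf 223 1784 (.cons 227 (.cons 203 (.leaf 204 1601 (.cons 274 (.leaf 298 1621 (.leaf 179 1430 .nil)) .nil)) (.cons 248 (.leaf 247 1786 (.cons 249 (.leaf 228 1793 (.cons 272 (.leaf 271 1978 (.cons 201 (.leaf 296 1605 (.leaf 177 1414 .nil)) .nil)) .nil)) .nil)) .nil)) .nil)) (.cons 225 (.leaf 223 1784 (.cons 227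 (.cons 200 (.leaf 199 1595 (.cons 248 (.leaf 247 1786 (.cons 249 (.leaf 228 1793 (.cons 273 (.leaf 176 1412 (.leaf 297 1607 .nil)) .nil)) .nil)) .nil)) (.cons 203 (.leaf 204 1601 (.cons 274 (.leaf 298 1621 (.leaf 179 1430 .nil)) .nil)) .nil)) .nil)) (.cons 248 t84 (.cons 248 t83 (.cons 225 (.leaf 223 1784 (.cons 274 (.cons 298 (.leaf 201 1615 (.cons 322 (.leaf 346 2005 (.leaf 249 1807 .nil)) .nil)) (.cons 298 (.leaf 201 1615 (.cons 321 (.leaf 297 1806 (.cons 322 (.leaf 346 2005 (.leaf 345 1998 .nil)) .nil)) .nil)) (.cons 298 (.cons 321 (.leaf 297 1806 (.cons 322 (.leaf 346 2005 (.leaf 345 1998 .nil)) .nil)) (.cons 322 (.leaf 346 2005 (.leaf 249 1807 .nil)) (.cons 297 (.leaf 321 1806 (.cons 273 (.leaf 202 1614 (.cons 249 (.leaf 200 1607 (.cons 296 (.leaf 295 2169 (.leaf 320 1798 .nil)) .nil)) .nil)) .nil)) .nil))) (.cons 202 (.cons 273 (.leaf 297 1614 (.cons 272 (.leaf 271 1977 (.cons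 248 (.leaf 247 1979 (.cons 296 (.leaf 295 2170 (.cons 320 (.leaf 249 1797 (.cons 343 (.leaf 319 1982 (.cons 344 (.leaf 367 2174 (.cons 345 (.leaf 321 1988 (.leaf 369 2180 .nil)) .nil)) .nil)) .nil)) .nil)) .nil)) .nil)) .nil)) (.cons 201 (.leaf 177 1423 (.cons 203 (.leaf 204 1602 (.leaf 179 1429 .nil)) .nil)) .nil)) .nil)))) .nil)) (.cons 225 (.leaf 223 1784 (.cons 227 (.cons 228 (.cons 229 (.leaf 249 1802 (.leaf 230 1810 .nil)) (.cons 204 (.leaf 205 1609 (.cons 180 (.leaf 203 1601 (.leaf 156 1246 .nil)) .nil)) .nil)) (.cons 200 (.leaf 199 1595 (.cons 228 (.leaf 201 1603 (.cons 248 (.leaf 247 1786 (.leaf 249 1793 .nil)) .nil)) .nil)) (.cons 200 (.leaf 199 1595 (.cons 248 (.leaf 247 1786 (.cons 203 (.leaf 204 1601 (.cons 179 (.leaf 155 1238 (.cons 180 (.leaf 156 1245 (.cons 201 (.leaf 202 1409 (.cons 177 (.leaf 153 1228 (.leaf 272 1413 .nil)) .nil)) .nil)) .nil)) .nil)) .nil)) .nil))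 .nil))) .nil)) (.cons 225 (.leaf 223 1784 (.cons 227 (.cons 200 (.leaf 199 1595 (.cons 201 (.leaf 228 1603 (.cons 177 (.leaf 153 1228 (.cons 248 (.leaf 247 1786 (.leaf 272 1413 .nil)) .nil)) .nil)) .nil)) (.cons 200 (.leaf 199 1595 (.cons 228 (.leaf 201 1603 (.cons 229 (.leaf 249 1802 (.leaf 230 1810 .nil)) .nil)) .nil)) (.cons 228 (.cons 229 (.leaf 230 1810 (.cons 205 (.leaf 204 1609 (.leaf 206 1617 .nil)) .nil)) (.cons 248 (.leaf 247 1786 (.leaf 249 1793 .nil)) .nil)) (.cons 201 t21 .nil)))) .nil)) .nil))))))))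
noncomputable def t86 : T := .cons 223 (.leaf 225 1784 (.leaf 248 1787 .nil)) (.cons 225 (.cons 201 (.cons 177 (.leaf 153 1228 (.cons 176 (.leaf 152 1223 (.cons 273 (.leaf 200 1415 (.cons 296 (.leaf 272 1606 (.cons 297 (.leaf 321 1805 (.leaf 320 1798 .nil)) .nil)) .nil)) .nil)) .nil)) (.cons 273 (.cons 296 (.leaf 272 1606 (.cons 297 (.leaf 321 1805 (.leaf 320 1798 .nil)) .nil)) (.cons 272 (.leaf 296 1606 (.cons 271 (.leaf 270 1969 (.leaf 274 1977 .nil)) .nil)) (.cons 297 (.leaf 321 1805 (.cons 298 (.leaf 274 1612 (.leaf 322 1804 .nil)) .nil)) .nil))) (.cons 177 (.leaf 274 1420 (.cons 152 (.leaf 176 1223 (.cons 153 (.leaf 128 1031 (.cons 154 (.leaf 130 1037 (.leaf 178 1229 .nil)) .nil)) .nil)) .nil)) .nil))) (.leaf 223 1784 .nil)) (.cons 248 (.leaf 223 1787 (.cons 271 (.leaf 272 1978 (.cons 247 (.leaf 274 1976 (.leaf 270 1970 .nil)) .nil)) .nil)) (.cons 248 (.cons 247 (.leaf 274 1976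 (.cons 246 (.leaf 225 1777 (.cons 221 (.leaf 222 1771 (.cons 245 (.leaf 220 1763 (.cons 269 (.leaf 268 1954 (.leaf 270 1962 .nil)) .nil)) .nil)) .nil)) .nil)) (.cons 200 (.cons 273 (.leaf 176 1412 (.cons 297 (.leaf 225 1607 (.leaf 321 1805 .nil)) .nil)) (.cons 272 (.leaf 271 1978 (.cons 175 (.leaf 199 1407 (.cons 176 (.leaf 151 1215 (.cons 177 (.leaf 153 1221 (.leaf 201 1413 .nil)) .nil)) .nil)) .nil)) (.cons 272 (.leaf 271 1978 (.cons 201 (.leaf 177 1413 (.cons 296 (.leaf 225 1605 (.cons 297 (.leaf 273 1604 (.leaf 321 1796 .nil)) .nil)) .nil)) .nil)) .nil))) (.cons 271 (.leaf 272 1978 (.cons 247 (.leaf 274 1976 (.leaf 270 1970 .nil)) .nil)) .nil))) .nil)))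
noncomputable def t87 : T := .cons 225 (.leaf 223 1784 (.cons 227 (.cons 228 (.cons 229 (.leaf 249 1802 (.leaf 230 1810 .nil)) (.cons 204 (.leaf 205 1609 (.cons 180 (.leaf 203 1601 (.leaf 156 1246 .nil)) .nil)) .nil)) (.cons 200 (.leaf 199 1595 (.cons 228 (.leaf 201 1603 (.cons 248 (.leaf 247 1786 (.leaf 249 1793 .nil)) .nil)) .nil)) (.cons 200 (.leaf 199 1595 (.cons 248 (.leaf 247 1786 (.cons 203 (.leaf 204 1601 (.cons 179 (.leaf 155 1238 (.cons 178 (.leaf 154 1239 (.cons 180 (.leaf 156 1245 (.cons 177 (.leaf 201 1410 (.cons 153 (.leaf 152 1219 (.leaf 176 1221 .nil)) .nil)) .nil)) .nil)) .nil)) .nil)) .nil)) .nil)) .nil))) .nil)) (.cons 248 t84 (.cons 248 t83 (.cons 249 t86 (.cons 225 (.leaf 223 1784 (.cons 227 (.cons 200 (.leaf 199 1595 (.cons 201 (.leaf 228 1603 (.cons 177 (.leaf 153 1228 (.cons 248 (.leaf 247 1786 (.leaf 272 1413 .nil)) .nil)) .nil)) .nil)) (.cons 203 (.leaf 204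 1601 (.cons 274 (.leaf 298 1621 (.leaf 179 1430 .nil)) .nil)) .nil)) .nil)) (.cons 225 (.leaf 223 1784 (.cons 227 (.cons 203 (.leaf 204 1601 (.cons 274 (.leaf 298 1621 (.leaf 179 1430 .nil)) .nil)) (.cons 200 (.leaf 199 1595 (.cons 228 (.leaf 201 1603 (.cons 229 (.leaf 249 1802 (.leaf 230 1810 .nil)) .nil)) .nil)) .nil)) .nil)) (.cons 225 (.leaf 223 1784 (.cons 227 (.cons 203 (.leaf 204 1601 (.cons 274 (.leaf 298 1621 (.leaf 179 1430 .nil)) .nil)) (.cons 248 (.leaf 247 1786 (.cons 249 (.leaf 228 1793 (.cons 272 (.leaf 271 1978 (.cons 201 (.leaf 296 1605 (.leaf 177 1414 .nil)) .nil)) .nil)) .nil)) .nil)) .nil)) (.cons 225 (.leaf 223 1784 (.cons 227 (.cons 200 (.leaf 199 1595 (.cons 248 (.leaf 247 1786 (.cons 249 (.leaf 228 1793 (.cons 273 (.leaf 176 1412 (.leaf 297 1607 .nil)) .nil)) .nil)) .nil)) (.cons 203 (.leaf 204 1601 (.cons 274 (.leaf 298 1621 (.leaf 179 1430 .nil)) .nil)) .nil))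 .nil)) .nil)))))))
noncomputable def t88 : T := .cons 224 t87 (.cons 224 t85 (.cons 202 (.leaf 178 1428 (.cons 274 (.cons 201 (.leaf 177 1423 (.cons 225 (.leaf 298 1615 (.cons 224 (.leaf 223 1784 (.cons 203 (.leaf 204 1602 (.leaf 179 1429 .nil)) .nil)) .nil)) .nil)) (.cons 273 (.leaf 297 1614 (.cons 272 (.leaf 271 1977 (.leaf 252 1985 .nil)) .nil)) .nil)) .nil)) (.cons 225 t81 (.cons 202 (.leaf 178 1428 (.cons 201 t53 .nil)) (.cons 202 (.leaf 178 1428 (.cons 274 (.cons 201 (.leaf 177 1423 (.cons 298 (.leaf 225 1615 (.cons 322 (.leaf 227 1813 (.leaf 346 2005 .nil)) .nil)) .nil)) (.cons 297 (.leaf 273 1614 (.cons 298 (.leaf 321 1806 (.cons 322 (.leaf 227 1813 (.leaf 346 2005 .nil)) .nil)) .nil)) (.cons 201 (.leaf 177 1423 (.cons 273 (.leaf 297 1614 (.cons 272 (.leaf 271 1977 (.cons 248 (.leaf 247 1979 (.cons 296 (.leaf 295 2170 (.cons 225 (.leaf 224 1605 (.leaf 249 1606 .nil)) .nil))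 .nil)) .nil)) .nil)) .nil)) .nil))) .nil)) (.cons 202 (.leaf 178 1428 (.cons 274 (.cons 273 (.leaf 297 1614 (.cons 272 (.leaf 271 1977 (.leaf 252 1985 .nil)) .nil)) (.cons 203 (.leaf 179 1429 (.cons 227 (.leaf 298 1621 (.cons 204 (.leaf 180 1437 (.cons 205 (.leaf 225 1610 (.leaf 206 1618 .nil)) .nil)) .nil)) .nil)) .nil)) .nil)) (.cons 202 (.leaf 178 1428 (.cons 274 (.cons 201 (.leaf 177 1423 (.cons 225 (.leaf 298 1615 (.cons 224 (.leaf 223 1784 (.cons 203 (.leaf 204 1602 (.leaf 179 1429 .nil)) .nil)) .nil)) .nil)) (.cons 201 (.leaf 177 1423 (.cons 298 (.leaf 225 1615 (.cons 322 (.leaf 227 1813 (.leaf 346 2005 .nil)) .nil)) .nil)) (.cons 203 (.leaf 179 1429 (.cons 227 (.leaf 298 1621 (.cons 204 (.leaf 180 1437 (.cons 205 (.leaf 225 1610 (.leaf 206 1618 .nil)) .nil)) .nil)) .nil)) (.cons 227 (.cons 201 (.leaf 177 1423 (.cons 228 (.leaf 229 1611 (.cons 200 (.leaf 199 1592 (.leaf 225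 1603 .nil)) .nil)) .nil)) (.cons 203 (.leaf 179 1429 (.cons 204 (.leaf 180 1437 (.cons 205 (.leaf 225 1610 (.leaf 206 1618 .nil)) .nil)) .nil)) (.cons 203 (.leaf 179 1429 (.cons 201 (.leaf 177 1423 (.cons 228 (.leaf 200 1600 (.leaf 229 1611 .nil)) .nil)) .nil)) .nil))) (.cons 201 (.leaf 177 1423 (.cons 203 (.leaf 179 1429 (.cons 227 (.leaf 298 1621 (.cons 228 (.leaf 200 1600 (.leaf 229 1611 .nil)) .nil)) .nil)) .nil)) .nil))))) .nil)) .nil)))))))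
noncomputable def t89 : T := .cons 201 (.cons 274 (.leaf 177 1423 (.leaf 298 1615 .nil)) (.cons 274 (.leaf 298 1615 (.cons 203 (.leaf 179 1429 (.cons 204 (.leaf 224 1602 (.leaf 205 1610 .nil)) .nil)) .nil)) (.cons 200 (.cons 199 (.leaf 198 1584 (.cons 175 (.leaf 174 1395 (.cons 203 (.leaf 176 1403 (.cons 204 (.leaf 205 1610 (.cons 180 (.leaf 179 1409 (.leaf 181 1417 .nil)) .nil)) .nil)) .nil)) .nil)) (.cons 199 (.leaf 198 1584 (.cons 223 (.leaf 224 1784 (.leaf 222 1586 .nil)) .nil)) (.cons 224 (.leaf 223 1784 (.cons 203 (.leaf 204 1602 (.cons 176 (.leaf 175 1403 (.cons 152 (.leaf 128 1028 (.cons 153 (.leaf 177 1228 (.leaf 129 1029 .nil)) .nil)) .nil)) .nil)) .nil)) .nil))) .nil))) (.cons 252 (.leaf 253 1803 (.cons 224 (.leaf 223 1784 (.leaf 249 1795 .nil)) .nil)) (.cons 252 (.leaf 253 1803 (.cons 274 (.cons 297 (.leaf 273 1614 (.cons 298 (.leaf 321 1806 (.cons 322 (.leaf 346 2005 (.leaf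 249 1807 .nil)) .nil)) .nil)) (.cons 201 (.leaf 177 1423 (.cons 203 (.leaf 179 1429 (.cons 204 (.leaf 205 1610 (.cons 180 (.leaf 181 1417 (.leaf 228 1438 .nil)) .nil)) .nil)) .nil)) .nil)) .nil)) .nil))
noncomputable def t90 : T := .cons 253 (.cons 254 (.leaf 274 2002 (.cons 278 (.leaf 277 2000 (.leaf 279 2008 .nil)) .nil)) (.cons 229 (.leaf 230 1809 (.cons 228 (.leaf 249 1801 (.cons 204 (.leaf 180 1438 (.cons 277 (.leaf 278 2000 (.leaf 301 1639 .nil)) .nil)) .nil)) .nil)) (.cons 254 (.leaf 274 2002 (.cons 230 (.leaf 229 1809 (.leaf 231 1817 .nil)) .nil)) .nil))) (.cons 225 (.leaf 253 1803 (.cons 224 (.leaf 223 1784 (.leaf 227 1792 .nil)) .nil)) (.cons 249 (.cons 224 (.leaf 225 1795 (.cons 248 (.leaf 223 1787 (.cons 228 (.leaf 227 1793 (.leaf 229 1801 .nil)) .nil)) .nil)) (.cons 228 (.leaf 229 1801 (.cons 248 (.leaf 227 1793 (.cons 247 (.leaf 274 1976 (.cons 222 (.leaf 223 1779 (.cons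 246 (.leaf 221 1771 (.cons 270 (.leaf 269 1962 (.leaf 271 1970 .nil)) .nil)) .nil)) .nil)) .nil)) .nil)) (.cons 248 (.cons 224 (.leaf 223 1787 (.leaf 225 1795 .nil)) (.cons 247 (.leaf 274 1976 (.cons 222 (.leaf 223 1779 (.cons 246 (.leaf 221 1771 (.cons 270 (.leaf 269 1962 (.leaf 271 1970 .nil)) .nil)) .nil)) .nil)) (.cons 274 (.leaf 247 1976 (.cons 225 (.leaf 224 1795 (.cons 298 (.leaf 322 1807 (.cons 201 (.leaf 177 1420 (.leaf 273 1612 .nil)) .nil)) .nil)) .nil)) .nil))) (.cons 225 (.leaf 224 1795 (.cons 228 (.leaf 229 1801 (.cons 204 (.leaf 180 1438 (.cons 227 (.leaf 205 1609 (.cons 201 (.leaf 200 1603 (.cons 274 (.leaf 177 1420 (.leaf 298 1615 .nil)) .nil)) .nil)) .nil)) .nil)) .nil)) .nil)))) .nil))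
noncomputable def t91 : T := .cons 202 (.leaf 178 1428 (.cons 274 (.cons 201 (.leaf 177 1423 (.cons 298 (.leaf 225 1615 (.cons 321 (.leaf 297 1806 (.cons 322 (.leaf 346 2005 (.leaf 345 1998 .nil)) .nil)) .nil)) .nil)) (.cons 203 (.leaf 179 1429 (.cons 298 (.leaf 227 1621 (.cons 321 (.leaf 297 1806 (.cons 322 (.leaf 346 2005 (.leaf 345 1998 .nil)) .nil)) .nil)) .nil)) (.cons 227 (.cons 201 (.leaf 177 1423 (.cons 228 (.leaf 229 1611 (.cons 200 (.leaf 199 1592 (.leaf 225 1603 .nil)) .nil)) .nil)) (.cons 203 (.leaf 179 1429 (.cons 204 (.leaf 180 1437 (.cons 205 (.leaf 225 1610 (.leaf 206 1618 .nil)) .nil)) .nil)) (.cons 203 (.leaf 179 1429 (.cons 201 (.leaf 177 1423 (.cons 228 (.leaf 200 1600 (.leaf 229 1611 .nil)) .nil)) .nil)) .nil))) .nil))) .nil)) (.cons 202 (.leaf 178 1428 (.cons 274 (.cons 298 (.cons 321 (.leaf 297 1806 (.cons 322 (.leaf 346 2005 (.leaf 345 1998 .nil)) .nil)) (.cons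 225 (.leaf 201 1615 (.cons 252 (.leaf 253 1803 (.cons 224 (.leaf 223 1784 (.leaf 249 1795 .nil)) .nil)) .nil)) .nil)) (.cons 203 (.leaf 179 1429 (.cons 298 (.leaf 227 1621 (.cons 321 (.leaf 297 1806 (.cons 322 (.leaf 346 2005 (.leaf 345 1998 .nil)) .nil)) .nil)) .nil)) (.cons 203 (.leaf 179 1429 (.cons 225 (.cons 204 (.leaf 205 1610 (.cons 224 (.leaf 223 1784 (.leaf 201 1602 .nil)) .nil)) (.cons 252 (.leaf 253 1803 (.cons 224 (.leaf 223 1784 (.leaf 227 1792 .nil)) .nil)) (.cons 204 (.leaf 205 1610 (.cons 180 (.leaf 227 1437 (.cons 201 (.leaf 181 1417 (.leaf 177 1423 .nil)) .nil)) .nil)) .nil))) .nil)) .nil))) .nil)) (.cons 202 (.leaf 178 1428 (.cons 274 t76 .nil)) (.cons 202 (.leaf 178 1428 (.cons 203 (.cons 179 (.leaf 274 1429 (.cons 155 (.leaf 131 1046 (.leaf 227 1238 .nil)) .nil)) (.cons 225 (.cons 204 (.leaf 205 1610 (.cons 180 (.leaf 227 1437 (.cons 252 (.leaf 253 1803 (.leaf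 228 1438 .nil)) .nil)) .nil)) (.cons 204 (.leaf 205 1610 (.cons 227 (.leaf 224 1601 (.leaf 180 1437 .nil)) .nil)) (.cons 252 (.leaf 253 1803 (.cons 224 (.leaf 223 1784 (.leaf 249 1795 .nil)) .nil)) .nil))) (.cons 252 t0 .nil))) .nil)) (.cons 202 (.leaf 178 1428 (.cons 203 t14 .nil)) (.cons 202 (.leaf 178 1428 (.cons 204 t12 .nil)) (.cons 252 t90 (.cons 202 (.leaf 178 1428 (.cons 225 t89 .nil)) .nil)))))))
noncomputable def t92 : T := .cons 223 (.leaf 248 1787 (.cons 225 (.leaf 222 1776 (.leaf 226 1784 .nil)) .nil)) (.cons 225 (.leaf 252 1795 (.cons 223 (.leaf 222 1776 (.leaf 226 1784 .nil)) .nil)) (.cons 248 (.leaf 223 1787 (.cons 272 (.leaf 271 1978 (.cons 273 (.leaf 252 1986 (.cons 297 (.leaf 200 1604 (.leaf 321 1799 .nil)) .nil)) .nil)) .nil)) (.cons 225 (.leaf 252 1795 (.cons 273 (.cons 200 (.leaf 297 1607 (.cons 176 (.leaf 152 1220 (.leaf 201 1415 .nil)) .nil)) (.cons 297 (.leaf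 200 1607 (.cons 320 (.leaf 296 1798 (.cons 321 (.leaf 344 1990 (.cons 322 (.leaf 298 1804 (.leaf 346 1996 .nil)) .nil)) .nil)) .nil)) (.cons 201 (.cons 176 (.leaf 200 1415 (.cons 177 (.leaf 152 1223 (.cons 178 (.leaf 154 1229 (.leaf 202 1421 .nil)) .nil)) .nil)) (.cons 272 (.leaf 296 1606 (.cons 271 (.leaf 270 1969 (.leaf 248 1978 .nil)) .nil)) .nil)) (.cons 297 (.cons 296 (.leaf 320 1798 (.cons 272 (.leaf 201 1606 (.cons 271 (.leaf 270 1969 (.leaf 248 1978 .nil)) .nil)) .nil)) (.cons 226 (.leaf 202 1613 (.leaf 321 1805 .nil)) .nil)) .nil)))) .nil)) .nil)))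
noncomputable def t93 : T := .cons 224 (.leaf 225 1795 (.cons 248 (.leaf 223 1787 (.cons 228 (.leaf 227 1793 (.leaf 229 1801 .nil)) .nil)) .nil)) (.cons 225 (.leaf 224 1795 (.cons 253 (.leaf 226 1803 (.cons 230 (.leaf 229 1809 (.cons 254 (.leaf 231 1817 (.cons 278 (.leaf 277 2000 (.leaf 279 2008 .nil)) .nil)) .nil)) .nil)) .nil)) (.cons 253 (.cons 230 (.leaf 229 1809 (.cons 254 (.leaf 231 1817 (.cons 278 (.leaf 277 2000 (.leaf 279 2008 .nil)) .nil)) .nil)) (.cons 278 (.leaf 277 2000 (.cons 254 (.leaf 279 2008 (.cons 227 (.leaf 226 1811 (.cons 255 (.leaf 228 1819 (.cons 231 (.leaf 230 1817 (.leaf 232 1825 .nil)) .nil)) .nil)) .nil)) .nil)) (.cons 278 (.leaf 277 2000 (.cons 254 (.leaf 279 2008 (.cons 227 (.leaf 226 1811 (.cons 228 (.leaf 229 1801 (.leaf 255 1819 .nil)) .nil)) .nil)) .nil)) (.cons 229 (.leaf 228 1801 (.leaf 230 1809 .nil)) .nil)))) (.cons 225 (.leaf 224 1795 (.cons 226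 (.leaf 253 1803 (.cons 201 (.cons 177 (.leaf 153 1228 (.cons 176 (.leaf 152 1223 (.cons 200 (.leaf 273 1415 (.cons 199 (.leaf 198 1584 (.cons 178 (.leaf 179 1402 (.leaf 154 1229 .nil)) .nil)) .nil)) .nil)) .nil)) (.cons 177 (.leaf 153 1228 (.cons 178 (.leaf 202 1428 (.leaf 154 1229 .nil)) .nil)) (.cons 202 (.leaf 178 1428 (.cons 273 (.leaf 297 1613 (.cons 200 (.leaf 176 1415 (.cons 227 (.leaf 199 1592 (.leaf 228 1603 .nil)) .nil)) .nil)) .nil)) (.cons 177 (.leaf 153 1228 (.cons 176 (.leaf 152 1223 (.cons 273 (.leaf 200 1415 (.cons 297 (.leaf 202 1613 (.leaf 321 1805 .nil)) .nil)) .nil)) .nil)) .nil)))) .nil)) .nil)) .nil)))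
noncomputable def t94 : T := .cons 273 (.leaf 252 1986 (.cons 271 (.leaf 270 1969 (.leaf 248 1978 .nil)) .nil)) (.cons 252 (.cons 253 (.cons 230 (.leaf 229 1809 (.cons 254 (.leaf 231 1817 (.cons 278 (.leaf 277 2000 (.leaf 279 2008 .nil)) .nil)) .nil)) (.cons 278 (.leaf 277 2000 (.cons 254 (.leaf 279 2008 (.cons 227 (.leaf 226 1811 (.cons 255 (.leaf 228 1819 (.cons 231 (.leaf 230 1817 (.leaf 232 1825 .nil)) .nil)) .nil)) .nil)) .nil)) (.cons 278 (.leaf 277 2000 (.cons 254 (.leaf 279 2008 (.cons 227 (.leaf 226 1811 (.cons 228 (.leaf 229 1801 (.leaf 255 1819 .nil)) .nil)) .nil)) .nil)) (.cons 229 (.leaf 228 1801 (.leaf 230 1809 .nil)) .nil)))) (.leaf 273 1986 .nil)) (.cons 248 (.leaf 271 1978 (.cons 227 (.leaf 228 1793 (.cons 226 (.leaf 247 1785 (.cons 203 (.cons 202 (.leaf 178 1428 (.cons 204 (.leaf 180 1437 (.cons 205 (.leaf 225 1610 (.leaf 206 1618 .nil)) .nil)) .nil)) (.cons 179 (.leaf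 155 1238 (.cons 180 (.leaf 156 1245 (.leaf 204 1437 .nil)) .nil)) (.cons 179 (.leaf 155 1238 (.cons 178 (.leaf 202 1428 (.leaf 154 1239 .nil)) .nil)) .nil))) .nil)) .nil)) .nil)) .nil))
noncomputable def t95 : T := .cons 178 (.cons 202 (.leaf 273 1421 (.cons 154 (.leaf 177 1229 (.leaf 130 1038 .nil)) .nil)) (.cons 177 (.leaf 154 1229 (.cons 176 (.leaf 152 1223 (.cons 200 (.leaf 273 1415 (.cons 179 (.leaf 199 1402 (.leaf 180 1410 .nil)) .nil)) .nil)) .nil)) (.cons 154 (.leaf 177 1229 (.cons 202 (.leaf 130 1038 (.cons 203 (.leaf 227 1431 (.cons 224 (.leaf 204 1602 (.cons 223 (.leaf 222 1776 (.leaf 200 1594 .nil)) .nil)) .nil)) .nil)) .nil)) (.cons 273 (.leaf 202 1421 (.cons 200 (.leaf 176 1415 (.cons 297 (.leaf 224 1607 (.cons 296 (.leaf 272 1606 (.leaf 320 1798 .nil)) .nil)) .nil)) .nil)) .nil)))) (.cons 273 (.cons 176 (.leaf 200 1415 (.cons 177 (.leaf 152 1223 (.cons 178 (.leaf 154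 1229 (.leaf 202 1421 .nil)) .nil)) .nil)) (.cons 272 (.leaf 252 1986 (.leaf 296 1606 .nil)) .nil)) (.cons 252 (.leaf 224 1795 (.cons 177 (.cons 152 (.leaf 176 1223 (.cons 153 (.leaf 128 1031 (.cons 154 (.leaf 130 1037 (.leaf 178 1229 .nil)) .nil)) .nil)) (.cons 176 (.leaf 152 1223 (.cons 228 (.leaf 229 1801 (.cons 204 (.leaf 180 1438 (.cons 203 (.leaf 202 1411 (.cons 179 (.leaf 178 1408 (.cons 155 (.leaf 131 1052 (.leaf 227 1244 .nil)) .nil)) .nil)) .nil)) .nil)) .nil)) (.cons 152 (.leaf 176 1223 (.cons 153 (.leaf 128 1031 (.cons 154 (.leaf 130 1037 (.cons 228 (.leaf 229 1801 (.cons 180 (.leaf 204 1438 (.cons 155 (.leaf 179 1216 (.cons 132 (.leaf 131 1025 (.cons 156 (.leaf 181 1224 (.leaf 133 1033 .nil)) .nil)) .nil)) .nil)) .nil)) .nil)) .nil)) .nil)) (.cons 178 (.leaf 154 1229 (.cons 228 (.leaf 229 1801 (.cons 180 (.leaf 204 1438 (.cons 179 (.leaf 200 1410 (.cons 181 (.leaf 202 1418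 (.cons 157 (.leaf 156 1225 (.leaf 158 1233 .nil)) .nil)) .nil)) .nil)) .nil)) .nil)) .nil)))) .nil)) (.cons 273 (.cons 200 (.leaf 176 1415 (.cons 297 (.leaf 224 1607 (.cons 296 (.leaf 272 1606 (.leaf 320 1798 .nil)) .nil)) .nil)) (.cons 272 (.leaf 252 1986 (.leaf 296 1606 .nil)) (.cons 200 (.leaf 176 1415 (.cons 224 (.leaf 252 1795 (.leaf 297 1607 .nil)) .nil)) .nil))) (.cons 252 (.leaf 224 1795 (.cons 180 (.cons 228 (.leaf 229 1801 (.leaf 204 1438 .nil)) (.cons 273 (.leaf 272 1986 (.cons 178 (.leaf 202 1421 (.cons 177 (.leaf 154 1229 (.cons 179 (.leaf 200 1410 (.cons 157 (.leaf 156 1225 (.cons 181 (.leaf 158 1233 (.cons 205 (.leaf 204 1416 (.leaf 206 1424 .nil)) .nil)) .nil)) .nil)) .nil)) .nil)) .nil)) (.cons 273 (.leaf 272 1986 (.cons 178 (.leaf 202 1421 (.cons 177 (.leaf 154 1229 (.cons 179 (.leaf 200 1410 (.cons 157 (.leaf 156 1225 (.cons 181 (.leaf 158 1233 (.cons 205 (.leaf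 206 1424 (.cons 229 (.leaf 228 1801 (.cons 230 (.leaf 253 1809 (.leaf 254 1260 .nil)) .nil)) .nil)) .nil)) .nil)) .nil)) .nil)) .nil)) .nil)) .nil))) .nil)) (.cons 252 (.leaf 224 1795 (.cons 273 (.leaf 272 1986 (.cons 178 (.leaf 202 1421 (.cons 177 (.leaf 154 1229 (.cons 152 (.leaf 176 1223 (.cons 153 (.leaf 128 1031 (.cons 180 (.leaf 179 1219 (.cons 228 (.leaf 229 1801 (.leaf 204 1438 .nil)) .nil)) .nil)) .nil)) .nil)) .nil)) .nil)) .nil)) .nil)))))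
noncomputable def t96 : T := .cons 252 (.cons 253 (.cons 230 (.leaf 229 1809 (.cons 254 (.leaf 231 1817 (.cons 278 (.leaf 277 2000 (.leaf 279 2008 .nil)) .nil)) .nil)) (.cons 278 (.leaf 277 2000 (.cons 254 (.leaf 279 2008 (.cons 227 (.leaf 226 1803 (.cons 255 (.leaf 228 1819 (.cons 231 (.leaf 230 1817 (.leaf 232 1825 .nil)) .nil)) .nil)) .nil)) .nil)) (.cons 278 (.leaf 277 2000 (.cons 254 (.leaf 279 2008 (.cons 227 (.leaf 226 1803 (.cons 228 (.leaf 229 1801 (.leaf 255 1819 .nil)) .nil)) .nil)) .nil)) (.cons 229 (.leaf 228 1801 (.leaf 230 1809 .nil)) .nil)))) (.leaf 272 1986 .nil)) (.cons 201 (.cons 176 (.leaf 200 1415 (.cons 177 (.leaf 152 1223 (.cons 178 (.leaf 154 1229 (.leaf 202 1421 .nil)) .nil)) .nil)) (.cons 176 (.leaf 200 1415 (.cons 177 (.leaf 152 1223 (.cons 154 (.leaf 178 1229 (.cons 153 (.leaf 226 1228 (.leaf 130 1037 .nil)) .nil)) .nil)) .nil)) (.cons 176 (.leaf 200 1415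 (.cons 177 (.leaf 152 1223 (.cons 226 (.leaf 153 1228 (.cons 297 (.leaf 202 1613 (.leaf 321 1805 .nil)) .nil)) .nil)) .nil)) (.cons 202 (.leaf 178 1421 (.cons 297 (.leaf 226 1613 (.cons 320 (.leaf 296 1798 (.cons 321 (.leaf 344 1990 (.cons 322 (.leaf 298 1804 (.leaf 346 1996 .nil)) .nil)) .nil)) .nil)) .nil)) .nil)))) (.cons 272 (.leaf 252 1986 (.cons 296 (.leaf 201 1606 (.cons 320 (.leaf 344 1989 (.leaf 297 1798 .nil)) .nil)) .nil)) .nil))
noncomputable def t97 : T := .cons 177 (.cons 152 (.leaf 176 1223 (.cons 153 (.leaf 128 1031 (.cons 154 (.leaf 130 1037 (.leaf 178 1229 .nil)) .nil)) .nil)) (.cons 176 (.leaf 152 1223 (.cons 178 (.leaf 154 1229 (.cons 202 (.leaf 226 1428 (.cons 203 (.leaf 175 1400 (.leaf 204 1411 .nil)) .nil)) .nil)) .nil)) (.cons 152 (.leaf 176 1223 (.cons 153 (.leaf 226 1228 (.leaf 128 1031 .nil)) .nil)) (.cons 178 (.leaf 154 1229 (.cons 226 (.leaf 153 1228 (.leaf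 202 1428 .nil)) .nil)) .nil)))) (.cons 178 (.cons 202 (.leaf 273 1421 (.cons 154 (.leaf 177 1229 (.leaf 130 1038 .nil)) .nil)) (.cons 177 (.leaf 154 1229 (.cons 176 (.leaf 152 1223 (.cons 200 (.leaf 273 1415 (.cons 179 (.leaf 199 1402 (.leaf 180 1410 .nil)) .nil)) .nil)) .nil)) (.cons 154 (.leaf 177 1229 (.cons 202 (.leaf 130 1038 (.cons 203 (.leaf 227 1431 (.cons 224 (.leaf 204 1602 (.cons 223 (.leaf 222 1776 (.leaf 200 1594 .nil)) .nil)) .nil)) .nil)) .nil)) (.cons 273 (.leaf 202 1421 (.cons 200 (.leaf 176 1415 (.cons 297 (.leaf 224 1607 (.cons 296 (.leaf 272 1606 (.leaf 320 1798 .nil)) .nil)) .nil)) .nil)) .nil)))) (.cons 273 (.cons 200 (.leaf 176 1415 (.cons 297 (.leaf 224 1607 (.cons 296 (.leaf 272 1606 (.leaf 320 1798 .nil)) .nil)) .nil)) (.cons 296 (.leaf 272 1606 (.cons 297 (.leaf 320 1798 (.cons 226 (.leaf 202 1613 (.leaf 321 1805 .nil)) .nil)) .nil)) (.cons 177 (.cons 176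 (.leaf 152 1223 (.leaf 200 1415 .nil)) (.cons 153 (.leaf 226 1228 (.cons 128 (.leaf 152 1031 (.cons 129 (.leaf 104 839 (.cons 130 (.leaf 106 845 (.leaf 154 1037 .nil)) .nil)) .nil)) .nil)) (.cons 153 (.leaf 226 1228 (.cons 130 (.leaf 154 1037 (.cons 129 (.leaf 106 845 (.cons 200 (.leaf 224 1030 (.leaf 176 1415 .nil)) .nil)) .nil)) .nil)) .nil))) .nil))) (.cons 177 (.cons 152 (.leaf 176 1223 (.cons 153 (.leaf 226 1228 (.leaf 128 1031 .nil)) .nil)) (.cons 176 (.leaf 152 1223 (.cons 200 (.leaf 273 1415 (.cons 178 (.leaf 154 1229 (.cons 179 (.leaf 199 1402 (.leaf 180 1410 .nil)) .nil)) .nil)) .nil)) (.cons 154 (.leaf 178 1229 (.cons 153 (.leaf 226 1228 (.leaf 130 1037 .nil)) .nil)) .nil))) (.cons 273 (.cons 200 (.leaf 176 1415 (.cons 297 (.leaf 224 1607 (.cons 296 (.leaf 272 1606 (.leaf 320 1798 .nil)) .nil)) .nil)) (.cons 296 (.leaf 272 1606 (.cons 297 (.leaf 320 1798 (.cons 202 (.leaf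 178 1421 (.leaf 226 1613 .nil)) .nil)) .nil)) (.cons 224 (.cons 223 (.leaf 222 1776 (.leaf 226 1784 .nil)) (.cons 202 (.leaf 178 1421 (.cons 203 (.leaf 204 1602 (.cons 223 (.leaf 222 1776 (.leaf 200 1594 .nil)) .nil)) .nil)) (.cons 200 (.leaf 176 1415 (.cons 202 (.leaf 178 1421 (.cons 203 (.leaf 204 1602 (.cons 179 (.leaf 180 1409 (.cons 227 (.leaf 228 1600 (.cons 226 (.leaf 199 1592 (.leaf 155 1238 .nil)) .nil)) .nil)) .nil)) .nil)) .nil)) .nil))) .nil))) (.cons 226 (.cons 177 (.leaf 153 1228 (.cons 178 (.leaf 202 1428 (.leaf 154 1229 .nil)) .nil)) (.cons 227 (.cons 228 (.leaf 229 1802 (.cons 204 (.leaf 205 1609 (.cons 180 (.leaf 203 1437 (.leaf 156 1246 .nil)) .nil)) .nil)) (.cons 200 (.leaf 228 1603 (.cons 199 (.leaf 198 1584 (.leaf 224 1595 .nil)) .nil)) (.cons 224 (.leaf 223 1784 (.cons 200 (.leaf 199 1595 (.cons 203 (.leaf 204 1601 (.cons 179 (.leaf 155 1238 (.cons 180 (.leaf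 202 1409 (.leaf 156 1245 .nil)) .nil)) .nil)) .nil)) .nil)) .nil))) (.cons 227 (.cons 228 (.leaf 229 1802 (.cons 204 (.leaf 205 1609 (.cons 180 (.leaf 203 1437 (.leaf 156 1246 .nil)) .nil)) .nil)) (.cons 200 (.leaf 228 1603 (.cons 199 (.leaf 198 1584 (.leaf 224 1595 .nil)) .nil)) (.cons 177 (.leaf 153 1228 (.cons 178 (.leaf 154 1229 (.cons 224 (.leaf 223 1784 (.cons 200 (.leaf 199 1595 (.cons 179 (.leaf 180 1410 (.cons 203 (.leaf 204 1601 (.leaf 155 1238 .nil)) .nil)) .nil)) .nil)) .nil)) .nil)) .nil))) .nil))) .nil)))))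
noncomputable def t98 : T := .cons 248 (.cons 271 (.leaf 272 1978 (.cons 247 (.leaf 270 1970 (.cons 227 (.leaf 226 1785 (.leaf 228 1793 .nil)) .nil)) .nil)) (.cons 223 (.leaf 224 1787 (.cons 247 (.leaf 222 1779 (.cons 227 (.leaf 226 1785 (.leaf 228 1793 .nil)) .nil)) .nil)) (.cons 224 (.leaf 223 1787 (.cons 225 (.leaf 252 1795 (.cons 272 (.leaf 271 1978 (.cons 201 (.leaf 296 1605 (.leaf 177 1414 .nil)) .nil)) .nil)) .nil)) .nil))) (.cons 248 (.cons 271 (.leaf 272 1978 (.cons 247 (.leaf 270 1970 (.cons 227 (.leaf 226 1785 (.leaf 228 1793 .nil)) .nil)) .nil)) (.cons 223 (.leaf 224 1787 (.cons 247 (.leaf 222 1779 (.cons 227 (.leaf 226 1785 (.leaf 228 1793 .nil)) .nil)) .nil)) (.cons 224 (.leaf 223 1787 (.cons 200 (.cons 273 (.leaf 176 1412 (.cons 297 (.leaf 225 1607 (.leaf 321 1799 .nil)) .nil)) (.cons 272 (.leaf 271 1978 (.cons 175 (.leaf 199 1407 (.cons 176 (.leaf 151 1215 (.cons 177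 (.leaf 153 1221 (.leaf 201 1413 .nil)) .nil)) .nil)) .nil)) (.cons 272 (.leaf 271 1978 (.cons 201 (.leaf 177 1413 (.cons 296 (.leaf 225 1605 (.cons 297 (.leaf 273 1604 (.leaf 321 1796 .nil)) .nil)) .nil)) .nil)) .nil))) .nil)) .nil))) (.cons 225 (.cons 224 (.leaf 252 1795 (.cons 223 (.leaf 222 1776 (.leaf 226 1784 .nil)) .nil)) (.cons 201 t97 (.cons 273 t96 (.cons 201 t95 .nil)))) (.cons 272 t94 (.cons 248 (.cons 223 (.leaf 224 1787 (.cons 247 (.leaf 222 1779 (.cons 271 (.leaf 270 1970 (.leaf 272 1978 .nil)) .nil)) .nil)) (.cons 272 (.leaf 271 1978 (.cons 252 (.leaf 273 1986 (.cons 228 (.leaf 227 1793 (.leaf 229 1801 .nil)) .nil)) .nil)) (.cons 224 (.leaf 223 1787 (.cons 252 (.leaf 225 1795 (.cons 228 (.leaf 227 1793 (.leaf 229 1801 .nil)) .nil)) .nil)) .nil))) (.cons 252 t93 (.cons 224 t92 (.cons 248 (.cons 223 (.leaf 224 1787 (.cons 247 (.leaf 222 1779 (.cons 271 (.leaf 270 1970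 (.leaf 272 1978 .nil)) .nil)) .nil)) (.cons 223 (.leaf 224 1787 (.cons 247 (.leaf 222 1779 (.cons 227 (.leaf 226 1785 (.leaf 228 1793 .nil)) .nil)) .nil)) (.cons 272 (.leaf 271 1978 (.cons 252 (.leaf 273 1986 (.cons 228 (.leaf 227 1793 (.leaf 229 1801 .nil)) .nil)) .nil)) .nil))) .nil)))))))
noncomputable def t99 : T := .cons 274 (.cons 273 (.leaf 297 1614 (.cons 252 (.leaf 272 1985 (.leaf 253 1994 .nil)) .nil)) (.cons 201 (.leaf 177 1423 (.cons 298 (.leaf 225 1615 (.cons 322 (.leaf 227 1813 (.leaf 346 2005 .nil)) .nil)) .nil)) .nil)) (.cons 274 (.cons 273 (.leaf 297 1614 (.cons 252 (.leaf 272 1985 (.leaf 253 1994 .nil)) .nil)) (.cons 201 (.leaf 177 1423 (.cons 203 (.leaf 179 1429 (.cons 227 (.leaf 298 1621 (.cons 228 (.leaf 200 1600 (.leaf 229 1611 .nil)) .nil)) .nil)) .nil)) .nil)) (.cons 274 (.cons 297 (.leaf 273 1614 (.cons 298 (.leaf 321 1806 (.cons 322 (.leaf 227 1813 (.leaf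 346 2005 .nil)) .nil)) .nil)) (.cons 201 (.leaf 177 1423 (.cons 298 (.leaf 225 1615 (.cons 321 (.leaf 297 1806 (.cons 322 (.leaf 346 2005 (.leaf 345 1998 .nil)) .nil)) .nil)) .nil)) (.cons 227 (.cons 201 (.leaf 177 1423 (.cons 228 (.leaf 229 1611 (.cons 200 (.leaf 199 1592 (.leaf 225 1603 .nil)) .nil)) .nil)) (.cons 203 (.leaf 179 1429 (.cons 204 (.leaf 180 1437 (.cons 205 (.leaf 225 1610 (.leaf 206 1618 .nil)) .nil)) .nil)) (.cons 203 (.leaf 179 1429 (.cons 201 (.leaf 177 1423 (.cons 228 (.leaf 200 1600 (.leaf 229 1611 .nil)) .nil)) .nil)) .nil))) .nil))) (.cons 204 t12 (.cons 274 (.cons 201 (.leaf 177 1423 (.cons 225 (.leaf 298 1615 (.cons 224 (.leaf 223 1784 (.cons 203 (.leaf 204 1602 (.leaf 179 1429 .nil)) .nil)) .nil)) .nil)) (.cons 273 (.leaf 297 1614 (.cons 252 (.leaf 272 1985 (.leaf 253 1994 .nil)) .nil)) .nil)) (.cons 274 (.cons 273 (.leaf 297 1614 (.cons 252 (.leaf 272 1985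 (.leaf 253 1994 .nil)) .nil)) (.cons 203 (.leaf 179 1429 (.cons 227 (.leaf 298 1621 (.cons 204 (.leaf 180 1437 (.cons 205 (.leaf 225 1610 (.leaf 206 1618 .nil)) .nil)) .nil)) .nil)) .nil)) .nil)))))
noncomputable def t100 : T := .cons 201 (.cons 180 (.leaf 181 1417 (.cons 228 (.leaf 229 1608 (.leaf 252 1438 .nil)) .nil)) (.cons 176 (.leaf 177 1411 (.cons 200 (.leaf 175 1403 (.cons 224 (.leaf 223 1594 (.leaf 225 1602 .nil)) .nil)) .nil)) .nil)) (.cons 205 (.cons 182 (.leaf 181 1425 (.cons 206 (.leaf 183 1433 (.cons 230 (.leaf 229 1616 (.leaf 231 1624 .nil)) .nil)) .nil)) (.cons 178 (.leaf 177 1419 (.cons 206 (.leaf 179 1427 (.cons 230 (.leaf 229 1616 (.leaf 231 1624 .nil)) .nil)) .nil)) (.cons 178 (.leaf 177 1419 (.cons 206 (.leaf 179 1427 (.cons 182 (.leaf 181 1425 (.leaf 183 1433 .nil)) .nil)) .nil)) (.cons 180 (.cons 228 (.leaf 252 1438 (.cons 229 (.leaf 230 1616 (.cons 253 (.leaf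 156 1252 (.leaf 277 1447 .nil)) .nil)) .nil)) (.cons 228 (.leaf 252 1438 (.cons 181 (.leaf 182 1425 (.cons 157 (.leaf 133 1062 (.cons 178 (.leaf 177 1419 (.cons 179 (.leaf 158 1233 (.cons 131 (.leaf 155 1052 (.cons 154 (.leaf 153 1227 (.cons 130 (.leaf 106 852 (.leaf 107 853 .nil)) .nil)) .nil)) .nil)) .nil)) .nil)) .nil)) .nil)) (.cons 181 (.leaf 182 1425 (.cons 229 (.leaf 230 1616 (.cons 253 (.leaf 156 1255 (.leaf 277 1447 .nil)) .nil)) .nil)) .nil))) .nil)))) (.cons 205 (.cons 182 (.leaf 181 1425 (.cons 206 (.leaf 183 1433 (.cons 230 (.leaf 229 1616 (.leaf 231 1624 .nil)) .nil)) .nil)) (.cons 178 (.leaf 177 1419 (.cons 206 (.leaf 179 1427 (.cons 182 (.leaf 181 1425 (.leaf 183 1433 .nil)) .nil)) .nil)) (.cons 177 (.leaf 178 1419 (.cons 201 (.leaf 176 1411 (.cons 229 (.leaf 228 1608 (.leaf 230 1616 .nil)) .nil)) .nil)) .nil))) (.cons 201 (.cons 176 (.leaf 177 1411 (.cons 200 (.leaf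 175 1403 (.cons 224 (.leaf 223 1594 (.leaf 225 1602 .nil)) .nil)) .nil)) (.cons 177 (.leaf 176 1411 (.cons 205 (.leaf 178 1419 (.cons 229 (.leaf 228 1608 (.leaf 230 1616 .nil)) .nil)) .nil)) (.cons 224 (.leaf 225 1602 (.cons 200 (.leaf 223 1594 (.cons 180 (.leaf 179 1409 (.cons 228 (.leaf 229 1608 (.leaf 252 1438 .nil)) .nil)) .nil)) .nil)) .nil))) (.cons 180 (.cons 181 (.leaf 201 1417 (.cons 182 (.leaf 205 1425 (.leaf 179 1426 .nil)) .nil)) (.cons 228 (.leaf 252 1438 (.cons 201 (.leaf 229 1608 (.leaf 181 1417 .nil)) .nil)) (.cons 228 (.leaf 252 1438 (.cons 229 (.leaf 201 1608 (.cons 230 (.leaf 205 1616 (.leaf 231 1627 .nil)) .nil)) .nil)) (.cons 205 (.cons 228 (.leaf 252 1438 (.cons 229 (.leaf 230 1616 (.cons 253 (.leaf 156 1252 (.leaf 277 1447 .nil)) .nil)) .nil)) (.cons 182 (.leaf 181 1425 (.cons 206 (.leaf 183 1433 (.cons 179 (.leaf 178 1427 (.leaf 207 1435 .nil)) .nil)) .nil))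 .nil)) .nil)))) (.cons 201 (.cons 176 (.leaf 177 1411 (.cons 200 (.leaf 175 1403 (.cons 224 (.leaf 223 1594 (.leaf 225 1602 .nil)) .nil)) .nil)) (.cons 177 (.leaf 176 1411 (.cons 205 (.leaf 178 1419 (.cons 181 (.leaf 180 1417 (.leaf 182 1425 .nil)) .nil)) .nil)) (.cons 224 (.leaf 225 1602 (.cons 200 (.leaf 223 1594 (.cons 180 (.leaf 179 1409 (.leaf 181 1417 .nil)) .nil)) .nil)) .nil))) .nil)))))
noncomputable def t101 : T := .cons 227 (.leaf 178 1431 (.cons 204 (.leaf 180 1437 (.cons 205 (.cons 182 (.leaf 181 1425 (.cons 206 (.leaf 183 1433 (.cons 230 (.leaf 229 1616 (.leaf 231 1624 .nil)) .nil)) .nil)) (.cons 182 (.leaf 181 1425 (.cons 206 (.leaf 183 1433 (.cons 207 (.leaf 228 1626 (.cons 231 (.leaf 230 1624 (.leaf 232 1632 .nil)) .nil)) .nil)) .nil)) (.cons 182 (.leaf 181 1425 (.cons 206 (.leaf 183 1433 (.cons 228 (.leaf 207 1626 (.cons 201 (.leaf 200 1600 (.leaf 229 1608 .nil))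 .nil)) .nil)) .nil)) (.cons 229 (.leaf 230 1616 (.cons 201 (.leaf 228 1608 (.cons 176 (.leaf 177 1411 (.cons 200 (.leaf 175 1403 (.cons 224 (.leaf 223 1594 (.leaf 225 1602 .nil)) .nil)) .nil)) .nil)) .nil)) .nil)))) .nil)) .nil)) (.cons 204 t100 (.cons 227 (.leaf 178 1431 (.cons 274 (.leaf 179 1430 (.leaf 298 1622 .nil)) .nil)) (.cons 227 (.cons 274 (.leaf 179 1430 (.leaf 298 1622 .nil)) (.cons 204 (.leaf 180 1437 (.cons 205 (.cons 182 (.leaf 181 1425 (.cons 206 (.leaf 183 1433 (.cons 230 (.leaf 229 1616 (.leaf 231 1624 .nil)) .nil)) .nil)) (.cons 182 (.leaf 181 1425 (.cons 206 (.leaf 183 1433 (.cons 207 (.leaf 228 1626 (.cons 231 (.leaf 230 1624 (.leaf 232 1632 .nil)) .nil)) .nil)) .nil)) (.cons 182 (.leaf 181 1425 (.cons 206 (.leaf 183 1433 (.cons 228 (.leaf 207 1626 (.cons 201 (.leaf 200 1600 (.leaf 229 1608 .nil)) .nil)) .nil)) .nil)) (.cons 229 (.leaf 230 1616 (.cons 201 (.leaf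 228 1608 (.cons 176 (.leaf 177 1411 (.cons 200 (.leaf 175 1403 (.cons 224 (.leaf 223 1594 (.leaf 225 1602 .nil)) .nil)) .nil)) .nil)) .nil)) .nil)))) .nil)) .nil)) .nil)))
noncomputable def t102 : T := .cons 226 (.leaf 178 1428 (.cons 274 (.cons 273 (.leaf 297 1614 (.cons 252 (.leaf 272 1985 (.leaf 253 1994 .nil)) .nil)) (.cons 201 (.leaf 177 1423 (.cons 298 (.leaf 225 1615 (.cons 322 (.leaf 227 1813 (.leaf 346 2005 .nil)) .nil)) .nil)) .nil)) .nil)) (.cons 226 (.leaf 178 1428 (.cons 274 (.cons 297 (.leaf 273 1614 (.cons 298 (.leaf 321 1806 (.cons 322 (.leaf 227 1813 (.leaf 346 2005 .nil)) .nil)) .nil)) (.cons 201 (.leaf 177 1423 (.cons 298 (.leaf 225 1615 (.cons 321 (.leaf 297 1806 (.cons 322 (.leaf 346 2005 (.leaf 345 1998 .nil)) .nil)) .nil)) .nil)) (.cons 227 (.cons 201 (.leaf 177 1423 (.cons 228 (.leaf 229 1611 (.cons 200 (.leaf 199 1592 (.leaf 225 1603 .nil)) .nil)) .nil)) (.cons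 203 (.leaf 179 1429 (.cons 204 (.leaf 180 1437 (.cons 205 (.leaf 225 1610 (.leaf 206 1618 .nil)) .nil)) .nil)) (.cons 203 (.leaf 179 1429 (.cons 201 (.leaf 177 1423 (.cons 228 (.leaf 200 1600 (.leaf 229 1611 .nil)) .nil)) .nil)) .nil))) .nil))) .nil)) (.cons 203 t101 (.cons 226 t99 (.cons 226 (.leaf 178 1428 (.cons 274 (.cons 201 (.leaf 177 1423 (.cons 225 (.leaf 298 1615 (.cons 224 (.leaf 223 1784 (.cons 203 (.leaf 204 1602 (.leaf 179 1429 .nil)) .nil)) .nil)) .nil)) (.cons 273 (.leaf 297 1614 (.cons 252 (.leaf 272 1985 (.leaf 253 1994 .nil)) .nil)) .nil)) .nil)) (.cons 226 (.leaf 178 1428 (.cons 274 (.cons 273 (.leaf 297 1614 (.cons 252 (.leaf 272 1985 (.leaf 253 1994 .nil)) .nil)) (.cons 203 (.leaf 179 1429 (.cons 227 (.leaf 298 1621 (.cons 204 (.leaf 180 1437 (.cons 205 (.leaf 225 1610 (.leaf 206 1618 .nil)) .nil)) .nil)) .nil)) .nil)) .nil)) (.cons 178 (.leaf 226 1428 (.cons 203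 (.leaf 227 1431 (.cons 204 (.cons 177 (.leaf 205 1419 (.cons 176 (.leaf 175 1400 (.leaf 179 1408 .nil)) .nil)) (.cons 177 (.leaf 205 1419 (.cons 176 (.leaf 175 1400 (.leaf 201 1411 .nil)) .nil)) (.cons 205 (.cons 181 (.leaf 182 1425 (.cons 201 (.leaf 180 1417 (.cons 229 (.leaf 228 1608 (.leaf 230 1616 .nil)) .nil)) .nil)) (.cons 206 (.leaf 179 1427 (.cons 230 (.leaf 229 1616 (.leaf 231 1624 .nil)) .nil)) (.cons 206 (.leaf 179 1427 (.cons 182 (.leaf 181 1425 (.leaf 183 1433 .nil)) .nil)) .nil))) (.cons 201 (.cons 176 (.leaf 177 1411 (.cons 200 (.leaf 175 1403 (.cons 223 (.leaf 224 1594 (.cons 199 (.leaf 179 1401 (.leaf 222 1586 .nil)) .nil)) .nil)) .nil)) (.cons 180 (.leaf 181 1417 (.cons 228 (.leaf 229 1608 (.leaf 252 1438 .nil)) .nil)) .nil)) .nil)))) .nil)) .nil)) .nil))))))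
noncomputable def t103 : T := .cons 274 (.leaf 177 1420 (.cons 298 (.leaf 273 1612 (.leaf 322 1807 .nil)) .nil)) (.cons 177 (.leaf 274 1420 (.cons 152 (.leaf 176 1223 (.cons 153 (.leaf 128 1031 (.cons 154 (.leaf 130 1037 (.leaf 178 1229 .nil)) .nil)) .nil)) .nil)) (.cons 178 (.cons 202 (.leaf 273 1421 (.cons 154 (.leaf 177 1229 (.leaf 130 1038 .nil)) .nil)) (.cons 177 (.leaf 154 1229 (.cons 176 (.leaf 152 1223 (.cons 200 (.leaf 273 1415 (.cons 179 (.leaf 199 1402 (.leaf 180 1410 .nil)) .nil)) .nil)) .nil)) (.cons 154 (.leaf 177 1229 (.cons 202 (.leaf 130 1038 (.cons 203 (.leaf 227 1431 (.cons 224 (.leaf 204 1602 (.cons 223 (.leaf 222 1776 (.leaf 200 1594 .nil)) .nil)) .nil)) .nil)) .nil)) (.cons 273 (.leaf 202 1421 (.cons 200 (.leaf 176 1415 (.cons 297 (.leaf 224 1607 (.cons 296 (.leaf 272 1606 (.leaf 320 1798 .nil)) .nil)) .nil)) .nil)) .nil)))) (.cons 273 (.cons 200 (.leaf 176 1415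 (.cons 297 (.leaf 224 1607 (.cons 298 (.leaf 274 1612 (.leaf 322 1804 .nil)) .nil)) .nil)) (.cons 200 (.leaf 176 1415 (.cons 297 (.leaf 224 1607 (.cons 296 (.leaf 272 1606 (.leaf 320 1798 .nil)) .nil)) .nil)) (.cons 272 (.leaf 296 1606 (.cons 271 (.leaf 270 1969 (.leaf 274 1977 .nil)) .nil)) .nil))) .nil)))
noncomputable def t104 : T := .cons 252 (.leaf 224 1795 (.cons 229 (.leaf 228 1801 (.cons 253 (.leaf 230 1809 (.cons 254 (.leaf 274 2002 (.cons 278 (.leaf 277 2000 (.leaf 279 2008 .nil)) .nil)) .nil)) .nil)) .nil)) (.cons 201 t95 (.cons 201 t103 (.cons 273 (.cons 272 (.leaf 252 1986 (.cons 271 (.leaf 270 1969 (.leaf 274 1977 .nil)) .nil)) (.cons 272 (.leaf 252 1986 (.cons 296 (.leaf 201 1606 (.cons 320 (.leaf 344 1989 (.leaf 297 1798 .nil)) .nil)) .nil)) (.cons 297 (.cons 320 (.leaf 296 1798 (.cons 321 (.leaf 344 1990 (.cons 322 (.leaf 298 1804 (.leaf 346 1996 .nil)) .nil)) .nil))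 (.cons 320 (.leaf 296 1798 (.cons 321 (.leaf 344 1990 (.cons 345 (.leaf 274 1997 (.cons 346 (.leaf 322 1996 (.leaf 370 2188 .nil)) .nil)) .nil)) .nil)) (.cons 320 (.leaf 296 1798 (.cons 321 (.leaf 344 1990 (.cons 274 (.leaf 345 1997 (.cons 201 (.leaf 177 1420 (.leaf 298 1612 .nil)) .nil)) .nil)) .nil)) (.cons 298 (.leaf 322 1804 (.cons 201 (.leaf 274 1612 (.cons 176 (.leaf 200 1415 (.cons 177 (.leaf 152 1223 (.cons 178 (.leaf 154 1229 (.leaf 202 1421 .nil)) .nil)) .nil)) .nil)) .nil)) .nil)))) .nil))) .nil)))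
noncomputable def t105 : T := .cons 248 (.cons 223 (.leaf 224 1787 (.cons 247 (.leaf 222 1779 (.cons 271 (.leaf 270 1970 (.leaf 272 1978 .nil)) .nil)) .nil)) (.cons 272 (.leaf 271 1978 (.cons 252 (.leaf 273 1986 (.cons 228 (.leaf 227 1793 (.leaf 229 1801 .nil)) .nil)) .nil)) (.cons 224 (.leaf 223 1787 (.cons 252 (.leaf 225 1795 (.cons 228 (.leaf 227 1793 (.leaf 229 1801 .nil)) .nil)) .nil)) .nil))) (.cons 248 (.cons 224 (.leaf 223 1787 (.cons 200 (.cons 273 (.leaf 176 1412 (.cons 297 (.leaf 225 1607 (.leaf 321 1799 .nil)) .nil)) (.cons 272 (.leaf 271 1978 (.cons 175 (.leaf 199 1407 (.cons 176 (.leaf 151 1215 (.cons 177 (.leaf 153 1221 (.leaf 201 1413 .nil)) .nil)) .nil)) .nil)) (.cons 272 (.leaf 271 1978 (.cons 201 (.leaf 177 1413 (.cons 296 (.leaf 225 1605 (.cons 297 (.leaf 273 1604 (.leaf 321 1796 .nil)) .nil)) .nil)) .nil)) .nil))) .nil)) (.cons 223 (.leaf 224 1787 (.cons 247 (.leaf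 274 1976 (.leaf 222 1779 .nil)) .nil)) (.cons 271 (.leaf 272 1978 (.cons 247 (.leaf 274 1976 (.leaf 270 1970 .nil)) .nil)) .nil))) (.cons 225 t104 (.cons 248 (.cons 224 (.leaf 223 1787 (.cons 252 (.leaf 225 1795 (.cons 228 (.leaf 227 1793 (.leaf 229 1801 .nil)) .nil)) .nil)) (.cons 223 (.leaf 224 1787 (.cons 247 (.leaf 274 1976 (.leaf 222 1779 .nil)) .nil)) (.cons 227 (.leaf 228 1793 (.cons 274 (.leaf 247 1976 (.cons 203 (.leaf 179 1430 (.leaf 298 1622 .nil)) .nil)) .nil)) .nil))) (.cons 248 (.cons 272 (.leaf 271 1978 (.cons 252 (.leaf 273 1986 (.cons 228 (.leaf 227 1793 (.leaf 229 1801 .nil)) .nil)) .nil)) (.cons 271 (.leaf 272 1978 (.cons 247 (.leaf 274 1976 (.leaf 270 1970 .nil)) .nil)) (.cons 227 (.leaf 228 1793 (.cons 274 (.leaf 247 1976 (.cons 203 (.leaf 179 1430 (.leaf 298 1622 .nil)) .nil)) .nil)) .nil))) .nil))))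
noncomputable def t106 : T := .cons 201 (.leaf 177 1423 (.cons 273 (.leaf 297 1614 (.cons 272 (.leaf 271 1977 (.cons 248 (.leaf 247 1979 (.cons 296 (.leaf 295 2170 (.cons 225 (.leaf 224 1605 (.leaf 249 1606 .nil)) .nil)) .nil)) .nil)) .nil)) .nil)) (.cons 227 (.cons 201 (.leaf 177 1423 (.cons 228 (.leaf 229 1611 (.cons 200 (.leaf 199 1592 (.leaf 225 1603 .nil)) .nil)) .nil)) (.cons 203 (.leaf 179 1429 (.cons 204 (.leaf 180 1437 (.cons 205 (.leaf 225 1610 (.leaf 206 1618 .nil)) .nil)) .nil)) (.cons 203 (.leaf 179 1429 (.cons 201 (.leaf 177 1423 (.cons 228 (.leaf 200 1600 (.leaf 229 1611 .nil)) .nil)) .nil)) .nil))) (.cons 201 (.leaf 177 1423 (.cons 200 (.cons 227 (.leaf 199 1592 (.cons 203 (.leaf 228 1600 (.leaf 179 1429 .nil)) .nil)) (.cons 199 (.leaf 227 1592 (.cons 174 (.leaf 175 1395 (.cons 198 (.leaf 173 1387 (.cons 222 (.leaf 221 1578 (.leaf 223 1586 .nil)) .nil)) .nil)) .nil))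 (.cons 273 (.leaf 297 1614 (.cons 272 (.leaf 271 1977 (.cons 248 (.leaf 247 1979 (.cons 203 (.leaf 179 1429 (.cons 176 (.leaf 175 1403 (.cons 224 (.leaf 223 1594 (.leaf 249 1412 .nil)) .nil)) .nil)) .nil)) .nil)) .nil)) .nil))) .nil)) (.cons 225 (.cons 224 (.leaf 223 1784 (.cons 203 (.leaf 179 1429 (.cons 204 (.leaf 227 1601 (.leaf 205 1610 .nil)) .nil)) .nil)) (.cons 273 (.leaf 297 1614 (.cons 272 (.leaf 271 1977 (.cons 248 (.leaf 247 1979 (.cons 296 (.leaf 295 2170 (.cons 320 (.leaf 249 1797 (.cons 343 (.leaf 319 1982 (.cons 344 (.leaf 367 2174 (.cons 345 (.leaf 321 1988 (.leaf 369 2180 .nil)) .nil)) .nil)) .nil)) .nil)) .nil)) .nil)) .nil)) .nil)) .nil)))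
noncomputable def t107 : T := .cons 202 (.leaf 178 1428 (.cons 203 (.cons 179 (.leaf 274 1429 (.cons 155 (.leaf 131 1046 (.leaf 227 1238 .nil)) .nil)) (.cons 225 (.cons 204 (.leaf 205 1610 (.cons 180 (.leaf 227 1437 (.cons 252 (.leaf 253 1803 (.leaf 228 1438 .nil)) .nil)) .nil)) (.cons 204 (.leaf 205 1610 (.cons 227 (.leaf 224 1601 (.leaf 180 1437 .nil)) .nil)) (.cons 252 (.leaf 253 1803 (.cons 224 (.leaf 223 1784 (.leaf 249 1795 .nil)) .nil)) .nil))) (.cons 252 t0 .nil))) .nil)) (.cons 252 (.cons 253 (.cons 273 (.leaf 274 1994 (.cons 249 (.leaf 272 1986 (.cons 229 (.leaf 228 1801 (.leaf 230 1809 .nil)) .nil)) .nil)) (.cons 230 (.leaf 229 1809 (.cons 254 (.leaf 231 1817 (.cons 278 (.leaf 277 2000 (.leaf 279 2008 .nil)) .nil)) .nil)) (.cons 274 (.leaf 273 1994 (.leaf 254 2002 .nil)) .nil))) (.cons 225 (.leaf 253 1803 (.cons 224 (.leaf 223 1784 (.leaf 227 1792 .nil)) .nil)) (.cons 249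 (.cons 224 (.leaf 225 1795 (.cons 248 (.leaf 223 1787 (.cons 272 (.leaf 271 1978 (.leaf 273 1986 .nil)) .nil)) .nil)) (.cons 272 (.leaf 273 1986 (.cons 248 (.leaf 271 1978 (.cons 228 (.leaf 227 1793 (.leaf 229 1801 .nil)) .nil)) .nil)) (.cons 225 (.leaf 224 1795 (.cons 228 (.leaf 229 1801 (.cons 204 (.leaf 180 1438 (.cons 227 (.leaf 205 1609 (.cons 201 (.leaf 200 1603 (.cons 177 (.leaf 153 1228 (.leaf 274 1420 .nil)) .nil)) .nil)) .nil)) .nil)) .nil)) .nil))) .nil))) (.cons 202 (.leaf 178 1428 (.cons 274 t106 .nil)) (.cons 202 (.leaf 178 1428 (.cons 274 (.cons 273 (.leaf 297 1614 (.cons 252 (.leaf 272 1985 (.leaf 253 1994 .nil)) .nil)) (.cons 201 (.leaf 177 1423 (.cons 200 (.cons 227 (.leaf 199 1592 (.cons 203 (.leaf 228 1600 (.leaf 179 1429 .nil)) .nil)) (.cons 199 (.leaf 227 1592 (.cons 174 (.leaf 175 1395 (.cons 198 (.leaf 173 1387 (.cons 222 (.leaf 221 1578 (.leaf 223 1586 .nil))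 .nil)) .nil)) .nil)) (.cons 273 (.leaf 297 1614 (.cons 272 (.leaf 271 1977 (.cons 248 (.leaf 247 1979 (.cons 203 (.leaf 179 1429 (.cons 176 (.leaf 175 1403 (.cons 224 (.leaf 223 1594 (.leaf 249 1412 .nil)) .nil)) .nil)) .nil)) .nil)) .nil)) .nil))) .nil)) (.cons 203 (.leaf 179 1429 (.cons 201 (.cons 200 (.cons 175 (.leaf 176 1403 (.cons 199 (.leaf 174 1395 (.cons 223 (.leaf 222 1586 (.leaf 224 1594 .nil)) .nil)) .nil)) (.cons 228 (.leaf 227 1600 (.cons 204 (.leaf 229 1608 (.cons 180 (.leaf 181 1417 (.leaf 252 1438 .nil)) .nil)) .nil)) .nil)) (.leaf 177 1423 .nil)) .nil)) .nil))) .nil)) (.cons 202 (.leaf 178 1428 (.cons 274 (.cons 273 (.leaf 297 1614 (.cons 252 (.leaf 272 1985 (.leaf 253 1994 .nil)) .nil)) (.cons 201 (.leaf 177 1423 (.cons 273 (.leaf 297 1614 (.cons 272 (.leaf 271 1977 (.cons 248 (.leaf 247 1979 (.cons 296 (.leaf 295 2170 (.cons 225 (.leaf 224 1605 (.leaf 249 1606 .nil))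 .nil)) .nil)) .nil)) .nil)) .nil)) (.cons 203 (.cons 225 (.cons 204 (.leaf 205 1610 (.cons 224 (.leaf 223 1784 (.leaf 201 1602 .nil)) .nil)) (.cons 252 (.leaf 253 1803 (.cons 224 (.leaf 223 1784 (.leaf 249 1795 .nil)) .nil)) (.cons 252 (.leaf 253 1803 (.cons 204 (.leaf 205 1610 (.cons 228 (.leaf 180 1438 (.cons 229 (.leaf 201 1608 (.leaf 249 1801 .nil)) .nil)) .nil)) .nil)) .nil))) (.leaf 179 1429 .nil)) .nil))) .nil)) (.cons 202 (.leaf 178 1428 (.cons 274 (.cons 273 (.leaf 297 1614 (.cons 252 (.leaf 272 1985 (.leaf 253 1994 .nil)) .nil)) (.cons 227 (.cons 201 (.leaf 177 1423 (.cons 228 (.leaf 229 1611 (.cons 200 (.leaf 199 1592 (.leaf 225 1603 .nil)) .nil)) .nil)) (.cons 203 (.leaf 179 1429 (.cons 204 (.leaf 180 1437 (.cons 205 (.leaf 225 1610 (.leaf 206 1618 .nil)) .nil)) .nil)) (.cons 203 (.leaf 179 1429 (.cons 201 (.leaf 177 1423 (.cons 228 (.leaf 200 1600 (.leaf 229 1611 .nil))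 .nil)) .nil)) .nil))) .nil)) .nil)) (.cons 202 (.leaf 178 1428 (.cons 274 (.cons 273 (.leaf 297 1614 (.cons 252 (.leaf 272 1985 (.leaf 253 1994 .nil)) .nil)) (.cons 201 (.leaf 177 1423 (.cons 273 (.leaf 297 1614 (.cons 272 (.leaf 271 1977 (.cons 248 (.leaf 247 1979 (.cons 296 (.leaf 295 2170 (.cons 225 (.leaf 224 1605 (.leaf 249 1606 .nil)) .nil)) .nil)) .nil)) .nil)) .nil)) (.cons 203 (.leaf 179 1429 (.cons 225 (.cons 204 (.leaf 205 1610 (.cons 224 (.leaf 223 1784 (.leaf 201 1602 .nil)) .nil)) (.cons 252 (.leaf 253 1803 (.cons 224 (.leaf 223 1784 (.leaf 227 1792 .nil)) .nil)) (.cons 204 (.leaf 205 1610 (.cons 180 (.leaf 227 1437 (.cons 201 (.leaf 181 1417 (.leaf 177 1423 .nil)) .nil)) .nil)) .nil))) .nil)) .nil))) .nil)) .nil))))))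
noncomputable def t108 : T := .cons 224 t92 (.cons 248 (.cons 224 (.leaf 223 1787 (.cons 272 (.leaf 271 1978 (.cons 273 (.leaf 252 1986 (.cons 297 (.leaf 200 1604 (.leaf 321 1799 .nil)) .nil)) .nil)) .nil)) (.cons 223 (.leaf 224 1787 (.cons 247 (.leaf 274 1976 (.leaf 222 1779 .nil)) .nil)) (.cons 271 (.leaf 272 1978 (.cons 247 (.leaf 274 1976 (.leaf 270 1970 .nil)) .nil)) .nil))) (.cons 248 (.cons 224 (.leaf 223 1787 (.cons 200 (.cons 273 (.leaf 176 1412 (.cons 297 (.leaf 225 1607 (.leaf 321 1799 .nil)) .nil)) (.cons 272 (.leaf 271 1978 (.cons 175 (.leaf 199 1407 (.cons 176 (.leaf 151 1215 (.cons 177 (.leaf 153 1221 (.leaf 201 1413 .nil)) .nil)) .nil)) .nil)) (.cons 272 (.leaf 271 1978 (.cons 201 (.leaf 177 1413 (.cons 296 (.leaf 225 1605 (.cons 297 (.leaf 273 1604 (.leaf 321 1796 .nil)) .nil)) .nil)) .nil)) .nil))) .nil)) (.cons 223 (.leaf 224 1787 (.cons 247 (.leaf 274 1976 (.leaf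 222 1779 .nil)) .nil)) (.cons 271 (.leaf 272 1978 (.cons 247 (.leaf 274 1976 (.leaf 270 1970 .nil)) .nil)) .nil))) (.cons 252 (.cons 225 (.leaf 224 1795 (.cons 253 (.leaf 226 1803 (.cons 229 (.leaf 228 1801 (.leaf 230 1809 .nil)) .nil)) .nil)) (.cons 229 (.leaf 228 1801 (.cons 253 (.leaf 230 1809 (.cons 254 (.leaf 274 2002 (.cons 278 (.leaf 277 2000 (.leaf 279 2008 .nil)) .nil)) .nil)) .nil)) (.cons 248 (.cons 247 (.leaf 274 1976 (.cons 222 (.leaf 223 1779 (.cons 246 (.leaf 221 1771 (.cons 270 (.leaf 269 1962 (.leaf 271 1970 .nil)) .nil)) .nil)) .nil)) (.cons 224 (.leaf 223 1787 (.leaf 225 1795 .nil)) (.cons 247 (.leaf 274 1976 (.cons 270 (.leaf 271 1970 (.cons 246 (.leaf 269 1962 (.cons 225 (.leaf 226 1777 (.leaf 224 1795 .nil)) .nil)) .nil)) .nil)) .nil))) .nil))) (.cons 252 (.cons 225 (.leaf 224 1795 (.cons 253 (.leaf 226 1803 (.cons 229 (.leaf 228 1801 (.leaf 230 1809 .nil)) .nil))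 .nil)) (.cons 273 (.leaf 272 1986 (.cons 253 (.leaf 274 1994 (.cons 229 (.leaf 228 1801 (.leaf 230 1809 .nil)) .nil)) .nil)) (.cons 273 (.leaf 272 1986 (.cons 297 (.cons 225 (.leaf 224 1795 (.cons 296 (.leaf 320 1798 (.cons 298 (.leaf 322 1804 (.cons 274 (.leaf 295 2169 (.leaf 201 1612 .nil)) .nil)) .nil)) .nil)) (.cons 321 (.leaf 226 1805 (.cons 320 (.leaf 344 1990 (.cons 225 (.leaf 224 1795 (.leaf 296 1798 .nil)) .nil)) .nil)) (.cons 321 (.leaf 226 1805 (.cons 345 (.leaf 274 1997 (.cons 346 (.leaf 322 1996 (.leaf 370 2188 .nil)) .nil)) .nil)) .nil))) .nil)) .nil))) (.cons 273 (.cons 272 (.leaf 252 1986 (.cons 271 (.leaf 270 1969 (.leaf 248 1978 .nil)) .nil)) (.cons 297 t28 (.cons 252 (.leaf 272 1986 (.cons 253 (.leaf 274 1994 (.cons 229 (.leaf 228 1801 (.leaf 230 1809 .nil)) .nil)) .nil)) .nil))) .nil)))))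
noncomputable def t109 : T := .cons 248 (.cons 271 (.leaf 272 1978 (.cons 247 (.leaf 270 1970 (.cons 227 (.leaf 226 1785 (.leaf 228 1793 .nil)) .nil)) .nil)) (.cons 223 (.leaf 224 1787 (.cons 247 (.leaf 222 1779 (.cons 227 (.leaf 226 1785 (.leaf 228 1793 .nil)) .nil)) .nil)) (.cons 224 (.leaf 223 1787 (.cons 200 (.cons 273 (.leaf 176 1412 (.cons 297 (.leaf 225 1607 (.leaf 321 1799 .nil)) .nil)) (.cons 272 (.leaf 271 1978 (.cons 175 (.leaf 199 1407 (.cons 176 (.leaf 151 1215 (.cons 177 (.leaf 153 1221 (.leaf 201 1413 .nil)) .nil)) .nil)) .nil)) (.cons 272 (.leaf 271 1978 (.cons 201 (.leaf 177 1413 (.cons 296 (.leaf 225 1605 (.cons 297 (.leaf 273 1604 (.leaf 321 1796 .nil)) .nil)) .nil)) .nil)) .nil))) .nil)) .nil))) (.cons 248 (.cons 223 (.leaf 224 1787 (.cons 247 (.leaf 274 1976 (.leaf 222 1779 .nil)) .nil)) (.cons 224 (.leaf 223 1787 (.cons 252 (.leaf 225 1795 (.cons 272 (.leaf 271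 1978 (.leaf 273 1986 .nil)) .nil)) .nil)) (.cons 271 (.leaf 272 1978 (.cons 247 (.leaf 274 1976 (.leaf 270 1970 .nil)) .nil)) .nil))) (.cons 252 (.cons 225 (.leaf 224 1795 (.cons 253 (.leaf 226 1803 (.cons 229 (.leaf 228 1801 (.leaf 230 1809 .nil)) .nil)) .nil)) (.cons 229 (.leaf 228 1801 (.cons 253 (.leaf 230 1809 (.cons 254 (.leaf 274 2002 (.cons 278 (.leaf 277 2000 (.leaf 279 2008 .nil)) .nil)) .nil)) .nil)) (.cons 248 (.cons 247 (.leaf 274 1976 (.cons 222 (.leaf 223 1779 (.cons 246 (.leaf 221 1771 (.cons 270 (.leaf 269 1962 (.leaf 271 1970 .nil)) .nil)) .nil)) .nil)) (.cons 224 (.leaf 223 1787 (.leaf 225 1795 .nil)) (.cons 247 (.leaf 274 1976 (.cons 270 (.leaf 271 1970 (.cons 246 (.leaf 269 1962 (.cons 225 (.leaf 226 1777 (.leaf 224 1795 .nil)) .nil)) .nil)) .nil)) .nil))) .nil))) (.cons 252 (.cons 225 (.leaf 224 1795 (.cons 253 (.leaf 226 1803 (.cons 229 (.leaf 228 1801 (.leaf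 230 1809 .nil)) .nil)) .nil)) (.cons 273 (.leaf 272 1986 (.cons 253 (.leaf 274 1994 (.cons 229 (.leaf 228 1801 (.leaf 230 1809 .nil)) .nil)) .nil)) (.cons 273 (.leaf 272 1986 (.cons 297 (.cons 225 (.leaf 224 1795 (.cons 296 (.leaf 320 1798 (.cons 298 (.leaf 322 1804 (.cons 274 (.leaf 295 2169 (.leaf 201 1612 .nil)) .nil)) .nil)) .nil)) (.cons 321 (.leaf 226 1805 (.cons 320 (.leaf 344 1990 (.cons 225 (.leaf 224 1795 (.leaf 296 1798 .nil)) .nil)) .nil)) (.cons 321 (.leaf 226 1805 (.cons 345 (.leaf 274 1997 (.cons 346 (.leaf 322 1996 (.leaf 370 2188 .nil)) .nil)) .nil)) .nil))) .nil)) .nil))) (.cons 248 (.cons 272 (.leaf 271 1978 (.cons 252 (.leaf 273 1986 (.cons 228 (.leaf 227 1793 (.leaf 229 1801 .nil)) .nil)) .nil)) (.cons 271 (.leaf 272 1978 (.cons 247 (.leaf 274 1976 (.leaf 270 1970 .nil)) .nil)) (.cons 227 (.leaf 228 1793 (.cons 247 (.leaf 274 1976 (.leaf 226 1785 .nil)) .nil))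 .nil))) .nil))))
noncomputable def top0 : T := .cons 249 t109 (.cons 249 t108 (.cons 226 (.cons 252 t1 t107) (.cons 249 t105 (.cons 202 t102 (.cons 249 t98 (.cons 226 t91 (.cons 226 t88 (.cons 226 t79 (.cons 226 t75 (.cons 202 t71 (.cons 274 t50 (.cons 252 t30 (.cons 226 t27 (.cons 226 t18 (.cons 226 t16 (.cons 226 t6 (.cons 226 t2 .nil)))))))))))))))))

end Vale.Agent.P062.PosA.D0
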